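import Crest.Agent.X212.Dec35.Defs
import Crest.Agent.X212.Bki64.G1

/-!
# Row 212, DEC (helper35): the inputs about the perturbation, the cut family, the statements
-/

set_option autoImplicit false
set_option linter.unusedSectionVars false
noncomputable section
open scoped Manifold ContDiff Topology InnerProductSpace
open MeasureTheory Set Function Filter Real

namespace Crest.Agent.X212.Dec35
open An Map77 Sob92 Nd18 Cyf70
open Tmp64 (Eq0 AdmOn)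
open Bki64 (Cl ClsT win Cn)
open Neck67 (up dn)

variable {E3 : Type} [NormedAddCommGroup E3] [NormedSpace ℝ E3] [FiniteDimensional ℝ E3]
  [MeasurableSpace E3] [BorelSpace E3]
  {H3 : Type} [TopologicalSpace H3] {I3 : ModelWithCorners ℝ E3 H3} [I3.Boundaryless]
  {Y : Type} [TopologicalSpace Y] [ChartedSpace H3 Y] [IsManifold I3 ∞ Y] [T2Space Y]
  [MeasurableSpace Y] [BorelSpace Y] [SecondCountableTopology Y] [CompactSpace Y]
  {κ : Type} [Fintype κ] {lam : Type} [Fintype lam]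

/-- variations of `cy β` -/
abbrev Cz (β : YC Y κ lam) : Type := Y × ℝ → Cv (cy β)

/-- the data of the peaked estimate: `ψ' = -δ ς`, `ς² = 1` where `k ≠ 1` -/
structure Pf (δ ε : ℝ) (ψ ς k : ℝ → ℝ) : Prop where
  sψ : Neck67.Sm ψ
  sς : Neck67.Sm ς
  sk : Neck67.Sm k
  e : deriv ψ = -δ • ς
  s1 : ∀ t, |ς t| ≤ 1
  s2 : ∀ t, |deriv ς t| ≤ ε
  k1 : ∀ t, |k t| ≤ 1
  k2 : ∀ t, k t ≠ 1 → ς t ^ 2 = 1 ∧ deriv ς t = 0

section
variable (D : YD I3 Y κ lam) (β : YC Y κ lam) (τ : Pt (Y × ℝ) (Option κ) lam 0 0)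

/-- smooth variations in all Sobolev spaces -/
structure Vr (u : Cz β) : Prop where
  fl : Fl D.Z.toPre u
  tg : Tg D.B (cy β) u

/-- bounded variations -/
structure Vb (u : Cz β) : Prop where
  cb : D.Z.Cb u
  tg : Tg D.B (cy β) u

/-- the equations at `β + u` -/
abbrev sz (u : Cz β) : Y × ℝ → Ev (cy β) := se D.B D.G τ (cy β) u

/-- INPUT (71): naturality on the cylinder -/
def NatZ : Prop :=
  ∀ (c c' : Cfg (Y × ℝ) (Option κ) lam 0) (u : Y × ℝ → CL c.m.V c'.m.V) (ζ : Circle),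
    c.Adm D.B D.G → c'.Adm D.B D.G → CEq D.Z c c' univ id (fun x b a => D.B.P b a x) D.B.l u ζ →
    ∀ x, τ.D c' x = cs c'.m.J ζ (u x (τ.D c x)) ∧ ∀ s, τ.C c' x s = Eqv71.cj (u x) (τ.C c x s)

/-- INPUT (69): the perturbation is Lipschitz with exponentially decaying memory -/
def P1Z : Prop :=
  (∀ a, Vb D β a → Sm (IC I3) (te τ (cy β) a)) ∧ ∃ γ > 0, ∀ k : ℕ, ∃ k' : ℕ, ∀ C : ℝ, ∃ K : ℝ,
    ∀ a a' : Cz β, Vb D β a → Vb D β a' → D.Z.CB k' a C → D.Z.CB k' a' C → ∀ t m, 0 ≤ m →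
      (∀ s, Lt D k' (a - a') s (m * exp (γ * |s - t|))) →
      Lt D k (te τ (cy β) a - te τ (cy β) a') t (K * m)

/-- INPUT (69): solutions on a neck are approximate solutions on the cylinder over `S` -/
def Asol (γ : ℝ) (k' : ℕ → ℕ) (K : ℕ → ℝ → ℝ) {r : ℕ} (c : Cfg (Y × ℝ) (Option κ) lam r)
    (S : Set ℝ) : Prop :=
  ∀ (k : ℕ) (C : ℝ) (a : Cz β) (u : Y × ℝ → CL c.m.V β.m.V) (t R : ℝ), 1 ≤ R →
    Ioo (t - R) (t + R) ⊆ S → Vb D β a → D.Z.CB (k' k) a C →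
    Cl D.Z c (cf (cy β) a) u (fun _ => 1) (win Y t R) 0 0 →
    Lt D k (sz D β τ a) t (K k C * exp (-γ * R))

/-- INPUT (62, 80, 70): the linearisation `K` of the perturbation at `β`, the `dt`-row `Kt` of the
Hessian, the quadratic estimate and the peaked estimate -/
structure Lz (l : ℝ) (K : Cz β → Y × ℝ → Ev (cy β)) (Kt : Cz β → Y × ℝ → (cy β).m.A)
    (n : Y → Cv (cy β)) (ν : ℝ) : Prop where
  l0 : l ≠ 0
  rw : Rw D β n ν
  sub : ∀ u v, Vr D β u → Vr D β v → K (u - v) = K u - K v ∧ Kt (u - v) = Kt u - Kt v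
  fl : ∀ u, Vr D β u → Fl D.Z.toPre (K u) ∧ Fl D.Z.toPre (Kt u) ∧ (∀ x, Kt u x ∈ (cy β).m.gS x) ∧
    Fl D.Z.toPre (te τ (cy β) u - te τ (cy β) 0)
  gau : ∀ ξ, Fl D.Z.toPre ξ → (∀ x, ξ x ∈ (cy β).m.gS x) →
    lin D.B D.Z (cy β) (dg D.Z (cy β) 1 ξ) = K (dg D.Z (cy β) 1 ξ) ∧ Kt (dg D.Z (cy β) 1 ξ) = 0
  bd : ∃ d > 0, ∀ k, 8 ≤ k → ∀ Dd : ℕ → ℝ, ∃ C ≥ 0, ∃ r₀ > 0, ∀ ψ : ℝ → ℝ,
    Wd D.Z.toPre (fun x => ψ x.2) d Dd → ∀ u, Vr D β u →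
      nw D.Z.toPre k (fun x => ψ x.2) (K u) ≤ C * nw D.Z.toPre k (fun x => ψ x.2) u ∧
      nw D.Z.toPre k (fun x => ψ x.2) (Kt u) ≤ C * nw D.Z.toPre k (fun x => ψ x.2) u ∧
      (nw D.Z.toPre (k + 1) (fun x => ψ x.2) u ≤ r₀ →
        nw D.Z.toPre k (fun x => ψ x.2) (te τ (cy β) u - te τ (cy β) 0 - K u) ≤
          C * nw D.Z.toPre (k + 1) (fun x => ψ x.2) u ^ 2)
  pk : ∃ C ≥ 0, ∃ ε > 0, ∀ G ≥ 0, ∃ δ₀ > 0, ∀ δ, 0 < δ → δ ≤ δ₀ → ∀ ψ ς k, Pf δ ε ψ ς k →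
    ∀ u, Vr D β u → ∀ ρ ≥ 0,
      √(∫ t, (k t * exp (ψ t) * row D n u t) ^ 2) ≤
        ρ + G * D.Z.nrm 0 (D.Z.D none fun x => exp (ψ x.2) • u x) →
      δ * nw D.Z.toPre 0 (fun x => ψ x.2) u ≤
        C * (nw D.Z.toPre 0 (fun x => ψ x.2) (lin D.B D.Z (cy β) u - K u) +
          nw D.Z.toPre 0 (fun x => ψ x.2) (sig D.B D.Z (cy β) l u + Kt u) + ρ)

/-- everything that is used about the critical point and the perturbation -/
structure Hyp (ν : ℝ) : Prop where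
  ok : D.OK
  adm : D.Adm β
  conn : PreconnectedSpace Y
  irr : Irr D β
  crit : sz D β τ 0 = 0
  nat : NatZ D τ
  p1 : P1Z D β τ
  lz : ∃ l K Kt n, Lz D β τ l K Kt n ν
  fix : ν = 0 → Fix D.Z (cy β) univ

end

/-! ### the cut family -/

/-- the cut-off of `[p, q]` -/
def chi (p q t : ℝ) : ℝ := up p 1 t * dn q 1 t

/-- `1` on `[p, q]`, slow return to `0` over the length `L` -/
def ret (L p q t : ℝ) : ℝ := up (p - L) L t * dn (q + L) L t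

/-- the phase function frozen off `[p, q]` -/
def vth (th : ℝ → ℝ) (p q t : ℝ) : ℝ := ∫ s in p..t, chi p q s * deriv th s

/-- the phase of the cut configuration -/
def Th (th : ℝ → ℝ) (L p q c t : ℝ) : ℝ := ret L p q t * (c + vth th p q t)

/-- the cut configuration -/
def Xc {β : YC Y κ lam} (v : Cz β) (th : ℝ → ℝ) (L p q c : ℝ) : Cz β :=
  rot (cy β) (fun x => Th th L p q c x.2) fun x => chi p q x.2 • v x

section
variable (D : YD I3 Y κ lam) (β : YC Y κ lam) (τ : Pt (Y × ℝ) (Option κ) lam 0 0)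

/-- the input of the decay theorem: `e^{i th} (β + v)` is an approximate solution on `[p, q]` -/
structure Inp (γ : ℝ) (k k₁ : ℕ) (η : ℝ) (v : Cz β) (th : ℝ → ℝ) (p q : ℝ) : Prop where
  len : p + 2 ≤ q
  vb : Vb D β v
  v1 : D.Z.CB k₁ v η
  sm : ContDiff ℝ ∞ th
  cb : Neck67.Sm (deriv th)
  t1 : Neck67.Bd k₁ (deriv th) η
  df : ∀ t ∈ Icc p q, Lt D k (sz D β τ (rot (cy β) (fun x => th x.2) v)) t
    (η * exp (-γ * min (t - p) (q - t)))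

end

variable (I3 Y κ lam)

/-- LEAF ERR: the cut configuration is an approximate solution in the weighted norm -/
def ErrStmt : Prop :=
  ∀ (D : YD I3 Y κ lam) (β : YC Y κ lam) (τ : Pt (Y × ℝ) (Option κ) lam 0 0), D.OK → D.Adm β →
    sz D β τ 0 = 0 → NatZ D τ → P1Z D β τ → ∀ γ > 0, ∃ δ₁ > 0, ∀ δ, 0 < δ → δ ≤ δ₁ →
    ∀ (k : ℕ) (Dd : ℕ → ℝ) (A : ℝ), ∃ k₁, ∃ K ≥ 0, ∀ (η L p q c d : ℝ) (v : Cz β) (th ψ : ℝ → ℝ),
      Inp D β τ γ k k₁ η v th p q → η ≤ 1 → 1 ≤ L → |c| ≤ 1 → |c + vth th p q q| ≤ 1 →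
      Wd D.Z.toPre (fun x => ψ x.2) d Dd →
      (∀ t, ψ t ≤ δ * max 0 (L + min (t - p) (q - t)) + A) →
      FL D.Z.toPre k (fun x => exp (ψ x.2) • sz D β τ (Xc v th L p q c) x) ∧
      nw D.Z.toPre k (fun x => ψ x.2) (sz D β τ (Xc v th L p q c)) ≤
        K * exp (δ * L) * (η + (|c| + |c + vth th p q q|) / L)

/-- LEAF FIX: at a point fixed by the circle the phase function can be gauged away -/
def FixStmt : Prop :=
  ∀ (D : YD I3 Y κ lam) (β : YC Y κ lam), D.OK → D.Adm β → PreconnectedSpace Y →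
    Fix D.Z (cy β) univ → ∀ k, ∀ ε > 0, ∃ η > 0, ∀ r (c : Cfg (Y × ℝ) (Option κ) lam r) u θ S,
      ClsT D c β u θ S k η → ∃ u', ClsT D c β u' 0 S k ε

/-- the decay theorem on the cylinder -/
def CoreStmt : Prop :=
  ∀ (D : YD I3 Y κ lam) (β : YC Y κ lam) (τ : Pt (Y × ℝ) (Option κ) lam 0 0) (ν : ℝ),
    Hyp D β τ ν → ∀ γ > 0, ∃ δ > 0, ∀ k, 8 ≤ k → ∀ B > 0, ∃ k₁, ∃ η > 0,
      ∀ (v : Cz β) (th : ℝ → ℝ) (p q : ℝ), Inp D β τ γ k k₁ η v th p q → (ν = 0 → th = 0) →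
      ∃ (u : Cz β) (h : Y × ℝ → En (Fin β.m.N)) (θ : ℝ), Vr D β u ∧
        Eq0 D.Z (cf (cy β) (rot (cy β) (fun x => th x.2 + θ) v)) (cf (cy β) u)
          (univ ×ˢ Ioo (p + 1) (q - 1)) h ∧
        ∀ t ∈ Icc p q, Lt D (k - 3) u t (B * exp (-δ * min (t - p) (q - t)))

/-- **DEC**: exponential decay on bounded gaps, one gauge and one phase -/
def DecStmt : Prop :=
  ∀ (D : YD I3 Y κ lam) (β : YC Y κ lam) (τ : Pt (Y × ℝ) (Option κ) lam 0 0) (ν : ℝ),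
    Hyp D β τ ν → ∀ γ > 0, ∃ d > 0, ∀ (k' : ℕ → ℕ) (K : ℕ → ℝ → ℝ) (k : ℕ), ∀ B > 0, ∃ η > 0,
      ∀ r (c : Cfg (Y × ℝ) (Option κ) lam r) (S : Set ℝ) (a b : ℝ), a ≤ b →
      Asol D β τ γ k' K c S → (∀ s ∈ Icc a b, Ioo (s - η⁻¹) (s + η⁻¹) ⊆ S ∧
        AdmOn c D.B D.G (win Y s η⁻¹) ∧ ∃ u ζ, Cn D c β u ζ (win Y s η⁻¹) η) →
      ∃ u ζ, ∀ s ∈ Icc a b,
        Cl D.Z c (cy β) u (fun _ => ζ) (win Y s 1) k (B * exp (-d * min (s - a) (b - s)))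

/-- LEAF OUT: decay in local gauges and convergence give exponential convergence in one gauge -/
def OutStmt : Prop :=
  ∀ (D : YD I3 Y κ lam) (β : YC Y κ lam), D.OK → D.Adm β →
    ∀ r (c : Cfg (Y × ℝ) (Option κ) lam r) (σ d T : ℝ) (ζ : Circle), (σ = 1 ∨ σ = -1) → 0 < d →
      AdmOn c D.B D.G (univ ×ˢ {s | T < σ * s}) →
      (∀ k, ∃ C T', ∀ s, T' ≤ σ * s → ∃ u ζ', Cl D.Z c (cy β) u (fun _ => ζ') (win Y s 1) k
        (C * exp (-d * |s|))) →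
      (∃ u, ∀ k, ∀ η > 0, ∃ T', Cl D.Z c (cy β) u (fun _ => ζ) (univ ×ˢ {s | T' < σ * s}) k η) →
      ∃ u, ∀ k, ∃ C, ∀ s, T + 2 ≤ σ * s →
        Cl D.Z c (cy β) u (fun _ => ζ) (win Y s 1) k (C * exp (-d * |s|))

end Crest.Agent.X212.Dec35
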