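import Crest.Agent.X212.Cay24.Out

/-!
# Row 212, TAIL (helper35): exponential convergence in one gauge, uniformly in a family
-/

set_option autoImplicit false
set_option linter.unusedSectionVars false
noncomputable section
open scoped Manifold ContDiff Topology InnerProductSpace
open MeasureTheory Set Function Filter Real

namespace Crest.Agent.X212.Dec35
open An Sob92 Cyf70 Neck67 Cmp73 Pj41 Eqv71 Tmp64 Nd18 Bki64 Cay24

variable {E3 : Type} [NormedAddCommGroup E3] [NormedSpace ℝ E3] [FiniteDimensional ℝ E3]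
  [MeasurableSpace E3] [BorelSpace E3]
  {H3 : Type} [TopologicalSpace H3] {I3 : ModelWithCorners ℝ E3 H3} [I3.Boundaryless]
  {Y : Type} [TopologicalSpace Y] [ChartedSpace H3 Y] [IsManifold I3 ∞ Y] [T2Space Y]
  [MeasurableSpace Y] [BorelSpace Y] [SecondCountableTopology Y] [CompactSpace Y]
  {κ : Type} [Fintype κ] {lam : Type} [Fintype lam] {D : YD I3 Y κ lam} {β : YC Y κ lam} {r : ℕ}
  {N : Type} [NormedAddCommGroup N] [NormedSpace ℝ N] {α : Type} {l : Filter α} {σ d T : ℝ} {k : ℕ}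

theorem ev_fst {γ : Type} {p : α × γ → Prop} :
    (∀ᶠ n in l.comap Prod.fst, p n) ↔ ∀ᶠ i in l, ∀ s, p (i, s) := by
  rw [eventually_comap]
  exact eventually_congr (.of_forall fun i => ⟨fun h s => h _ rfl, fun h n e => by subst e; exact h n.2⟩)

theorem ev_of {γ : Type} {p : α → Prop} (h : ∀ᶠ i in l, p i) :
    ∀ᶠ n : α × γ in l.comap Prod.fst, p n.1 := tendsto_comap.eventually h

theorem int_inf {g g' : ℝ → N} {C t : ℝ} (hd : 0 < d) (h0 : 0 ≤ C)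
    (hg : ∀ t, HasDerivAt g (g' t) t) (hz : Tendsto g atTop (𝓝 0))
    (h : ∀ s, t ≤ s → ‖g' s‖ ≤ C * exp (-d * (s - T))) : ‖g t‖ ≤ C / d * exp (-d * (t - T)) := by
  have k2 : ∀ s, HasDerivAt (fun s => C / d * exp (-d * (t - T)) - C / d * exp (-d * (s - T)))
      (C * exp (-d * (s - T))) s := fun s =>
    ((((((hasDerivAt_id' s).sub_const T).const_mul (-d)).exp).const_mul (C / d)).const_sub
      _).congr_deriv (by field_simp)
  have := le_of_tendsto (hz.sub_const (g t)).norm ((eventually_ge_atTop t).mono fun s hs =>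
    (image_norm_le_of_norm_deriv_right_le_deriv_boundary (a := t) (b := s) (f := fun s => g s - g t)
      (fun s _ => ((hg s).sub_const _).continuousAt.continuousWithinAt)
      (fun s _ => ((hg s).sub_const _).hasDerivWithinAt) (by simp) k2 (fun s hs => h s hs.1)
      ⟨hs, le_rfl⟩).trans (sub_le_self _ (by positivity)))
  rwa [zero_sub, norm_neg] at this

variable (D l σ d T k) in
/-- exponential bounds above the height `T`, uniformly in the family -/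
abbrev OF (f : α → Y × ℝ → N) : Prop :=
  OB D.Z.toPre (l.comap Prod.fst) (fun n : α × {s // T ≤ s} => wn Y σ n.2) k
    (fun n => -d * (n.2 - T)) fun n => f n.1

variable (D l σ T k) in
/-- bounds above the height `T`, uniformly in the family -/
abbrev BF (f : α × {s // T ≤ s} → Y × ℝ → N) : Prop :=
  BB D.Z.toPre (l.comap Prod.fst) (fun n : α × {s // T ≤ s} => wn Y σ n.2) k f

theorem OF.of_dt (hσ : σ = 1 ∨ σ = -1) (hd : 0 < d) {f : α → Y × ℝ → N}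
    (hf : ∀ᶠ i in l, Sm (IC I3) (f i) ∧ ∃ C T', ∀ s, T' ≤ s →
      Lb D.Z.toPre (wn Y σ s) k (f i) (C * exp (-d * s)))
    (h : OF D l σ d T k fun i => D.Z.D none (f i)) : OF D l σ d T k f := by
  obtain ⟨C, h0, h⟩ := h
  have m : ∀ y s t, |t - s| < 1 → ((y, σ * t) : Y × ℝ) ∈ wn Y σ s := fun y s t e => by
    have := abs_lt.1 e
    refine ⟨trivial, ?_⟩
    rcases hσ with rfl | rfl <;> constructor <;> linarith
  refine ⟨C / d * exp d, by positivity, ev_fst.2 ?_⟩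
  filter_upwards [ev_fst.1 h, hf] with i h ⟨hf, C', T', hz⟩ s
  refine ⟨win_op _ _, Lb.of_Dw (fun x _ => hf x) fun w hw x hx => ?_⟩
  have h3 := wn_lt hσ hx
  have := int_inf (T := T) (t := σ * x.2) (g := fun t => D.Z.Dw w (f i) (x.1, σ * t))
    (g' := fun t => σ • D.Z.Dw w (D.Z.D none (f i)) (x.1, σ * t)) hd h0 (fun t => by
      rw [show D.Z.Dw w (D.Z.D none (f i)) = _ from (Dw_none (F := D.F.toPre) w hf).symm]
      exact ((hasDerivAt_slice D.F.toPre (sm_Dw w hf) x.1 (σ * t)).scomp t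
        ((hasDerivAt_id' t).const_mul σ)).congr_deriv (by rw [mul_one]; rfl))
    (squeeze_zero_norm' ((eventually_ge_atTop T').mono fun t ht =>
      (hz t ht).Dw w hw _ (m x.1 t t (by simp))) (by
        simpa using (tendsto_exp_atBot.comp (tendsto_id.const_mul_atTop_of_neg
          (neg_neg_of_pos hd))).const_mul C')) fun t ht => by
      rw [norm_smul, norm_eq_abs, show |σ| = 1 by simpa using abs_σ hσ 1, one_mul]
      refine ((h ⟨max t T, le_max_right _ _⟩).2.Dw w hw _ (m x.1 (max t T) t ?_)).trans ?_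
      · rcases le_total t T with e | e
        · rw [max_eq_right e, abs_lt]; constructor <;> linarith [s.2]
        · simp [max_eq_left e]
      · exact mul_le_mul_of_nonneg_left (exp_le_exp.2 (by nlinarith [le_max_left t T])) h0
  rw [σ_σ hσ] at this
  refine this.trans ?_
  rw [mul_assoc _ (exp d), ← exp_add]
  gcongr
  nlinarith

/-- a configuration on the module of `β` -/
abbrev mz (β : YC Y κ lam) (W : (cy β).m.Cn) (Φ : Y × ℝ → β.m.V) (z : EuclideanSpace ℂ (Fin r)) :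
    Cfg (Y × ℝ) (Option κ) lam r := ⟨(cy β).m, W, Φ, z⟩

variable (D) in
/-- admissible and in temporal gauge -/
structure Tp (c : Cfg (Y × ℝ) (Option κ) lam r) : Prop where
  adm : c.Adm D.B D.G
  tmp : Tmp c
  red : Tmp64.Red c

theorem ob_dtF {W : α → (cy β).m.Cn} {Φ : α → Y × ℝ → β.m.V} {z : α → EuclideanSpace ℂ (Fin r)}
    (hc : ∀ᶠ n in l, Tp D (mz β (W n) (Φ n) (z n))) {S : α → Set (Y × ℝ)} {e : α → ℝ}
    (he : ∀ n, e n ≤ 0) {W' : α → β.m.Cn} {Φ' : α → Y → β.m.V}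
    {h : α → Y × ℝ → CL (cy β).m.V (cy β).m.V} {ζ : α → Circle} {C : ℝ} (h0 : 0 ≤ C)
    (H : ∀ᶠ n in l, D.Adm (mv β (W' n) (Φ' n)) ∧ Cl D.Z (mz β (W n) (Φ n) (z n))
      (cy (mv β (W' n) (Φ' n))) (h n) (fun _ => ζ n) (S n) (k + 1) (C * exp (e n)))
    (w : ∀ a, BB D.Z.toPre l S k fun n x => W' n a x.1) (f : BB D.Z.toPre l S k fun n x => Φ' n x.1)
    (hb : BB D.Z.toPre l S k h) :
    (∀ a, OB D.Z.toPre l S k e fun n => D.Z.D none (W n a)) ∧
      OB D.Z.toPre l S k e fun n => D.Z.D none (Φ n) := by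
  have A : ∀ a, OB (N := CL (cy β).m.V (cy β).m.V) D.Z.toPre l S (k + 1) e
      fun n => dA D.Z (mz β (W n) (Φ n) (z n)) (cy (mv β (W' n) (Φ' n))) (h n) a := fun a =>
    ⟨C, h0, H.mono fun _ h => ⟨h.2.op, h.2.A a⟩⟩
  have A' := fun a => (A a).of_le k.le_succ
  have P : OB (N := (cy β).m.V) D.Z.toPre l S (k + 1) e
      fun n => dP (mz β (W n) (Φ n) (z n)) (cy (mv β (W' n) (Φ' n))) (h n) (ζ n) :=
    ⟨C, h0, H.mono fun _ h => ⟨h.2.op, h.2.P⟩⟩
  have y := (bb_circ (F := D.Z.toPre) (k := k) hb.op fun n => (ζ n)⁻¹).clm (csB (cy β).m.J)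
  have q := ((A' none).comp hb).clm (adL : CL (CL (cy β).m.V (cy β).m.V) (CL (cy β).m.V (cy β).m.V))
  refine ⟨fun a => ?_, ((q.app (y.app (((P.of_le k.le_succ).bb he).add
    f))).add (((P.D none).app' y).app' hb.ad)).congr ((H.and hc).mono fun n h x hx =>
      dt_Φ h.1.1 h.2.adm h.2.tmp h.1.2.op h.1.2.iso hx _)⟩
  cases a with
  | none =>
    refine (OB.zero hb.op).congr (hc.mono fun n h x _ => ?_)
    rw [show W n none = fun _ => 0 from funext h.tmp.W]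
    exact congrFun (dv_const _) x
  | some a =>
    exact (OB.rW a he (A none) (A (some a)) (w (some a)) hb).congr ((H.and hc).mono fun n h x hx =>
      dt_W h.1.1 h.2.adm h.2.tmp h.1.2.op h.1.2.iso hx h.2.red a)

section dt
variable {c : Cfg (Y × ℝ) (Option κ) lam r} (hβ : D.Adm β) (hc : c.Adm D.B D.G)
  {g : Y → CL c.m.V (cy β).m.V} (sg' : Sm I3 g)
include hβ hc sg'

theorem dt_dA (a : Option κ) (x : Y × ℝ) : D.Z.D none (dA D.Z c (cy β) (fun x => g x.1) a) x =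
    0 - (g x.1 ∘L D.Z.D none (c.W a) x) ∘L ad (g x.1) := by
  have sg : Sm (IC I3) fun x : Y × ℝ => g x.1 := sm_fst sg'
  have sW : ∀ a, Sm (IC I3) (c.W a) := fun a x => hc.conn.cc.sm a x
  have g0 : ∀ x, dv (IC I3) (D.Z.e none) (fun x => g x.1) x = 0 :=
    congrFun (D_none_fst D.F.toPre sg')
  have s1 : FSm (IC I3) ((cy β).W a) x := hβ.adm.conn.cc.sm a x
  have s2 : FSm (IC I3) (D.Z.D a fun x => g x.1) x := D.Z.sm_D sg a x
  have g1 : dv (IC I3) (D.Z.e none) (D.Z.D a fun x => g x.1) x = 0 :=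
    (congrFun (Dw_none (F := D.F.toPre) [a] sg) x).trans (by
      rw [D_none_fst D.F.toPre sg']; exact congrFun dv_zero x)
  have w0 : dv (IC I3) (D.Z.e none) ((cy β).W a) x = 0 := congrFun (D_none_fst D.F.toPre
    (f := β.W a) fun _ => sm_slice (t := 0) (hβ.adm.conn.cc.sm _ _)) x
  rw [show dA D.Z c (cy β) (fun x => g x.1) a = fun x => (D.Z.D a (fun x => g x.1) x +
    (cy β).W a x ∘L g x.1 - g x.1 ∘L c.W a x) ∘L ad (g x.1) from funext fun x => by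
      rw [ad_trn]; rfl, Pre.D_def]
  erw [dv_cc ((s2.add (s1.cc (sg x))).sub (FSm.cc (sg x) (sW a x))) (FSm.ad (sg x)),
    Wz78.dv_sub' (s2.add (s1.cc (sg x))) (FSm.cc (sg x) (sW a x)), Wz78.dv_add' s2 (s1.cc (sg x)),
    dv_cc s1 (sg x), dv_cc (sg x) (sW a x), dv_ad (sg x), g0, g1, w0]
  simp [ad_zero]
  rfl

theorem dt_dP (ζ : Circle) (x : Y × ℝ) : D.Z.D none (dP c (cy β) (fun x => g x.1) ζ) x =
    csB (cy β).m.J ζ (g x.1 (D.Z.D none c.Φ x)) := by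
  have sg : Sm (IC I3) fun x : Y × ℝ => g x.1 := sm_fst sg'
  have g0 : ∀ x, dv (IC I3) (D.Z.e none) (fun x => g x.1) x = 0 :=
    congrFun (D_none_fst D.F.toPre sg')
  have w0 : dv (IC I3) (D.Z.e none) (cy β).Φ x = 0 := congrFun (D_none_fst D.F.toPre
    (f := β.Φ) fun _ => sm_slice (t := 0) (hβ.adm.sm _)) x
  have s1 := Wz78.SA.app (sg x) (hc.sm x)
  refine (Wz78.dv_sub' (e := D.Z.e none) (Wz78.SA.clm (csB (cy β).m.J ζ) s1)
    (hβ.adm.sm x)).trans ?_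
  rw [w0, dv_clm _ s1.md, dv_app (FSm.md (sg x)) (FSm.md (hc.sm x)), g0, zero_apply, zero_add,
    sub_zero]
  rfl

end dt

theorem alg_h {V : Type} [NormedAddCommGroup V] [NormedSpace ℝ V] {Dh X h W p Dp A Wl : CL V V}
    (h1 : Dh = X + h ∘L W) (h2 : h ∘L p = h) (e : A ∘L p = Dp + Wl ∘L p - p ∘L W) :
    Dh = X + h ∘L (Dp + Wl ∘L p - A ∘L p) := by
  rw [e, sub_sub_cancel, ← ContinuousLinearMap.comp_assoc, h2, h1]

theorem tail_tmp (hσ : σ = 1 ∨ σ = -1) (hd : 0 < d) (hp : Sm I3 β.m.p) {W : α → (cy β).m.Cn}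
    {Φ : α → Y × ℝ → β.m.V} {z : α → EuclideanSpace ℂ (Fin r)} {Wl : α → β.m.Cn}
    {Φl : α → Y → β.m.V} {ζ : α → Circle}
    (hc : ∀ᶠ i in l, Tp D (mz β (W i) (Φ i) (z i)) ∧ D.Adm (mv β (Wl i) (Φl i)) ∧ ∀ k, ∃ C T', ∀ s,
      T' ≤ s → Cl D.Z (mz β (W i) (Φ i) (z i)) (cy (mv β (Wl i) (Φl i))) (fun x => β.m.p x.1)
        (fun _ => ζ i) (wn Y σ s) k (C * exp (-d * s)))
    (hb : ∀ k, ∃ B, ∀ᶠ i in l, ∀ a, Lb D.Z.toPre univ k (fun x => Wl i a x.1) B)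
    (H1 : ∀ k, ∃ B C, ∀ᶠ i in l, ∀ s, T ≤ s →
      Mv D β (mz β (W i) (Φ i) (z i)) (wn Y σ s) k B (C * exp (-d * s))) (k : ℕ) :
    ∃ C, ∀ᶠ i in l, ∀ s, T ≤ s → Cl D.Z (mz β (W i) (Φ i) (z i)) (cy (mv β (Wl i) (Φl i)))
      (fun x => β.m.p x.1) (fun _ => ζ i) (wn Y σ s) k (C * exp (-d * s)) := by
  have op : ∀ᶠ n : α × {s // T ≤ s} in l.comap Prod.fst, IsOpen (wn Y σ n.2) :=
    .of_forall fun _ => win_op _ _
  have he : ∀ n : α × {s // T ≤ s}, -d * (n.2 - T) ≤ 0 := fun n => by nlinarith [n.2.2]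
  have ip : ∀ᶠ i in l, Iso0 (IC I3) (cy β).m (cy β).m univ fun x => β.m.p x.1 :=
    hc.mono fun i h => (Eq0.refl (G := D.G) (admOn_univ.2 h.1.adm)).iso
  choose B C H1 using H1
  choose! W' Φ' u ζ' hu using fun k (n : α × {s // T ≤ s})
    (h : Mv D β (mz β (W n.1) (Φ n.1) (z n.1)) (wn Y σ n.2) k (B k) (C k * exp (-d * n.2))) => h
  change ℕ → α × {s // T ≤ s} → Y × ℝ → CL (cy β).m.V (cy β).m.V at u
  replace H1 := fun k => (ev_fst.2 ((H1 k).mono fun i h (s : {s // T ≤ s}) => h s s.2)).mono (hu k)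
  have hw : ∀ k j, j ≤ k → (∀ a, BF D l σ T j fun n x => W' k n a x.1) ∧
      BF D l σ T j fun n x => Φ' k n x.1 := fun k j hj =>
    ⟨fun a => ⟨_, (H1 k).mono fun n h => ⟨win_op _ _, ((h.2.1 a).of_le hj).sub (subset_univ _)⟩⟩,
      _, (H1 k).mono fun n h => ⟨win_op _ _, (h.2.2.1.of_le hj).sub (subset_univ _)⟩⟩
  replace hu : ∀ k, ∀ᶠ n : α × {s // T ≤ s} in l.comap Prod.fst, D.Adm (mv β (W' k n) (Φ' k n)) ∧
      Cl D.Z (mz β (W n.1) (Φ n.1) (z n.1)) (cy (mv β (W' k n) (Φ' k n))) (u k n) (fun _ => ζ' k n)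
        (wn Y σ n.2) k (|C k| * exp (-d * T) * exp (-d * (n.2 - T))) := fun k =>
    (H1 k).mono fun n h => ⟨h.1, h.2.2.2.mono (win_op _ _) Subset.rfl le_rfl (by
      rw [mul_assoc, ← exp_add, show -d * T + -d * (n.2 - T) = -d * n.2 by ring]
      gcongr; exact le_abs_self _)⟩
  have bp : ∀ k, BF D l σ T k fun _ x => β.m.p x.1 := fun k => BB.fst (F := D.F.toPre) op k hp
  have bl : ∀ k a, BF D l σ T k fun n x => Wl n.1 a x.1 := fun k a => (hb k).imp fun B h =>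
    (ev_of h).mono fun n h => ⟨win_op _ _, (h a).sub (subset_univ _)⟩
  have fin : ∀ k, ((∀ a, OF D l σ d T k fun i => D.Z.D none (W i a)) ∧
      OF D l σ d T k fun i => D.Z.D none (Φ i)) →
      (∀ a, OF D l σ d T k fun i => dA D.Z (mz β (W i) (Φ i) (z i)) (cy (mv β (Wl i) (Φl i)))
        (fun x => β.m.p x.1) a) ∧ OF D l σ d T k fun i =>
        dP (mz β (W i) (Φ i) (z i)) (cy (mv β (Wl i) (Φl i))) (fun x => β.m.p x.1) (ζ i) :=
    fun k key => ⟨fun a => OF.of_dt hσ hd (hc.mono fun i h => ⟨fun x => fsm_dA (sm_fst hp x)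
        (h.1.adm.conn.cc.sm a x) (h.2.1.adm.conn.cc.sm a x),
        (h.2.2 k).imp fun _ h => h.imp fun _ h s hs => (h s hs).A a⟩)
      (((OB.zero op).sub (((key.1 a).comp' (bp k)).comp (bp k).ad)).congr
        ((ev_of hc).mono fun n h x _ => dt_dA h.2.1 h.1.adm hp a x)),
    OF.of_dt hσ hd (hc.mono fun i h => ⟨fun x => ((contMDiffAt_const
        (c := csB (cy β).m.J (ζ i))).clm_apply ((sm_fst hp x).clm_apply (h.1.adm.sm x))).sub
        (h.2.1.adm.sm x), (h.2.2 k).imp fun _ h => h.imp fun _ h s hs => (h s hs).P⟩)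
      (((key.2.app' (bp k)).app' ((bb_circ op fun n => ζ n.1).clm (csB (cy β).m.J))).congr
        ((ev_of hc).mono fun n h x _ => dt_dP h.2.1 h.1.adm hp _ x))⟩
  have b0 : ∀ k, BF D l σ T 0 (u k) := fun k =>
    bb_iso (c' := cy β) (c'' := cy β) op ((hu k).mono fun _ h => h.2.iso)
  have tp := ev_of (γ := {s // T ≤ s}) (hc.mono fun _ h => h.1)
  have key : ∀ k, (∀ a, OF D l σ d T k fun i => D.Z.D none (W i a)) ∧
      OF D l σ d T k fun i => D.Z.D none (Φ i) := fun k => by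
    induction k with
    | zero =>
      exact ob_dtF tp he (by positivity) (hu 1) (hw 1 0 zero_le_one).1 (hw 1 0 zero_le_one).2 (b0 1)
    | succ k ih =>
      refine ob_dtF tp he (by positivity) (hu (k + 2)) (hw _ _ (by omega)).1
        (hw _ _ (by omega)).2 ((b0 _).boot fun j hj hb a => ?_)
      have A : OB (N := CL (cy β).m.V (cy β).m.V) D.Z.toPre (l.comap Prod.fst)
          (fun n : α × {s // T ≤ s} => wn Y σ n.2) j (fun n => -d * (n.2 - T)) fun n =>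
          dA D.Z (mz β (W n.1) (Φ n.1) (z n.1)) (cy (mv β (W' (k + 2) n) (Φ' (k + 2) n)))
            (u (k + 2) n) a :=
        ⟨_, by positivity, (hu (k + 2)).mono fun _ h => ⟨h.2.op, (h.2.A a).of_le (by omega)⟩⟩
      refine ((((A.bb he).comp hb).sub (((hw (k + 2) j (by omega)).1 a).comp hb)).add
        (hb.comp ((((bp (j + 1)).D a).add ((bl j a).comp (bp j))).sub
          (((((fin k ih).1 a).of_le hj).bb he).comp (bp j))))).congr
        (((hu (k + 2)).and ((ev_of hc).and (ev_of ip))).mono fun n h x hx => ?_)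
      exact alg_h (V := (cy β).m.V) (D_h h.1.1 h.2.1.1.adm h.2.1.1.tmp h.1.2.op h.1.2.iso hx a)
        (h.1.2.iso.iso x hx).idem
        (dA_h h.2.1.2.1 h.2.1.1.adm h.2.1.1.tmp isOpen_univ h.2.2 (mem_univ x) a)
  obtain ⟨hA, CP, p0, hP⟩ := fin k (key k)
  choose CA a0 hA using hA
  refine ⟨(CP + ∑ a, CA a) * exp (d * T), ?_⟩
  filter_upwards [ev_fst.1 hP, ev_fst.1 (eventually_all.2 hA), ip] with i h1 h2 h3 s hs
  have e : ∀ C ≤ CP + ∑ a, CA a, C * exp (-d * (s - T)) ≤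
      (CP + ∑ a, CA a) * exp (d * T) * exp (-d * s) := fun C h => by
    rw [mul_assoc, ← exp_add, show d * T + -d * s = -d * (s - T) by ring]
    gcongr
  exact ⟨win_op _ _, h3.mono (subset_univ _), fun a => (h2 ⟨s, hs⟩ a).2.mono (e _
    (le_add_of_nonneg_of_le p0 (Finset.single_le_sum (fun a _ => a0 a) (Finset.mem_univ a)))),
    (h1 ⟨s, hs⟩).2.mono (e _ (le_add_of_nonneg_right (Finset.sum_nonneg fun a _ => a0 a)))⟩

theorem wn_sub (hσ : σ = 1 ∨ σ = -1) {T s : ℝ} (h : T + 1 ≤ s) :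
    wn Y σ s ⊆ univ ×ˢ {s | T < σ * s} := fun _ hx =>
  ⟨trivial, (le_sub_iff_add_le.2 h).trans_lt (wn_lt hσ hx)⟩

/-- the temporal gauge in which the limit is the given one -/
theorem std_tmp (hD : D.OK) (hβ : D.Adm β) (hσ : σ = 1 ∨ σ = -1) (hd : 0 < d)
    {c : Cfg (Y × ℝ) (Option κ) lam r} {ζ : Circle} (hc : AdmOn c D.B D.G (univ ×ˢ {s | T < σ * s}))
    (H1 : ∀ k, ∃ B C T', ∀ s, T' ≤ s → Mv D β c (wn Y σ s) k B (C * exp (-d * s)))
    {u : Y × ℝ → CL c.m.V (cy β).m.V}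
    (H2 : ∀ k, ∀ η > 0, ∃ T', Cl D.Z c (cy β) u (fun _ => ζ) (univ ×ˢ {s | T' < σ * s}) k η) :
    ∃ W Φ z τ, Tp D (mz (r := r) β W Φ z) ∧ Eq0 D.Z c (mz β W Φ z) (univ ×ˢ {s | T + 1 < σ * s}) τ ∧
      ∀ k, ∃ C, ∀ s, T + 2 ≤ s → Cl D.Z (mz β W Φ z) (cy β) (fun x => β.m.p x.1) (fun _ => ζ)
        (wn Y σ s) k (C * exp (-d * s)) := by
  obtain ⟨c', τ, k1, k2, k3, e⟩ := exists_tmp' hD hσ hc
  have e' := e.symm (G := D.G) (hc.mono (prod_mono_right fun s (h : T + 1 < σ * s) =>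
    (lt_add_one T).trans h)) ((admOn_univ.2 k1).mono (subset_univ _))
  obtain ⟨g, hi, hg⟩ := out_tmp hβ k1 k2 k3 (ζ := ζ) (h := fun x => u x ∘L ad (τ x)) hσ hd (fun k => by
    obtain ⟨B, C, T', h⟩ := H1 k
    refine ⟨B, C, ((eventually_ge_atTop T').and ((eventually_ge_atTop (T + 1 + 1)).and
      (eventually_ge_atTop 0))).mono fun s hs => ?_⟩
    obtain ⟨W, Φ, v, ζ', h1, h2, h3, hv⟩ := h s hs.1
    rw [abs_of_nonneg hs.2.2]
    exact ⟨W, Φ, _, ζ', h1, h2, h3, Cay24.cl_pre e' hv (wn_sub hσ hs.2.1)⟩) (fun k ε hε => by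
    obtain ⟨T', h⟩ := H2 k ε hε
    exact ((eventually_ge_atTop (T' + 1)).and (eventually_ge_atTop (T + 1 + 1))).mono fun s hs =>
      Cay24.cl_pre e' (h.mono (win_op _ _) (wn_sub hσ hs.1) le_rfl le_rfl) (wn_sub hσ hs.2)) (T + 2)
  obtain ⟨p1, p2⟩ := psh_spec (G := D.G) hD.B (cyD D).GP k1 hβ.adm.ok hi
  have g0 : ∀ x, dv (IC I3) (D.Z.e none) (fun x => g x.1) x = 0 := congrFun (D_none_fst D.F.toPre
    fun y => sm_slice (t := 0) (hi.su (y, 0) trivial))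
  refine ⟨_, _, _, _, ⟨p1, ⟨fun _ _ _ => rfl, fun _ _ _ _ => rfl, fun _ _ _ => rfl, fun x => ?_⟩,
    red_psh hi⟩, e.trans (p2.mono (subset_univ _)), fun k => (hg k).imp' abs fun C h s hs => ?_⟩
  · have : pshT (IC I3) (D.Z.e none) (fun x => g x.1) (c'.W none) x = 0 := by
      rw [pshT, k2.W, g0]; simp
    exact (show pshW (IC I3) (D.Z.e none) (fun x => g x.1) (c'.W none) x = 0 by
      rw [pshW, this]; simp [ad_zero])
  · refine ((Cay24.cl_pre (p2.symm (admOn_univ.2 k1) (admOn_univ.2 p1)) (h (σ * s) (by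
      rwa [σ_σ hσ])) (subset_univ _)).congr (fun x _ => (hi.iso x trivial).tgt.symm)
      fun _ _ => rfl).mono (win_op _ _) Subset.rfl le_rfl ?_
    rw [abs_σ hσ]
    exact mul_le_mul (le_abs_self _) (exp_le_exp.2 (by nlinarith [le_abs_self s])) (exp_pos _).le
      (abs_nonneg _)

/-- **TAIL**: uniform decay in local gauges and convergence give uniform decay in one gauge -/
theorem outF (hD : D.OK) (hσ : σ = 1 ∨ σ = -1) (hd : 0 < d) (hp : Sm I3 β.m.p)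
    {c : α → Cfg (Y × ℝ) (Option κ) lam r} {Wl : α → β.m.Cn} {Φl : α → Y → β.m.V} {ζ : α → Circle}
    (hc : ∀ᶠ i in l, AdmOn (c i) D.B D.G (univ ×ˢ {s | T < σ * s}) ∧ D.Adm (mv β (Wl i) (Φl i)) ∧
      (∀ k, ∃ B C T', ∀ s, T' ≤ s → Mv D β (c i) (wn Y σ s) k B (C * exp (-d * s))) ∧
      ∃ u, ∀ k, ∀ η > 0, ∃ T', Cl D.Z (c i) (cy (mv β (Wl i) (Φl i))) u (fun _ => ζ i)
        (univ ×ˢ {s | T' < σ * s}) k η)
    (hb : ∀ k, ∃ B, ∀ᶠ i in l, ∀ a, Lb D.Z.toPre univ k (fun x => Wl i a x.1) B)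
    (H1 : ∀ k, ∃ B C, ∀ᶠ i in l, ∀ s, T + 2 ≤ s → Mv D β (c i) (wn Y σ s) k B (C * exp (-d * s))) :
    ∃ v : ∀ i, Y × ℝ → CL (c i).m.V β.m.V,
      (∀ᶠ i in l, ∀ k, ∃ C, ∀ s, T + 2 ≤ s → Cl D.Z (c i) (cy (mv β (Wl i) (Φl i))) (v i)
        (fun _ => ζ i) (wn Y σ s) k (C * exp (-d * s))) ∧
      ∀ k, ∃ C, ∀ᶠ i in l, ∀ s, T + 2 ≤ s → Cl D.Z (c i) (cy (mv β (Wl i) (Φl i))) (v i)
        (fun _ => ζ i) (wn Y σ s) k (C * exp (-d * s)) := by
  have : ∀ᶠ i in l, ∃ p : (cy β).m.Cn × (Y × ℝ → β.m.V) × EuclideanSpace ℂ (Fin r) ×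
      (Y × ℝ → CL (c i).m.V β.m.V), Tp D (mz β p.1 p.2.1 p.2.2.1) ∧
      Eq0 D.Z (c i) (mz β p.1 p.2.1 p.2.2.1) (univ ×ˢ {s | T + 1 < σ * s}) p.2.2.2 ∧
      ∀ k, ∃ C, ∀ s, T + 2 ≤ s → Cl D.Z (mz β p.1 p.2.1 p.2.2.1) (cy (mv β (Wl i) (Φl i)))
        (fun x => β.m.p x.1) (fun _ => ζ i) (wn Y σ s) k (C * exp (-d * s)) :=
    hc.mono fun i ⟨h1, h2, h3, _, h4⟩ =>
      let ⟨W, Φ, z, τ, h⟩ := std_tmp hD h2 hσ hd h1 h3 h4
      ⟨(W, Φ, z, τ), h⟩
  obtain ⟨p, h⟩ := skolem.1 this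
  refine ⟨fun i x => β.m.p x.1 ∘L (p i).2.2.2 x, h.mono fun i h k => (h.2.2 k).imp fun C hC s hs =>
    Cay24.cl_pre h.2.1 (hC s hs) (wn_sub hσ (by linarith)), fun k => ?_⟩
  refine (tail_tmp (T := T + 2) hσ hd hp ((h.and hc).mono fun i h => ⟨h.1.1, h.2.2.1, fun k =>
    (h.1.2.2 k).imp fun C hC => ⟨_, hC⟩⟩) hb (fun k => (H1 k).imp fun B h1 => h1.imp fun C h1 =>
      (h1.and (h.and hc)).mono fun i h s hs => ?_) k).imp fun C h1 => (h1.and h).mono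
        fun i h s hs => Cay24.cl_pre h.2.2.1 (h.1 s hs) (wn_sub hσ (by linarith))
  obtain ⟨W, Φ, v, ζ', h1, h2, h3, hv⟩ := h.1 s hs
  exact ⟨W, Φ, _, ζ', h1, h2, h3, Cay24.cl_pre (h.2.1.2.1.symm (G := D.G) (h.2.2.1.mono
    (prod_mono_right fun s (h : T + 1 < σ * s) => (lt_add_one T).trans h))
    ((admOn_univ.2 h.2.1.1.adm).mono (subset_univ _))) hv (wn_sub hσ (by linarith))⟩

end Crest.Agent.X212.Dec35
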