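import Crest.Agent.X212.Dec35.Un
import Crest.Agent.X212.Dec35.Tl
import Crest.Agent.X212.Bki64.Lm

/-!
# Row 212, DEC-U + ELIM + TAIL (helper35): the outputs
-/

set_option autoImplicit false
set_option linter.unusedSectionVars false
noncomputable section
open scoped Manifold ContDiff Topology InnerProductSpace
open MeasureTheory Set Function Filter Real

namespace Crest.Agent.X212.Dec35
open An Map77 Sob92 Nd18 Cyf70
open Tmp64 (AdmOn)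
open Bki64 (Cl win Cn Nr cl_of_cls win_op)
open Cay24 (wn Mv)

variable {E3 : Type} [NormedAddCommGroup E3] [NormedSpace ℝ E3] [FiniteDimensional ℝ E3]
  [MeasurableSpace E3] [BorelSpace E3]
  {H3 : Type} [TopologicalSpace H3] {I3 : ModelWithCorners ℝ E3 H3} [I3.Boundaryless]
  {Y : Type} [TopologicalSpace Y] [ChartedSpace H3 Y] [IsManifold I3 ∞ Y] [T2Space Y]
  [MeasurableSpace Y] [BorelSpace Y] [SecondCountableTopology Y] [CompactSpace Y]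
  {κ : Type} [Fintype κ] {lam : Type} [Fintype lam]
  {D : YD I3 Y κ lam} {β : YC Y κ lam} {γ d σ T L : ℝ} {k' : ℕ → ℕ} {K : ℕ → ℝ → ℝ} {r : ℕ}
  {𝒯 : Set (Pt (Y × ℝ) (Option κ) lam 0 0)} {τ : Pt (Y × ℝ) (Option κ) lam 0 0}
  {α : Type} {l : Filter α}

theorem Asol.mono {c : Cfg (Y × ℝ) (Option κ) lam r} {S S' : Set ℝ} (h : Asol D β τ γ k' K c S)
    (e : S' ⊆ S) : Asol D β τ γ k' K c S' := fun k C a u t R h1 h2 => h k C a u t R h1 (h2.trans e)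

/-- the times at depth `L` -/
def inn (L : ℝ) (J : Set ℝ) : Set ℝ := {s | Ioo (s - L) (s + L) ⊆ J}

/-- **DEC-IN**: the field `Bki64.In.dec`, the input of `Nck90.dec_cd` -/
theorem dec_in (h : DecU D β γ d 𝒯) (hL : 0 ≤ L) {ρ : α → ℕ}
    {c : ∀ n, Cfg (Y × ℝ) (Option κ) lam (ρ n)} {J : α → Set ℝ}
    (hc : ∀ᶠ n in l, AdmOn (c n) D.B D.G (univ ×ˢ J n) ∧
      ∃ τ ∈ 𝒯, Asol D β τ γ k' K (c n) (inn L (J n))) (k : ℕ) (B : ℝ) (hB : 0 < B) :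
    ∃ η > 0, ∀ᶠ n in l, ∀ a b, a ≤ b → (∀ s ∈ Icc a b, Nr D (c n) (J n) s β η) →
      ∃ u ζ, ∀ s ∈ Icc a b, Cl D.Z (c n) (cy β) u (fun _ => ζ) (win Y s 1) k
        (B * exp (-d * min (s - a) (b - s))) := by
  obtain ⟨η, p, h⟩ := h k' K k B hB
  have p' : 0 < η⁻¹ + L := by positivity
  refine ⟨(η⁻¹ + L)⁻¹, inv_pos.2 p', hc.mono fun n ⟨a1, τ, a2, a3⟩ a b hab hn =>
    h τ a2 _ _ _ a b hab a3 fun s hs => ?_⟩
  obtain ⟨b1, b2⟩ := (hn s hs).mono (inv_pos.2 p') ((inv_le_comm₀ p' p).2 (by linarith))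
  have b3 := (hn s hs).1
  rw [inv_inv] at b3
  exact ⟨fun t ht => (Ioo_subset_Ioo (by linarith [ht.1]) (by linarith [ht.2])).trans b3,
    a1.mono (prod_mono_right b1), b2⟩

/-- decay in local gauges above the height `a` -/
theorem dec_end (h : DecU D β γ d 𝒯) (hσ : σ = 1 ∨ σ = -1) (k : ℕ) : ∃ η > 0, ∀ τ ∈ 𝒯,
    ∀ (c : Cfg (Y × ℝ) (Option κ) lam r) (a : ℝ), T + η⁻¹ ≤ a →
    AdmOn c D.B D.G (univ ×ˢ {s | T < σ * s}) → Asol D β τ γ k' K c {s | T < σ * s} →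
    (∀ s, a ≤ s → ∃ u ζ, Cn D c β u ζ (win Y (σ * s) η⁻¹) η) → ∀ s, a ≤ s →
      ∃ u ζ, Cl D.Z c (cy β) u (fun _ => ζ) (wn Y σ s) k (exp (d * a) * exp (-d * s)) := by
  obtain ⟨η, p, h⟩ := h k' K k 1 one_pos
  refine ⟨η, p, fun τ hτ c a a1 ha hs hn s a2 => ?_⟩
  obtain ⟨u, ζ, hu⟩ := h τ hτ r c _ (σ * s - (s - a)) (σ * s + (s - a)) (by linarith) hs
    fun t ht => by
      have sub : Ioo (t - η⁻¹) (t + η⁻¹) ⊆ {s | T < σ * s} := fun x hx => show T < σ * x by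
        rcases hσ with rfl | rfl <;> linarith [ht.1, ht.2, hx.1, hx.2]
      have e : σ * (σ * t) = t := by rcases hσ with rfl | rfl <;> simp
      exact ⟨sub, ha.mono (prod_mono_right sub), e ▸ hn (σ * t) (by
        rcases hσ with rfl | rfl <;> linarith [ht.1, ht.2])⟩
  refine ⟨u, ζ, (hu _ ⟨by linarith, by linarith⟩).mono (win_op _ 1) Subset.rfl le_rfl (le_of_eq ?_)⟩
  rw [sub_sub_cancel, add_sub_cancel_left, min_self, one_mul, ← exp_add]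
  congr 1
  ring

theorem win_end (hσ : σ = 1 ∨ σ = -1) {s R : ℝ} (h : T + R ≤ s) :
    win Y (σ * s) R ⊆ univ ×ˢ {s | T < σ * s} := prod_mono_right fun x hx => show T < σ * x by
  rcases hσ with rfl | rfl <;> linarith [hx.1, hx.2]

/-- decay in local gauges along an end with a limit -/
theorem dec_lim (h : DecU D β γ d 𝒯) (hσ : σ = 1 ∨ σ = -1) (hτ : τ ∈ 𝒯)
    {c : Cfg (Y × ℝ) (Option κ) lam r} {ζ : Circle} (ha : AdmOn c D.B D.G (univ ×ˢ {s | T < σ * s}))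
    (hs : Asol D β τ γ k' K c {s | T < σ * s}) {u : Y × ℝ → CL c.m.V β.m.V}
    (hu : ∀ k, ∀ η > 0, ∃ T', Cl D.Z c (cy β) u (fun _ => ζ) (univ ×ˢ {s | T' < σ * s}) k η)
    (k : ℕ) : ∃ C a, ∀ s, a ≤ s →
      ∃ u ζ, Cl D.Z c (cy β) u (fun _ => ζ) (wn Y σ s) k (C * exp (-d * s)) := by
  obtain ⟨η, p, h⟩ := dec_end (T := T) (r := r) (k' := k') (K := K) h hσ k
  obtain ⟨T', h1⟩ := hu ⌈η⁻¹⌉₊ η p
  exact ⟨_, max T T' + η⁻¹, h τ hτ c _ (by simp) ha hs fun s hs => ⟨u, ζ, h1.mono (win_op _ _)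
    (win_end hσ (by linarith [le_max_right T T'])) le_rfl le_rfl⟩⟩

/-- **TAIL** on the cylinder: `hn` uniform nearness far out, `hb` local bounds at bounded height -/
theorem tailZ (hD : D.OK) (hβ : D.Adm β) (hd : 0 < d) (h : DecU D β γ d 𝒯) (hσ : σ = 1 ∨ σ = -1)
    {c : α → Cfg (Y × ℝ) (Option κ) lam r} {ζ : α → Circle}
    (hc : ∀ᶠ i in l, AdmOn (c i) D.B D.G (univ ×ˢ {s | T < σ * s}) ∧
      (∃ τ ∈ 𝒯, Asol D β τ γ k' K (c i) {s | T < σ * s}) ∧ ∃ u, ∀ k, ∀ η > 0, ∃ T',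
        Cl D.Z (c i) (cy β) u (fun _ => ζ i) (univ ×ˢ {s | T' < σ * s}) k η)
    (hn : ∀ η > 0, ∃ T', ∀ᶠ i in l, ∀ s, T' ≤ s → ∃ u ξ, Cn D (c i) β u ξ (win Y (σ * s) η⁻¹) η)
    (hb : ∀ k T', ∃ C, ∀ᶠ i in l, ∀ s ∈ Icc (T + 2) T',
      ∃ u ξ, Cl D.Z (c i) (cy β) u (fun _ => ξ) (wn Y σ s) k C) :
    ∃ v : ∀ i, Y × ℝ → CL (c i).m.V β.m.V,
      (∀ᶠ i in l, ∀ k, ∃ C, ∀ s, T + 2 ≤ s →
        Cl D.Z (c i) (cy β) (v i) (fun _ => ζ i) (wn Y σ s) k (C * exp (-d * s))) ∧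
      ∀ k, ∃ C, ∀ᶠ i in l, ∀ s, T + 2 ≤ s →
        Cl D.Z (c i) (cy β) (v i) (fun _ => ζ i) (wn Y σ s) k (C * exp (-d * s)) := by
  choose B _ b1 b2 using Cay24.lb_cy hβ
  refine outF (Wl := fun _ => β.W) (Φl := fun _ => β.Φ) hD hσ hd
    (sm_slice_fst hβ.adm.ok.sp 0) (hc.mono fun i ⟨a1, ⟨τ, a2, a3⟩, u, a4⟩ =>
      ⟨a1, hβ, fun k => ?_, u, a4⟩) (fun k => ⟨B k, .of_forall fun _ => b1 k⟩) fun k => ?_
  · obtain ⟨C, a, h⟩ := dec_lim h hσ a2 a1 a3 a4 k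
    exact ⟨B k, C, a, fun s hs => let ⟨u, ξ, h⟩ := h s hs; ⟨β.W, β.Φ, u, ξ, hβ, b1 k, b2 k, h⟩⟩
  obtain ⟨η, p, h⟩ := dec_end (T := T) (r := r) (k' := k') (K := K) h hσ k
  obtain ⟨T', h1⟩ := hn η p
  set a := max T T' + η⁻¹
  obtain ⟨C, h2⟩ := hb k a
  refine ⟨B k, (|C| + 1) * exp (d * a), ?_⟩
  filter_upwards [hc, h1, h2] with i ⟨a1, ⟨τ, a2, a3⟩, _⟩ a4 a5 s hs
  have e : 0 < exp (d * a) * exp (-d * s) := by positivity
  rcases le_total s a with e1 | e1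
  · obtain ⟨u, ξ, h⟩ := a5 s ⟨hs, e1⟩
    have : 1 ≤ exp (d * a) * exp (-d * s) := by rw [← exp_add]; exact one_le_exp (by nlinarith)
    exact ⟨β.W, β.Φ, u, ξ, hβ, b1 k, b2 k, h.mono h.op Subset.rfl le_rfl (by
      nlinarith [le_abs_self C, abs_nonneg C])⟩
  · obtain ⟨u, ξ, h⟩ := h τ a2 (c i) a (by simp [a]) a1 a3 (fun s hs => a4 s (by
      linarith [le_max_right T T', inv_pos.2 p])) s e1
    exact ⟨β.W, β.Φ, u, ξ, hβ, b1 k, b2 k, h.mono h.op Subset.rfl le_rfl (by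
      nlinarith [abs_nonneg C])⟩

theorem side {l : Filter ℝ} (hl : l = atTop ∨ l = atBot) : ∃ σ : ℝ, (σ = 1 ∨ σ = -1) ∧
    ∀ S, S ∈ l ↔ ∃ T, {s | T < σ * s} ⊆ S := by
  rcases hl with rfl | rfl
  · exact ⟨1, .inl rfl, fun S => (atTop_basis_Ioi.mem_iff).trans (by simp [Ioi])⟩
  · refine ⟨-1, .inr rfl, fun S => (atBot_basis_Iio.mem_iff).trans
      ⟨fun ⟨a, _, h⟩ => ⟨-a, fun s hs => h ?_⟩, fun ⟨a, h⟩ => ⟨-a, trivial, fun s hs => h ?_⟩⟩⟩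
    · simpa using hs
    · simpa [lt_neg] using hs

/-- **ELIM** on the cylinder -/
theorem elimZ (hD : D.OK) (hβ : D.Adm β) (hd : 0 < d) (h : DecU D β γ d 𝒯) (hτ : τ ∈ 𝒯)
    {l : Filter ℝ} (hl : l = atTop ∨ l = atBot) {c : Cfg (Y × ℝ) (Option κ) lam r} {ζ : Circle}
    {J S₀ : Set ℝ} (hS : S₀ ∈ l) (ha : AdmOn c D.B D.G (univ ×ˢ J)) (hs : Asol D β τ γ k' K c S₀)
    (H : ∃ u, ∀ k, ∀ η > 0, ∃ S ∈ l, S ⊆ J ∧ D.Cls c β u ζ S k η) :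
    ∃ u, ∃ S ∈ l, S ⊆ J ∧ D.Cls c β u ζ S 0 1 ∧ ∀ k, ∃ C, ∀ s, Ioo (s - 1) (s + 1) ⊆ S →
      D.Cls c β u ζ (Ioo (s - 1) (s + 1)) k (C * exp (-d * |s|)) := by
  obtain ⟨σ, hσ, e⟩ := side hl
  obtain ⟨u, H⟩ := H
  obtain ⟨S₁, a1, a2, -⟩ := H 0 1 one_pos
  obtain ⟨T, hT⟩ := (e _).1 (inter_mem hS a1)
  have hJ := (hT.trans inter_subset_right).trans a2
  have ha' := ha.mono (prod_mono_right hJ)
  have op : ∀ T : ℝ, IsOpen {s : ℝ | T < σ * s} := fun T => isOpen_lt (by fun_prop) (by fun_prop)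
  have hu : ∀ k, ∀ η > 0, ∃ T', Cl D.Z c (cy β) u (fun _ => ζ) (univ ×ˢ {s | T' < σ * s}) k η :=
    fun k η p => let ⟨S, b1, b2, b3⟩ := H k η p; let ⟨T', b4⟩ := (e _).1 b1
      ⟨T', (cl_of_cls hβ (ha.mono (prod_mono_right b2)) b3).mono (isOpen_univ.prod (op _))
        (prod_mono_right b4) le_rfl le_rfl⟩
  have ee : ∀ s, σ * (σ * s) = s := fun s => by rcases hσ with rfl | rfl <;> simp
  have ab : ∀ s, 0 ≤ σ * s → |s| = σ * s := fun s hs => by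
    rw [← abs_of_nonneg hs, abs_mul]; rcases hσ with rfl | rfl <;> simp
  obtain ⟨v, hv⟩ := Cay24.out D β hD hβ r c σ d T ζ hσ hd ha' (fun k => by
    obtain ⟨C, a, h⟩ := dec_lim h hσ hτ ha' (hs.mono (hT.trans inter_subset_left)) hu k
    refine ⟨C, max a 0, fun s hs => ?_⟩
    simpa only [wn, ee, ab s ((le_max_right _ _).trans hs)] using
      h _ ((le_max_left _ _).trans hs)) ⟨u, hu⟩
  obtain ⟨C, hC⟩ := hv 0
  obtain ⟨R, r1, r2⟩ : ∃ R, max T 0 + 2 ≤ R ∧ ∀ s, R ≤ s → C * exp (-d * s) ≤ 1 := by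
    have t : Tendsto (fun s : ℝ => C * exp (-d * s)) atTop (𝓝 (C * 0)) :=
      (tendsto_exp_atBot.comp (tendsto_id.const_mul_atTop_of_neg (neg_neg_of_pos hd))).const_mul C
    obtain ⟨R, hR⟩ := eventually_atTop.1 (t.eventually (ge_mem_nhds (show C * 0 < 1 by simp)))
    exact ⟨max _ R, le_max_left _ _, fun s hs => hR s ((le_max_right _ _).trans hs)⟩
  have m1 := le_max_left T 0
  have m2 := le_max_right T 0
  have sub : {s | R < σ * s} ⊆ {s | T < σ * s} := fun s (hs : R < σ * s) => show T < _ by linarith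
  refine ⟨v, _, (e _).2 ⟨R, Subset.rfl⟩, sub.trans hJ, Bki64.Cl.cls hβ (op R)
    (ha'.mono (prod_mono_right sub)) (.of_local (isOpen_univ.prod (op R)) fun x hx => ?_),
    fun k => (hv k).imp fun C h s hs => ?_⟩
  · have : R < σ * x.2 := hx.2
    have k := hC x.2 (by linarith)
    exact ⟨win Y x.2 1, v, _, ⟨trivial, by simp⟩, .rfl, .rfl, k.mono k.op Subset.rfl le_rfl (by
      rw [ab _ (by linarith)]; exact r2 _ this.le)⟩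
  · have : R < σ * s := hs ⟨by simp, by simp⟩
    exact Bki64.Cl.cls hβ isOpen_Ioo (ha'.mono (prod_mono_right (hs.trans sub))) (h s (by linarith))

theorem asol_noz {c : Cfg (Y × ℝ) (Option κ) lam r} {S : Set ℝ} :
    Asol D β τ γ k' K (noz c) S ↔ Asol D β τ γ k' K c S :=
  ⟨fun h k C a u t R h1 h2 h3 h4 e => h k C a u t R h1 h2 h3 h4 ⟨e.op, e.iso, e.A, e.P⟩,
    fun h k C a u t R h1 h2 h3 h4 e => h k C a u t R h1 h2 h3 h4 ⟨e.op, e.iso, e.A, e.P⟩⟩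

theorem cls_sub {c : Cfg (Y × ℝ) (Option κ) lam r} {u ζ S S' k η} (h : D.Cls c β u ζ S k η)
    (o : IsOpen S') (e : S' ⊆ S) : D.Cls c β u ζ S' k η :=
  have e := prod_mono_right (s := (univ : Set Y)) e
  ⟨o, ⟨h.m.su.mono e, fun x hx => h.m.uu x (e hx), fun x hx => h.m.uu' x (e hx),
    fun x hx => h.m.J x (e hx), fun x hx => h.m.ρ x (e hx), fun x hx => h.m.j x (e hx)⟩,
    fun a w j x hx => h.A a w j x (e hx), fun w j x hx => h.P w j x (e hx)⟩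

theorem cl_noz (hβ : D.Adm β) {c : Cfg (Y × ℝ) (Option κ) lam r} {u ζ S S' k η}
    (ha : AdmOn (noz c) D.B D.G S') (e : univ ×ˢ S ⊆ S') (h : D.Cls c β u ζ S k η) :
    Cl D.Z (noz c) (cy β) u (fun _ => ζ) (univ ×ˢ S) k η :=
  cl_of_cls (c := noz c) hβ (ha.mono e) ⟨h.op, h.m, h.A, h.P⟩

theorem cls_noz (hβ : D.Adm β) {c : Cfg (Y × ℝ) (Option κ) lam r} {u ζ S S' k η} (hS : IsOpen S)
    (ha : AdmOn (noz c) D.B D.G S') (e : univ ×ˢ S ⊆ S')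
    (h : Cl D.Z (noz c) (cy β) u (fun _ => ζ) (univ ×ˢ S) k η) : D.Cls c β u ζ S k η :=
  let h := Bki64.Cl.cls (c := noz c) hβ hS (ha.mono e) h; ⟨h.op, h.m, h.A, h.P⟩

/-- **TAIL**; for `c i = P.K.pb _` and `σ = P.sg` the conclusion is `End.EB .. d (T + 2)` -/
theorem tail (hD : D.OK) (hβ : D.Adm β) (hd : 0 < d) (h : DecU D β γ d 𝒯) (hσ : σ = 1 ∨ σ = -1)
    {ρ : α → ℕ} {c : ∀ i, Cfg (Y × ℝ) (Option κ) lam (ρ i)} {ζ : α → Circle}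
    (hc : ∀ᶠ i in l, AdmOn (noz (c i)) D.B D.G (univ ×ˢ {s | T < σ * s}) ∧
      (∃ τ ∈ 𝒯, Asol D β τ γ k' K (c i) {s | T < σ * s}) ∧
        ∃ u, ∀ k, ∀ η > 0, ∃ T', D.Cls (c i) β u (ζ i) {s | T' < σ * s} k η)
    (hn : ∀ η > 0, ∃ T', ∀ᶠ i in l, ∀ s, T' ≤ s →
      ∃ u ξ, D.Cls (c i) β u ξ (Ioo (σ * s - η⁻¹) (σ * s + η⁻¹)) ⌈η⁻¹⌉₊ η)
    (hb : ∀ k T', ∃ C, ∀ᶠ i in l, ∀ s ∈ Icc (T + 2) T',
      ∃ u ξ, D.Cls (c i) β u ξ (Ioo (σ * s - 1) (σ * s + 1)) k C) :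
    ∃ v : ∀ i, Y × ℝ → CL (c i).m.V β.m.V, (∀ᶠ i in l, ∀ k, ∃ C, ∀ s, T + 2 ≤ s →
        D.Cls (c i) β (v i) (ζ i) (Ioo (σ * s - 1) (σ * s + 1)) k (C * exp (-d * s))) ∧
      ∀ k, ∃ C, ∀ᶠ i in l, ∀ s, T + 2 ≤ s →
        D.Cls (c i) β (v i) (ζ i) (Ioo (σ * s - 1) (σ * s + 1)) k (C * exp (-d * s)) := by
  have op : ∀ T : ℝ, IsOpen {s : ℝ | T < σ * s} := fun T => isOpen_lt (by fun_prop) (by fun_prop)
  obtain ⟨v, h1, h2⟩ := tailZ (c := fun i => noz (c i)) (ζ := ζ) (T := T) hD hβ hd h hσ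
    (hc.mono fun i ⟨a1, ⟨τ, a2, a3⟩, u, a4⟩ => ⟨a1, ⟨τ, a2, asol_noz.2 a3⟩, u, fun k η p => by
      obtain ⟨T', a5⟩ := a4 k η p
      have e := fun T₁ (h : T₁ ≤ max T T') (s : ℝ) (hs : max T T' < σ * s) => h.trans_lt hs
      exact ⟨max T T', cl_noz hβ a1 (prod_mono_right (e _ (le_max_left _ _)))
        (cls_sub a5 (op _) (e _ (le_max_right _ _)))⟩⟩)
    (fun η p => let ⟨T', a⟩ := hn η p
      ⟨max T' (T + η⁻¹), (a.and hc).mono fun i a s hs =>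
        let ⟨u, ξ, b⟩ := a.1 s ((le_max_left _ _).trans hs)
        ⟨u, ξ, cl_noz hβ a.2.1 (win_end hσ ((le_max_right _ _).trans hs)) b⟩⟩)
    fun k T' => (hb k T').imp fun C a => (a.and hc).mono fun i a s hs =>
      let ⟨u, ξ, b⟩ := a.1 s hs; ⟨u, ξ, cl_noz hβ a.2.1 (win_end hσ (by linarith [hs.1])) b⟩
  exact ⟨v, (h1.and hc).mono fun i a k => (a.1 k).imp fun C b s hs => cls_noz hβ isOpen_Ioo a.2.1
    (win_end hσ (by linarith)) (b s hs), fun k => (h2 k).imp fun C a => (a.and hc).mono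
      fun i a s hs => cls_noz hβ isOpen_Ioo a.2.1 (win_end hσ (by linarith)) (a.1 s hs)⟩

section nk
variable {E : Type} [NormedAddCommGroup E] [NormedSpace ℝ E] [FiniteDimensional ℝ E]
  [MeasurableSpace E] [BorelSpace E]
  {HM : Type} [TopologicalSpace HM] {I : ModelWithCorners ℝ E HM} [I.Boundaryless]
  {M : Type} [TopologicalSpace M] [ChartedSpace HM M] [IsManifold I ∞ M]
  [MeasurableSpace M] [BorelSpace M] [T2Space M] [SecondCountableTopology M]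
  {B : Base M (Option κ) lam} {G : Geo I M (Option κ) lam} {K₀ : Nk D B G}
  {c : Cfg M (Option κ) lam r} {l : Filter ℝ} {ζ : Circle}

/-- **ELIM** -/
theorem elim (hD : D.OK) (hβ : D.Adm β) (hd : 0 < d) (h : DecU D β γ d 𝒯) (hτ : τ ∈ 𝒯)
    (hl : l = atTop ∨ l = atBot) (ha : Eqv71.Ad0 c B G) {S₀ : Set ℝ} (hS : S₀ ∈ l)
    (hs : Asol D β τ γ k' K (K₀.pb c) S₀) (H : K₀.Lim c β ζ l) : K₀.ELim d c β ζ l := by
  obtain ⟨u, H⟩ := H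
  obtain ⟨v, S, a1, a2, a3, a4⟩ := elimZ (c := noz (K₀.pb c)) hD hβ hd h hτ hl hS
    (Eqv71.admOn_pb K₀ ha Subset.rfl) (asol_noz.2 hs) ⟨u, fun k η p =>
      let ⟨S, b1, b2, b⟩ := H k η p; ⟨S, b1, b2, b.op, b.m, b.A, b.P⟩⟩
  exact ⟨v, S, a1, a2, ⟨a3.op, a3.m, a3.A, a3.P⟩, fun k => (a4 k).imp fun C b s hs =>
    ⟨(b s hs).op, (b s hs).m, (b s hs).A, (b s hs).P⟩⟩

end nk

end Crest.Agent.X212.Dec35
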