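import Crest.Agent.X212.Hm83.Main

/-!
# Row 212, DEC (helper35): calculus of `Fl` and of the weighted norms
-/

set_option autoImplicit false
set_option linter.unusedSectionVars false
noncomputable section
open scoped Manifold ContDiff Topology InnerProductSpace
open MeasureTheory Set Function Filter Real

namespace Crest.Agent.X212.Dec35
open An Sob92 Hm83

variable {E : Type} [NormedAddCommGroup E] [NormedSpace ℝ E] [FiniteDimensional ℝ E]
  [MeasurableSpace E] [BorelSpace E]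
  {HM : Type} [TopologicalSpace HM] {I : ModelWithCorners ℝ E HM} [I.Boundaryless]
  {M : Type} [TopologicalSpace M] [ChartedSpace HM M] [IsManifold I ∞ M] [MeasurableSpace M]
  [T2Space M] [BorelSpace M] [SecondCountableTopology M] {ι : Type} [Fintype ι]
  {N N' N'' : Type} [NormedAddCommGroup N] [NormedSpace ℝ N] [NormedAddCommGroup N']
  [NormedSpace ℝ N'] [NormedAddCommGroup N''] [NormedSpace ℝ N'']
  {U V W : Type} [NormedAddCommGroup U] [InnerProductSpace ℝ U] [FiniteDimensional ℝ U]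
  [NormedAddCommGroup V] [InnerProductSpace ℝ V] [FiniteDimensional ℝ V]
  [NormedAddCommGroup W] [InnerProductSpace ℝ W] [FiniteDimensional ℝ W]
  {F : Fr I M ι} {C : ℕ → ℝ}

theorem Fl.of_hcs {u : M → N} (hu : Sm I u) (hc : HasCompactSupport u) : Fl F.toPre u :=
  ⟨hu, fun k => FL_of_hcs k hu hc⟩

theorem Fl.zero : Fl F.toPre (0 : M → N) := .of_hcs contMDiff_const HasCompactSupport.zero

theorem Fl.bil (B : N →L[ℝ] N' →L[ℝ] N'') {f : M → N} {u : M → N'} (hf : F.Cb f)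
    (hu : Fl F.toPre u) : Fl F.toPre fun x => B (f x) (u x) :=
  let ⟨_, h⟩ := hf
  ⟨smooth_bil B h.1 hu.sm, fun k => (N2_mul B h.1 hu.sm (h.2 k) (hu.fl k)).1⟩

theorem Fl.app {f : M → N →L[ℝ] N'} {u : M → N} (hf : F.Cb f) (hu : Fl F.toPre u) :
    Fl F.toPre fun x => f x (u x) := hu.bil (.id ℝ (N →L[ℝ] N')) hf

theorem Fl.clm (L : N →L[ℝ] N') {u : M → N} (hu : Fl F.toPre u) : Fl F.toPre fun x => L (u x) :=
  hu.app (Cb_const L)

theorem Fl.smul {f : M → ℝ} {u : M → N} (hf : F.Cb f) (hu : Fl F.toPre u) :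
    Fl F.toPre fun x => f x • u x := hu.bil (ContinuousLinearMap.lsmul ℝ ℝ) hf

theorem Fl.csmul (c : ℝ) {u : M → N} (hu : Fl F.toPre u) : Fl F.toPre (c • u) :=
  hu.smul (Cb_const c)

theorem Fl.add {u v : M → N} (hu : Fl F.toPre u) (hv : Fl F.toPre v) : Fl F.toPre (u + v) :=
  fl_add hu hv

theorem Fl.neg {u : M → N} (hu : Fl F.toPre u) : Fl F.toPre (-u) := by
  simpa using hu.csmul (-1)

theorem Fl.sub {u v : M → N} (hu : Fl F.toPre u) (hv : Fl F.toPre v) : Fl F.toPre (u - v) := by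
  rw [sub_eq_add_neg]; exact hu.add hv.neg

theorem Fl.D {u : M → N} (hu : Fl F.toPre u) (a : ι) : Fl F.toPre (F.D a u) := fl_D hu a

theorem Fl.Dw {u : M → N} (w : List ι) : Fl F.toPre u → Fl F.toPre (F.Dw w u) := by
  induction w generalizing u with
  | nil => exact id
  | cons a w ih => exact fun h => ih (h.D a)

theorem Fl.sum {κ : Type*} (s : Finset κ) {u : κ → M → N} (h : ∀ i ∈ s, Fl F.toPre (u i)) :
    Fl F.toPre fun x => ∑ i ∈ s, u i x := by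
  classical
  induction s using Finset.induction_on with
  | empty => simp only [Finset.sum_empty]; exact Fl.zero
  | insert a s ha ih =>
    simp only [Finset.sum_insert ha]
    exact (h a (by simp)).add (ih fun i hi => h i (by simp [hi]))

theorem Fl.op {σ : ι → M → V →L[ℝ] W} {B : M → V →L[ℝ] W} (hσ : ∀ a, F.Cb (σ a)) (hB : F.Cb B)
    {u : M → V} (hu : Fl F.toPre u) : Fl F.toPre (F.op σ B u) :=
  (Fl.sum _ fun a _ => (hu.D a).app (hσ a)).add (hu.app hB)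

theorem Fl.opA {A : Op M ι V W} {C' : ℕ → ℝ} (hA : A.Good F C') {u : M → V} (hu : Fl F.toPre u) :
    Fl F.toPre (A.app F u) := hu.op (fun a => ⟨_, hA.σ a⟩) ⟨_, hA.B⟩

theorem Fl.cb (hF : F.Tame C) {u : M → V} (hu : Fl F.toPre u) : F.Cb u := fl_cb hF hu

theorem nrm_csmul (hF : F.Tame C) (c : ℝ) {u : M → V} (hu : Fl F.toPre u) (k : ℕ) :
    F.nrm k (c • u) = |c| * F.nrm k u := by
  obtain ⟨g, G⟩ := ex_is hF hu k
  rw [← G.norm hu.sm, ← (G.smul c).norm (hu.csmul c).sm, norm_smul, Real.norm_eq_abs]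

theorem nrm_zero (hF : F.Tame C) (k : ℕ) : F.nrm k (0 : M → V) = 0 := by
  simpa using nrm_csmul hF 0 (Fl.zero (N := V)) k

theorem nrm_sum (hF : F.Tame C) {κ : Type*} (s : Finset κ) {u : κ → M → V}
    (h : ∀ i ∈ s, Fl F.toPre (u i)) (k : ℕ) :
    F.nrm k (fun x => ∑ i ∈ s, u i x) ≤ ∑ i ∈ s, F.nrm k (u i) := by
  classical
  induction s using Finset.induction_on with
  | empty => simp only [Finset.sum_empty]; exact (nrm_zero (V := V) hF k).le
  | insert a s ha ih =>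
    simp only [Finset.sum_insert ha]
    exact (nrm_add hF (h a (by simp)) (Fl.sum s fun i hi => h i (by simp [hi])) k).trans
      (add_le_add le_rfl (ih fun i hi => h i (by simp [hi])))

theorem nrm0_le {u : M → V} {v : M → W} {L : ℝ} (hL : 0 ≤ L) (hv : MemLp v 2 F.μ)
    (h : ∀ x, ‖u x‖ ≤ L * ‖v x‖) : F.nrm 0 u ≤ L * F.nrm 0 v := by
  refine nrm_le_of_sq (mul_nonneg hL (nrm_nonneg _ _)) ?_
  rw [mul_pow, nrm_sq]
  show ∫ x, ‖u x‖ ^ 2 ∂F.μ ≤ L ^ 2 * ∫ x, ‖v x‖ ^ 2 ∂F.μ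
  rw [← integral_const_mul]
  refine integral_mono_of_nonneg (.of_forall fun x => by positivity)
    (((memLp_two_iff_integrable_sq_norm hv.1).1 hv).const_mul _) (.of_forall fun x => ?_)
  have := h x
  show ‖u x‖ ^ 2 ≤ L ^ 2 * ‖v x‖ ^ 2
  rw [← mul_pow]; gcongr

/-! ### weights -/

variable {ψ : M → ℝ} {d : ℝ} {D : ℕ → ℝ}

theorem D_exp (h : Sm I ψ) (s : ℝ) (a : ι) :
    F.D a (fun x => exp (s * ψ x)) = fun x => (s * F.D a ψ x) * exp (s * ψ x) := by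
  have : ContDiff ℝ ∞ fun t : ℝ => exp (s * t) := by fun_prop
  rw [Mon62.D_comp this h a]
  funext x
  rw [(((hasDerivAt_id' (ψ x)).const_mul s).exp).deriv]; ring

theorem sm_exp (h : Sm I ψ) (s : ℝ) : Sm I fun x => exp (s * ψ x) :=
  Mon62.sm_comp (h := fun t : ℝ => exp (s * t)) (by fun_prop) h

theorem CB_exp (s : ℝ) (D : ℕ → ℝ) (k : ℕ) : ∃ K ≥ 0, ∀ (F : Fr I M ι) (ψ : M → ℝ) (A : ℝ), Sm I ψ →
    (∀ a, F.CBs (F.D a ψ) D) → (∀ x, exp (s * ψ x) ≤ A) → F.CB k (fun x => exp (s * ψ x)) (K * |A|) := by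
  induction k with
  | zero =>
    refine ⟨1, zero_le_one, fun F ψ A h _ hA => CB_zero.2 fun x => ?_⟩
    rw [Real.norm_eq_abs, abs_of_pos (exp_pos _), one_mul]; exact (hA x).trans (le_abs_self _)
  | succ k ih =>
    obtain ⟨K, h0, hK⟩ := ih
    refine ⟨1 + 2 ^ (k + 1) * ‖ContinuousLinearMap.mul ℝ ℝ‖ * |‖ContinuousLinearMap.mul ℝ ℝ s‖ * D k| * K,
      by positivity, fun F ψ A h hD hA => CB_succ.2 ⟨fun x => ?_, fun a => ?_⟩⟩
    · rw [Real.norm_eq_abs, abs_of_pos (exp_pos _)]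
      have := (hA x).trans (le_abs_self _)
      have : 0 ≤ 2 ^ (k + 1) * ‖ContinuousLinearMap.mul ℝ ℝ‖ *
        |‖ContinuousLinearMap.mul ℝ ℝ s‖ * D k| * K * |A| := by positivity
      linarith
    · rw [D_exp h s a]
      have h1 := CB_clm (ContinuousLinearMap.mul ℝ ℝ s) (hD a).1 ((hD a).2 k)
      refine CB_mono (CB_bil (ContinuousLinearMap.mul ℝ ℝ)
        ((ContinuousLinearMap.mul ℝ ℝ s).contMDiff.comp (hD a).1) (sm_exp h s) h1 (hK F ψ A h hD hA)) ?_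
      rw [abs_of_nonneg (by positivity : 0 ≤ K * |A|)]
      nlinarith [abs_nonneg A]

theorem Wd.cb_exp (h : Wd F.toPre ψ d D) (s : ℝ) : F.Cb fun x => exp (s * ψ x) := by
  obtain ⟨A, hA⟩ := h.bd
  choose K _ hK using CB_exp (I := I) (M := M) (ι := ι) s D
  refine ⟨_, sm_exp h.sm s, fun k => hK k F ψ (exp (|s| * A)) h.sm h.der fun x => exp_le_exp.2 ?_⟩
  exact (mul_le_mul_of_nonneg_right (le_abs_self s) (h.nn x)).trans (by gcongr; exact hA x)

theorem Wd.cb (h : Wd F.toPre ψ d D) : F.Cb fun x => exp (ψ x) := by simpa using h.cb_exp 1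

theorem Wd.fl (h : Wd F.toPre ψ d D) {u : M → N} (hu : Fl F.toPre u) :
    Fl F.toPre fun x => exp (ψ x) • u x := hu.smul h.cb

theorem Wd.mono (h : Wd F.toPre ψ d D) {d' : ℝ} (hd : d ≤ d') : Wd F.toPre ψ d' D :=
  ⟨h.sm, h.nn, h.bd, fun a x => (h.sl a x).trans hd, h.der⟩

theorem CB_nexp (D : ℕ → ℝ) (k : ℕ) : ∃ K ≥ 0, ∀ (F : Fr I M ι) (ψ : M → ℝ) (d : ℝ),
    Wd F.toPre ψ d D → F.CB k (fun x => exp (-1 * ψ x)) K := by
  obtain ⟨K, h0, hK⟩ := CB_exp (I := I) (M := M) (ι := ι) (-1) D k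
  refine ⟨K, h0, fun F ψ d h => ?_⟩
  simpa using hK F ψ 1 h.sm h.der fun x => exp_le_one_iff.2 (by linarith [h.nn x])

theorem nw_nonneg (k : ℕ) (u : M → V) : 0 ≤ nw F.toPre k ψ u := nrm_nonneg _ _

theorem nw_mono {i j : ℕ} (h : i ≤ j) (u : M → V) : nw F.toPre i ψ u ≤ nw F.toPre j ψ u := nrm_mono h _

theorem nw_add (hF : F.Tame C) (h : Wd F.toPre ψ d D) {u v : M → V} (hu : Fl F.toPre u)
    (hv : Fl F.toPre v) (k : ℕ) : nw F.toPre k ψ (u + v) ≤ nw F.toPre k ψ u + nw F.toPre k ψ v := by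
  simp only [nw, Pi.add_apply, smul_add]; exact nrm_add hF (h.fl hu) (h.fl hv) k

theorem nw_csmul (hF : F.Tame C) (h : Wd F.toPre ψ d D) (c : ℝ) {u : M → V} (hu : Fl F.toPre u)
    (k : ℕ) : nw F.toPre k ψ (c • u) = |c| * nw F.toPre k ψ u := by
  simp only [nw, Pi.smul_apply, smul_comm _ c]; exact nrm_csmul hF c (h.fl hu) k

theorem nw_neg (hF : F.Tame C) (h : Wd F.toPre ψ d D) {u : M → V} (hu : Fl F.toPre u)
    (k : ℕ) : nw F.toPre k ψ (-u) = nw F.toPre k ψ u := by simpa using nw_csmul hF h (-1) hu k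

theorem nw_sub (hF : F.Tame C) (h : Wd F.toPre ψ d D) {u v : M → V} (hu : Fl F.toPre u)
    (hv : Fl F.toPre v) (k : ℕ) : nw F.toPre k ψ (u - v) ≤ nw F.toPre k ψ u + nw F.toPre k ψ v := by
  rw [sub_eq_add_neg, ← nw_neg hF h hv]; exact nw_add hF h hu hv.neg k

theorem nw_sum (hF : F.Tame C) (h : Wd F.toPre ψ d D) {κ : Type*} (s : Finset κ) {u : κ → M → V}
    (hu : ∀ i ∈ s, Fl F.toPre (u i)) (k : ℕ) :
    nw F.toPre k ψ (fun x => ∑ i ∈ s, u i x) ≤ ∑ i ∈ s, nw F.toPre k ψ (u i) := by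
  simp only [nw, Finset.smul_sum]; exact nrm_sum hF s (fun i hi => h.fl (hu i hi)) k

theorem nw_app (h : Wd F.toPre ψ d D) {f : M → V →L[ℝ] W} {u : M → V} {A : ℝ} {k : ℕ} (hf : Sm I f)
    (hA : F.CB k f A) (hu : Fl F.toPre u) :
    nw F.toPre k ψ (fun x => f x (u x)) ≤ cK ι k * |A| * nw F.toPre k ψ u := by
  simp only [nw, ← map_smul]; exact nrm_app hf (h.fl hu).sm hA ((h.fl hu).fl k)

theorem nw_clm (h : Wd F.toPre ψ d D) (L : V →L[ℝ] W) {u : M → V} (hu : Fl F.toPre u) (k : ℕ) :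
    nw F.toPre k ψ (fun x => L (u x)) ≤ cK ι k * ‖L‖ * nw F.toPre k ψ u := by
  simpa using nw_app h contMDiff_const (CB_const k L) hu

theorem nw_smul (h : Wd F.toPre ψ d D) {f : M → ℝ} {u : M → V} {A : ℝ} {k : ℕ} (hf : Sm I f)
    (hA : F.CB k f A) (hu : Fl F.toPre u) :
    nw F.toPre k ψ (fun x => f x • u x) ≤ cK ι k * |A| * nw F.toPre k ψ u := by
  simp only [nw, smul_comm _ (f _)]; exact nrm_smul hf (h.fl hu).sm hA ((h.fl hu).fl k)

theorem nw_mul (h : Wd F.toPre ψ d D) (B : N →L[ℝ] V →L[ℝ] W) {f : M → N} {u : M → V} {A : ℝ} {k : ℕ}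
    (hf : Sm I f) (hA : F.CB k f A) (hu : Fl F.toPre u) :
    nw F.toPre k ψ (fun x => B (f x) (u x)) ≤ cK ι k * ‖B‖ * |A| * nw F.toPre k ψ u := by
  simp only [nw, ← map_smul]; exact nrm_mul B hf (h.fl hu).sm hA ((h.fl hu).fl k)

theorem nrm_le_nw (D : ℕ → ℝ) (k : ℕ) : ∃ K ≥ 0, ∀ (F : Fr I M ι) (ψ : M → ℝ) (d : ℝ),
    Wd F.toPre ψ d D → ∀ u : M → V, Fl F.toPre u → F.nrm k u ≤ K * nw F.toPre k ψ u := by
  obtain ⟨K, h0, hK⟩ := CB_nexp (I := I) (M := M) (ι := ι) D k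
  refine ⟨cK ι k * |K|, mul_nonneg (cK_nonneg _) (abs_nonneg _), fun F ψ d h u hu => ?_⟩
  have := nrm_smul (sm_exp h.sm (-1)) (h.fl hu).sm (hK F ψ d h) ((h.fl hu).fl k)
  simp only [smul_smul, ← exp_add, neg_mul, one_mul, neg_add_cancel, exp_zero, one_smul] at this
  exact this

theorem nw_bil (hF : F.Tame C) (D : ℕ → ℝ) {k j l : ℕ} (hl : Lev k j l) (β : U →L[ℝ] V →L[ℝ] W) :
    ∃ K ≥ 0, ∀ (ψ : M → ℝ) (d : ℝ), Wd F.toPre ψ d D → ∀ (u : M → U) (v : M → V), Fl F.toPre u →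
      Fl F.toPre v → nw F.toPre l ψ (fun x => β (u x) (v x)) ≤
        K * nw F.toPre k ψ u * nw F.toPre j ψ v := by
  obtain ⟨K, h0, hK⟩ := nrm_le_nw (I := I) (M := M) (ι := ι) (V := U) D k
  have c := cB_nonneg (ι := ι) (k := k) (l := l) (C 0) ‖β‖
  refine ⟨_, mul_nonneg c h0, fun ψ d h u v hu hv => ?_⟩
  simp only [nw, ← map_smul]
  refine (nrm_bil' hF hl β hu (h.fl hv)).trans (mul_le_mul_of_nonneg_right ?_ (nrm_nonneg _ _))
  rw [mul_assoc]; exact mul_le_mul_of_nonneg_left (hK F ψ d h u hu) c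

theorem D_wt (h : Sm I ψ) {u : M → N} (hu : Sm I u) (a : ι) :
    F.D a (fun x => exp (ψ x) • u x) =
      (fun x => exp (ψ x) • F.D a u x) + fun x => F.D a ψ x • exp (ψ x) • u x := by
  have e := D_exp (F := F) h 1 a
  have s := sm_exp h 1
  simp only [one_mul] at e s
  funext x
  rw [F.D_def, dv_smul (s.mdifferentiableAt (by simp)) (hu.mdifferentiableAt (by simp)), ← F.D_def,
    ← F.D_def, e, Pi.add_apply, smul_smul, add_comm]

theorem nw_D (hF : F.Tame C) (h : Wd F.toPre ψ d D) {u : M → V} (hu : Fl F.toPre u) (k : ℕ) (a : ι) :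
    nw F.toPre k ψ (F.D a u) ≤ (1 + cK ι k * |D k|) * nw F.toPre (k + 1) ψ u := by
  have e : (fun x => exp (ψ x) • F.D a u x) =
      F.D a (fun x => exp (ψ x) • u x) - fun x => F.D a ψ x • exp (ψ x) • u x := by
    rw [D_wt h.sm hu.sm, add_sub_cancel_right]
  have h1 := nrm_D_le (F := F.toPre) k (fun x => exp (ψ x) • u x) a
  have h2 := nrm_smul (h.der a).1 (h.fl hu).sm ((h.der a).2 k) ((h.fl hu).fl k)
  have h3 := mul_le_mul_of_nonneg_left (nrm_mono (F := F.toPre) k.le_succ fun x => exp (ψ x) • u x)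
    (mul_nonneg (cK_nonneg (ι := ι) k) (abs_nonneg (D k)))
  rw [nw, e, nw]
  refine (nrm_sub hF ((h.fl hu).D a) ((h.fl hu).smul ⟨_, h.der a⟩) k).trans ?_
  linarith

theorem nw_op (hF : F.Tame C) (D : ℕ → ℝ) {σ : ι → M → V →L[ℝ] W} {B : M → V →L[ℝ] W}
    (hσ : ∀ a, F.Cb (σ a)) (hB : F.Cb B) (k : ℕ) : ∃ K ≥ 0, ∀ (ψ : M → ℝ) (d : ℝ),
      Wd F.toPre ψ d D → ∀ u, Fl F.toPre u →
        nw F.toPre k ψ (F.op σ B u) ≤ K * nw F.toPre (k + 1) ψ u := by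
  choose s hs using hσ
  obtain ⟨b, hb⟩ := hB
  have c := cK_nonneg (ι := ι) k
  refine ⟨∑ a, cK ι k * |s a k| * (1 + cK ι k * |D k|) + cK ι k * |b k|, by positivity,
    fun ψ d h u hu => ?_⟩
  have f : ∀ a, Fl F.toPre fun x => σ a x (F.D a u x) := fun a => (hu.D a).app ⟨_, hs a⟩
  refine (nw_add hF h (Fl.sum _ fun a _ => f a) (hu.app ⟨_, hb⟩) k).trans ?_
  rw [add_mul, Finset.sum_mul]
  refine add_le_add ((nw_sum hF h _ (fun a _ => f a) k).trans (Finset.sum_le_sum fun a _ => ?_))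
    ((nw_app h hb.1 (hb.2 k) hu).trans (mul_le_mul_of_nonneg_left (nw_mono k.le_succ u) (by positivity)))
  rw [mul_assoc]
  exact (nw_app h (hs a).1 ((hs a).2 k) (hu.D a)).trans
    (mul_le_mul_of_nonneg_left (nw_D hF h hu k a) (by positivity))

theorem nw_opA (hF : F.Tame C) (D : ℕ → ℝ) {A : Op M ι V W} {C' : ℕ → ℝ} (hA : A.Good F C') (k : ℕ) :
    ∃ K ≥ 0, ∀ (ψ : M → ℝ) (d : ℝ), Wd F.toPre ψ d D → ∀ u, Fl F.toPre u →
      nw F.toPre k ψ (A.app F u) ≤ K * nw F.toPre (k + 1) ψ u :=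
  nw_op hF D (fun a => ⟨_, hA.σ a⟩) ⟨_, hA.B⟩ k

/-- pointwise decay of all derivatives -/
theorem Dw_le (hF : F.Tame C) (D : ℕ → ℝ) (k : ℕ) : ∃ K ≥ 0, ∀ (ψ : M → ℝ) (d : ℝ),
    Wd F.toPre ψ d D → ∀ u : M → V, Fl F.toPre u → ∀ w : List ι, w.length ≤ k → ∀ x,
      ‖F.Dw w u x‖ ≤ K * exp (-ψ x) * nw F.toPre (k + 4) ψ u := by
  induction k with
  | zero =>
    refine ⟨√|C 0|, by positivity, fun ψ d h u hu w hw x => ?_⟩
    obtain rfl := List.length_eq_zero_iff.1 (Nat.le_zero.1 hw)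
    have := CB_bound (fl_CB hF (h.fl hu) 0) x
    rw [norm_smul, Real.norm_eq_abs, abs_of_pos (exp_pos _)] at this
    have e : ‖u x‖ = exp (-ψ x) * (exp (ψ x) * ‖u x‖) := by rw [← mul_assoc, ← exp_add]; simp
    show ‖u x‖ ≤ _
    rw [e, mul_comm _ (exp _), mul_assoc]
    exact mul_le_mul_of_nonneg_left this (exp_pos _).le
  | succ k ih =>
    obtain ⟨K, h0, hK⟩ := ih
    have c : 0 ≤ cK ι (k + 4) * |D (k + 4)| := mul_nonneg (cK_nonneg _) (abs_nonneg _)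
    refine ⟨K * (1 + cK ι (k + 4) * |D (k + 4)|), by positivity, fun ψ d h u hu w hw x => ?_⟩
    have p : 0 ≤ K * exp (-ψ x) := by positivity
    cases w with
    | nil =>
      have h1 := mul_le_mul_of_nonneg_left (nw_mono (F := F) (ψ := ψ) (k + 4).le_succ u) p
      have h2 := mul_nonneg (mul_nonneg p c) (nw_nonneg (F := F) (ψ := ψ) (k + 4 + 1) u)
      refine (hK ψ d h u hu [] (by simp) x).trans ?_
      show _ ≤ _ * nw F.toPre (k + 4 + 1) ψ u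
      nlinarith
    | cons a w =>
      refine (hK ψ d h _ (hu.D a) w (by simpa using hw) x).trans ?_
      refine (mul_le_mul_of_nonneg_left (nw_D hF h hu (k + 4) a) p).trans (le_of_eq ?_)
      show _ = _ * nw F.toPre (k + 4 + 1) ψ u
      ring

end Crest.Agent.X212.Dec35
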