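import Crest.Agent.X212.Dec35.Hyp
import Crest.Agent.X212.Dec35.Fl

/-!
# Row 212, DEC (helper35): the leaves of the continuity argument
-/

set_option autoImplicit false
set_option linter.unusedSectionVars false
noncomputable section
open scoped Manifold ContDiff Topology InnerProductSpace
open MeasureTheory Set Function Filter Real

namespace Crest.Agent.X212.Dec35
open An Map77 Sob92 Nd18 Cyf70
open Tmp64 (Eq0 AdmOn)

section gen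
variable {E : Type} [NormedAddCommGroup E] [NormedSpace ℝ E] [FiniteDimensional ℝ E]
  [MeasurableSpace E] [BorelSpace E]
  {HM : Type} [TopologicalSpace HM] {I : ModelWithCorners ℝ E HM} [I.Boundaryless]
  {M : Type} [TopologicalSpace M] [ChartedSpace HM M] [IsManifold I ∞ M] [MeasurableSpace M]
  [T2Space M] [BorelSpace M] [SecondCountableTopology M]
  {ι : Type} [Fintype ι] {lam : Type} [Fintype lam]

variable (I M ι lam) in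
/-- LEAF GA: a gauge transformation between small variations is a multiplier -/
def GaStmt : Prop :=
  ∀ (B : Base M ι lam) (G : Geo I M ι lam) (c : Cfg M ι lam 0), Bs B G c → ∀ k, 7 ≤ k → ∀ C0 : ℝ,
    ∃ K ≥ 0, ∀ (a u : M → Cv c) (h : M → En (Fin c.m.N)), G.F.Cb a → Tg B c a → G.F.CB k a C0 →
      Fl G.F.toPre u → Tg B c u → G.F.nrm k u ≤ 1 → Eq0 G.F (cf c a) (cf c u) univ h →
      G.F.Cb (fun x => act (ι := ι) (h x)) ∧ G.F.Cb (fun x => acE (ι := ι) (h x)) ∧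
      (∀ j ≤ k + 1, ∀ w : M → Cv c, Fl G.F.toPre w →
        G.F.nrm j (fun x => act (h x) (w x)) ≤ K * G.F.nrm j w) ∧
      (∀ j ≤ k + 1, ∀ w : M → Ev c, Fl G.F.toPre w →
        G.F.nrm j (fun x => acE (h x) (w x)) ≤ K * G.F.nrm j w) ∧
      ∀ w : M → Cv c, Sm I w → Tg B c w → Tg B c (fun x => act (h x) (w x)) ∧
        Eq0 G.F (cf c (a + w)) (cf c (u + fun x => act (h x) (w x))) univ h

end gen

variable {E3 : Type} [NormedAddCommGroup E3] [NormedSpace ℝ E3] [FiniteDimensional ℝ E3]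
  [MeasurableSpace E3] [BorelSpace E3]
  {H3 : Type} [TopologicalSpace H3] {I3 : ModelWithCorners ℝ E3 H3} [I3.Boundaryless]
  {Y : Type} [TopologicalSpace Y] [ChartedSpace H3 Y] [IsManifold I3 ∞ Y] [T2Space Y]
  [MeasurableSpace Y] [BorelSpace Y] [SecondCountableTopology Y] [CompactSpace Y]
  {κ : Type} [Fintype κ] {lam : Type} [Fintype lam]

/-- the tent over `[p - L, q + L]` -/
def tent (L p q t : ℝ) : ℝ := max 0 (L + min (t - p) (q - t))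

/-- the peaked weight -/
structure Wt (D : YD I3 Y κ lam) (δ ε Λ : ℝ) (Dd : ℕ → ℝ) (L p q : ℝ) (ψ ς k : ℝ → ℝ) : Prop where
  pf : Pf δ ε ψ ς k
  wd : Wd D.Z.toPre (fun x => ψ x.2) δ Dd
  lo : ∀ t, δ * tent L p q t ≤ ψ t
  hi : ∀ t, ψ t ≤ δ * tent L p q t + Λ
  sup : ∀ t, k t ≠ 0 → t ≤ p - L ∨ |t - (p + q) / 2| ≤ Λ ∨ q + L ≤ t

variable (I3 Y κ lam)

/-- LEAF WGT: existence of the peaked weights -/
def WgtStmt : Prop :=
  ∀ D : YD I3 Y κ lam, ∀ ε > 0, ∃ Λ ≥ 1, ∃ Dd : ℕ → ℝ, ∀ δ, 0 < δ → δ ≤ 1 → ∀ L p q, Λ ≤ L → p ≤ q →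
    ∃ ψ ς k, Wt D δ ε Λ Dd L p q ψ ς k

/-- LEAF ROW: the row is controlled by its value at the peak -/
def RowStmt : Prop :=
  ∀ (D : YD I3 Y κ lam) (β : YC Y κ lam) (n : Y → Cv (cy β)), D.OK → Sm I3 n → ∀ Λ ≥ 1, ∃ G ≥ 0,
    ∀ Dd : ℕ → ℝ, ∃ K ≥ 0, ∀ (ψ k : ℝ → ℝ) (d s K₀ : ℝ) (u V : Cz β),
      Wd D.Z.toPre (fun x => ψ x.2) d Dd → Continuous k → (∀ t, |k t| ≤ 1) → Fl D.Z.toPre u →
      Fl D.Z.toPre V → 0 ≤ K₀ →
      (∀ t, k t ≠ 0 → |t - s| ≤ Λ ∨ |row D n V t| ≤ K₀ * sl D u t ^ 2) →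
      √(∫ t, (k t * exp (ψ t) * row D n V t) ^ 2) ≤
        K * (exp (ψ s) * |row D n V s| + K₀ * nw D.Z.toPre 4 (fun x => ψ x.2) u ^ 2) +
          G * D.Z.nrm 0 (D.Z.D none fun x => exp (ψ x.2) • V x)

/-- LEAF ST: one Newton step in the gauge group (from `CayStmt`, `PoiStmt`, `Hm83.llw`) -/
def StStmt : Prop :=
  ∀ (D : YD I3 Y κ lam) (β : YC Y κ lam) (τ : Pt (Y × ℝ) (Option κ) lam 0 0) (ν l : ℝ) K Kt n,
    D.OK → D.Adm β → Irr D β → sz D β τ 0 = 0 → Lz D β τ l K Kt n ν →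
    ∃ ε > 0, ∀ G ≥ 0, ∃ δ₀ > 0, ∀ δ, 0 < δ → δ ≤ δ₀ → ∀ k, 8 ≤ k → ∀ Dd : ℕ → ℝ, ∃ C ≥ 0, ∃ r₀ > 0,
      ∀ ψ ς k', Pf δ ε ψ ς k' → Wd D.Z.toPre (fun x => ψ x.2) δ Dd → ∀ u, Vr D β u →
        nw D.Z.toPre (k + 1) (fun x => ψ x.2) u ≤ r₀ → ∀ ρ ≥ 0,
        (∀ V, Vr D β V → (∀ t, row D n V t = row D n u t) →
          √(∫ t, (k' t * exp (ψ t) * row D n V t) ^ 2) ≤
            ρ + G * D.Z.nrm 0 (D.Z.D none fun x => exp (ψ x.2) • V x)) →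
        Fl D.Z.toPre (sz D β τ u) ∧ ∃ (g : Y × ℝ → En (Fin β.m.N)) (u' : Cz β), Vr D β u' ∧
          Eq0 D.Z (cf (cy β) u) (cf (cy β) u') univ g ∧
          nw D.Z.toPre (k + 1) (fun x => ψ x.2) u' ≤ C * (nw D.Z.toPre k (fun x => ψ x.2) (sz D β τ u) +
            ρ + nw D.Z.toPre (k + 1) (fun x => ψ x.2) u ^ 2)

/-- LEAF TR1: moving the right end of the cut -/
def Tr1Stmt : Prop :=
  ∀ (D : YD I3 Y κ lam) (β : YC Y κ lam), D.OK → D.Adm β → ∀ δ, 0 < δ → δ ≤ 1 →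
    ∀ (k : ℕ) (Dd : ℕ → ℝ) (A : ℝ), ∃ K ≥ 0, ∀ (η L p q q' c d : ℝ) (v : Cz β) (th ψ : ℝ → ℝ),
      Vb D β v → D.Z.CB k v η → ContDiff ℝ ∞ th → Neck67.Sm (deriv th) →
      Neck67.Bd k (deriv th) η → η ≤ 1 → 1 ≤ L → p ≤ q → q ≤ q' → q' ≤ q + 2 → |c| ≤ 1 →
      |c + vth th p q q| ≤ 1 → Wd D.Z.toPre (fun x => ψ x.2) d Dd →
      (∀ t, ψ t ≤ δ * tent L p q' t + A) →
      Vr D β (Xc v th L p q c) ∧ Vr D β (Xc v th L p q' c) ∧ D.Z.CB k (Xc v th L p q c) K ∧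
      D.Z.CB k (Xc v th L p q' c) K ∧ |vth th p q' q' - vth th p q q| ≤ 3 * η ∧
      nw D.Z.toPre k (fun x => ψ x.2) (Xc v th L p q' c - Xc v th L p q c) ≤
        K * exp (δ * L) * (η + |c + vth th p q q|)

/-- LEAF TR2: changing the phase -/
def Tr2Stmt : Prop :=
  ∀ (D : YD I3 Y κ lam) (β : YC Y κ lam), D.OK → D.Adm β → ∀ n ν, Rw D β n ν → ∀ δ > 0,
    ∀ (k : ℕ) (Dd : ℕ → ℝ) (A : ℝ), ∃ K ≥ 0, ∀ (L p q a d : ℝ) (ψ : ℝ → ℝ) (u : Cz β), 1 ≤ L →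
      p ≤ q → |a| ≤ 1 → Wd D.Z.toPre (fun x => ψ x.2) d Dd →
      (∀ t, δ * tent L p q t ≤ ψ t ∧ ψ t ≤ δ * tent L p q t + A) → Vr D β u →
      Vr D β (rot (cy β) (fun x => ret L p q x.2 * a) u) ∧
      nw D.Z.toPre k (fun x => ψ x.2) (rot (cy β) (fun x => ret L p q x.2 * a) u - u) ≤
        K * |a| * (exp (ψ ((p + q) / 2)) + nw D.Z.toPre k (fun x => ψ x.2) u) ∧
      |row D n (rot (cy β) (fun x => ret L p q x.2 * a) u) ((p + q) / 2) - row D n u ((p + q) / 2) -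
        ν * a| ≤ K * |a| * (|a| + sl D u ((p + q) / 2))

/-- LEAF RED: reduction of the decay theorem on necks to the cylinder -/
def RedStmt : Prop := CoreStmt I3 Y κ lam → FixStmt I3 Y κ lam → DecStmt I3 Y κ lam

end Crest.Agent.X212.Dec35
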