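import Crest.Agent.X212.Dec35.Alg
import Crest.Agent.X212.Dec35.Lv
import Crest.Agent.X212.Cht98.Cov

/-!
# Row 212, DEC (helper35): the cylinder is tame; slice bounds and weighted norms
-/

set_option autoImplicit false
set_option linter.unusedSectionVars false
noncomputable section
open scoped Manifold ContDiff Topology InnerProductSpace
open MeasureTheory Set Function Filter Real

namespace Crest.Agent.X212.Dec35
open An Map77 Sob92 Nd18 Cyf70
open Neck67 (Bd)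

variable {E3 : Type} [NormedAddCommGroup E3] [NormedSpace ℝ E3] [FiniteDimensional ℝ E3]
  [MeasurableSpace E3] [BorelSpace E3]
  {H3 : Type} [TopologicalSpace H3] {I3 : ModelWithCorners ℝ E3 H3} [I3.Boundaryless]
  {Y : Type} [TopologicalSpace Y] [ChartedSpace H3 Y] [IsManifold I3 ∞ Y] [T2Space Y]
  [MeasurableSpace Y] [BorelSpace Y] [SecondCountableTopology Y] [CompactSpace Y]
  {κ : Type} [Fintype κ] {lam : Type} [Fintype lam]
  {N : Type} [NormedAddCommGroup N] [NormedSpace ℝ N]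
  {V : Type} [NormedAddCommGroup V] [InnerProductSpace ℝ V] [FiniteDimensional ℝ V]
  {D : YD I3 Y κ lam} {β : YC Y κ lam}

theorem dim_le (hD : D.OK) (y : Y) : Module.finrank ℝ E3 ≤ 3 := by
  classical
  let A : Matrix κ κ ℝ := fun a b => D.F.P a b y
  let T : (κ → ℝ) →ₗ[ℝ] E3 := Fintype.linearCombination ℝ fun a => D.F.e a y
  have h1 : A * A = A := Matrix.ext fun a b => (Wz78.frPr D.F y).idem a b
  have h2 : A.trace = 3 := by
    have := hD.B.rk (y, 0)
    simp only [YD.B, Fintype.sum_option, cP] at this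
    show ∑ a, D.F.P a a y = 3
    linarith
  have h3 : LinearMap.IsProj (LinearMap.range A.toLin') A.toLin' :=
    ⟨fun x => ⟨x, rfl⟩, by rintro _ ⟨x, rfl⟩; rw [← Matrix.toLin'_mul_apply, h1]⟩
  have h4 : Module.finrank ℝ (LinearMap.range A.toLin') = 3 := by
    have := h3.trace
    rw [Matrix.trace_toLin'_eq, h2] at this
    exact_mod_cast this.symm
  have h5 : (LinearMap.range A.toLin').map T = ⊤ := by
    have sp : Submodule.span ℝ (range fun a => show E3 from D.F.e a y) = ⊤ := D.F.span y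
    rw [eq_top_iff, ← sp, Submodule.span_le]
    rintro _ ⟨a, rfl⟩
    refine ⟨_, ⟨Pi.single a 1, rfl⟩, ?_⟩
    simp only [T, Fintype.linearCombination_apply, Matrix.toLin'_apply, Matrix.mulVec_single_one]
    refine Eq.trans (Finset.sum_congr rfl fun b _ => ?_) (D.F.P_e a y)
    rw [D.F.P_symm a b]; rfl
  rw [← finrank_top, ← h5, ← h4]
  exact Submodule.finrank_map_le _ _

theorem tame_Z (hD : D.OK) : ∃ C, D.Z.Tame C := by
  cases isEmpty_or_nonempty Y with
  | inr h => exact Cht98.tame_cyl D.F (dim_le hD h.some)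
  | inl h =>
    have c : ∀ f : Y × ℝ → ℝ, D.Z.CBs f 0 := fun f =>
      ⟨fun x => isEmptyElim x, fun _ _ _ x => isEmptyElim x⟩
    exact ⟨0, fun _ _ => c _, fun _ _ _ => c _, fun _ => c _, fun f _ _ => by simp [integral_of_isEmpty],
      fun _ _ _ x => isEmptyElim x, fun K _ => ⟨0, c _, HasCompactSupport.zero,
        fun x => isEmptyElim x, fun x => isEmptyElim x⟩⟩

theorem sm_of_fst {f : Y → N} (h : Sm (IC I3) fun x : Y × ℝ => f x.1) : Sm I3 f := sm_slice_fst h 0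

theorem cb_fst {f : Y → N} (h : Sm (IC I3) fun x : Y × ℝ => f x.1) : D.Z.Cb fun x => f x.1 :=
  Cht98.Cb_fst _ (Cb_of_compact (sm_of_fst h))

theorem bs_cyl (hD : D.OK) (hβ : D.Adm β) : Bs D.B D.G (cy β) := by
  obtain ⟨C, hC⟩ := tame_Z hD
  exact ⟨hD.B, hD.G, hβ.adm, ⟨C, hC⟩, ⟨fun a b => ⟨C, hC.P a b⟩, fun a b c d => cb_fst (hD.B.so a b c d),
    cb_fst hβ.adm.ok.sp, fun a => cb_fst (hβ.adm.ok.sρ a), cb_fst hβ.adm.ok.sj⟩,
    fun a => cb_fst (f := β.W a) (hβ.adm.conn.cc.sm a), cb_fst hβ.adm.sm⟩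

theorem CB_snd (k : ℕ) : ∀ {f : ℝ → ℝ} {A : ℝ}, ContDiff ℝ ∞ f → Bd k f A →
    D.Z.CB k (fun x => f x.2) A := by
  induction k with
  | zero => exact fun _ hb => CB_zero.2 fun x => hb x.2
  | succ k ih =>
    refine fun {f A} hf hb => CB_succ.2 ⟨fun x => hb.1 x.2, fun a => ?_⟩
    cases a with
    | none => rw [show D.Z.D none _ = _ from D_none_snd D.F.toPre hf]; exact ih (Neck67.cd_deriv hf) hb.2
    | some a =>
      rw [show D.Z.D (some a) _ = _ from D_some_snd D.F.toPre hf a]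
      exact CB_mono (CB_const k (0 : ℝ)) (by simpa using hb.nonneg)

theorem cb_snd {f : ℝ → ℝ} (h : Neck67.Sm f) : D.Z.Cb fun x => f x.2 :=
  let ⟨A, hA⟩ := Classical.skolem.1 h.bd
  ⟨A, sm_snd h.cd, fun k => CB_snd k h.cd (hA k)⟩

/-! ### slices -/

theorem Lt.mono {k j : ℕ} {f : Y × ℝ → N} {t m m' : ℝ} (h : Lt D k f t m) (hj : j ≤ k) (hm : m ≤ m') :
    Lt D j f t m' := fun w hw y => (h w (hw.trans hj) y).trans hm

theorem Lt.der {k : ℕ} {f : Y × ℝ → N} {t m : ℝ} (h : Lt D (k + 1) f t m) (a : Option κ) :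
    Lt D k (D.Z.D a f) t m := fun w hw => h (a :: w) (by simpa using hw)

theorem Lt.of_CB {k : ℕ} {f : Y × ℝ → N} {m : ℝ} (h : D.Z.CB k f m) (t : ℝ) : Lt D k f t m :=
  fun w hw y => h w hw (y, t)

instance finY (D : YD I3 Y κ lam) : IsFiniteMeasure D.F.μ :=
  have := D.F.fin
  ⟨isCompact_univ.measure_lt_top⟩

/-- the square root of the volume -/
def vl (D : YD I3 Y κ lam) : ℝ := √(D.F.μ.real univ)

theorem vl_nonneg : 0 ≤ vl D := sqrt_nonneg _

theorem nrm0_of_bd {f : Y × ℝ → N} (hf : Continuous f) {g : ℝ → ℝ} (hg : MemLp g 2 volume)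
    (h : ∀ x, ‖f x‖ ≤ g x.2) : MemLp f 2 D.Z.μ ∧ N2 D.Z.toPre 0 f ≤ vl D ^ 2 * ∫ t, g t ^ 2 := by
  have i : Integrable (fun x : Y × ℝ => g x.2 ^ 2) (D.F.μ.prod volume) := by
    simpa using (integrable_const (1 : ℝ)).mul_prod hg.integrable_sq
  have m : AEStronglyMeasurable f D.Z.μ := hf.aestronglyMeasurable
  have b : ∀ x, ‖f x‖ ^ 2 ≤ g x.2 ^ 2 := fun x => by gcongr; exact h x
  have j : Integrable (fun x => ‖f x‖ ^ 2) D.Z.μ :=
    i.mono' (m.norm.pow 2) (.of_forall fun x => by rw [Real.norm_of_nonneg (by positivity)]; exact b x)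
  refine ⟨(memLp_two_iff_integrable_sq_norm m).2 j, (integral_mono j i b).trans_eq ?_⟩
  have := integral_prod_mul (μ := D.F.μ) (ν := volume) (fun _ => (1 : ℝ)) fun t => g t ^ 2
  simp only [one_mul, integral_const, smul_eq_mul, mul_one] at this
  rw [vl, sq_sqrt measureReal_nonneg]; exact this

/-- slice bounds give weighted bounds -/
theorem nw_of_Lt (D : YD I3 Y κ lam) (Dd : ℕ → ℝ) (k : ℕ) : ∃ K ≥ 0, ∀ (ψ g : ℝ → ℝ) (d : ℝ),
    Wd D.Z.toPre (fun x => ψ x.2) d Dd → MemLp g 2 volume → ∀ f : Y × ℝ → V, Sm (IC I3) f →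
      (∀ t, Lt D k f t (exp (-ψ t) * g t)) → FL D.Z.toPre k (fun x => exp (ψ x.2) • f x) ∧
        nw D.Z.toPre k (fun x => ψ x.2) f ≤ K * √(∫ t, g t ^ 2) := by
  have z : ∀ (ψ g : ℝ → ℝ) (d : ℝ), Wd D.Z.toPre (fun x => ψ x.2) d Dd → MemLp g 2 volume →
      ∀ f : Y × ℝ → V, Sm (IC I3) f → (∀ t, Lt D 0 f t (exp (-ψ t) * g t)) →
      FL D.Z.toPre 0 (fun x => exp (ψ x.2) • f x) ∧
        nw D.Z.toPre 0 (fun x => ψ x.2) f ≤ vl D * √(∫ t, g t ^ 2) := fun ψ g d h hg f hf H => by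
    have := nrm0_of_bd (D := D) (h.cb.choose_spec.1.smul hf).continuous hg fun x => by
      have := mul_le_mul_of_nonneg_left (H x.2 [] le_rfl x.1) (exp_pos (ψ x.2)).le
      rw [← mul_assoc, ← exp_add, add_neg_cancel, exp_zero, one_mul] at this
      show ‖exp (ψ x.2) • f x‖ ≤ _
      rwa [norm_smul, Real.norm_of_nonneg (exp_pos _).le]
    refine ⟨this.1, nrm_le_of_sq (mul_nonneg vl_nonneg (sqrt_nonneg _)) ?_⟩
    rw [mul_pow, sq_sqrt (integral_nonneg fun _ => sq_nonneg _)]; exact this.2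
  induction k with
  | zero => exact ⟨_, vl_nonneg, z⟩
  | succ k ih =>
    obtain ⟨K, h0, hK⟩ := ih
    have c : 0 ≤ cK (Option κ) k * |Dd k| := mul_nonneg (cK_nonneg _) (abs_nonneg _)
    refine ⟨vl D + ∑ _a : Option κ, √2 * (K + cK (Option κ) k * |Dd k| * K),
      add_nonneg vl_nonneg (by positivity), fun ψ g d h hg f hf H => ?_⟩
    have s := h.cb.choose_spec.1
    have h1 := z ψ g d h hg f hf fun t => (H t).mono (by omega) le_rfl
    have h2 := hK ψ g d h hg f hf fun t => (H t).mono (by omega) le_rfl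
    have h3 := fun a => hK ψ g d h hg _ (D.Z.sm_D hf a) fun t => (H t).der a
    have h4 := fun a => N2_mul (ContinuousLinearMap.lsmul ℝ ℝ) (h.der a).1 (s.smul hf) ((h.der a).2 k) h2.1
    have h5 : ∀ a, FL D.Z.toPre k (D.Z.D a fun x => exp (ψ x.2) • f x) := fun a => by
      rw [D_wt h.sm hf]
      exact ML.add D.Z.sm (s.smul (D.Z.sm_D hf a)) ((h.der a).1.smul (s.smul hf)) (h3 a).1 (h4 a).1
    refine ⟨⟨h1.1, h5⟩, (Mon62.nrm_succ_le k _).trans ?_⟩
    rw [add_mul, Finset.sum_mul]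
    refine add_le_add h1.2 (Finset.sum_le_sum fun a _ => ?_)
    have h6 := (nrm_smul (h.der a).1 (s.smul hf) ((h.der a).2 k) h2.1).trans
      (mul_le_mul_of_nonneg_left h2.2 c)
    have h7 := n2_add_le D.Z.sm k (s.smul (D.Z.sm_D hf a)) ((h.der a).1.smul (s.smul hf)) (h3 a).1 (h4 a).1
    have h8 := (h3 a).2
    rw [D_wt h.sm hf]
    refine nrm_le_of_sq (by positivity) (h7.trans ?_)
    have e1 := nrm_sq (F := D.Z.toPre) k fun x => exp (ψ x.2) • D.Z.D a f x
    have e2 := nrm_sq (F := D.Z.toPre) k fun x => D.Z.D a (fun x => ψ x.2) x • exp (ψ x.2) • f x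
    have p1 := pow_le_pow_left₀ (nrm_nonneg _ _) h8 2
    have p2 := pow_le_pow_left₀ (nrm_nonneg _ _) h6 2
    have p3 : 0 ≤ K * √(∫ t, g t ^ 2) * (cK (Option κ) k * |Dd k| * (K * √(∫ t, g t ^ 2))) := by
      positivity
    rw [mul_assoc, mul_pow, sq_sqrt zero_le_two]
    refine (add_le_add (mul_le_mul_of_nonneg_left (e1.symm.le.trans p1) zero_le_two)
      (mul_le_mul_of_nonneg_left (e2.symm.le.trans p2) zero_le_two)).trans ?_
    nlinarith

theorem sl_le {u : Y × ℝ → V} {t m : ℝ} (hm : 0 ≤ m) (h : ∀ y, ‖u (y, t)‖ ≤ m) : sl D u t ≤ vl D * m := by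
  rw [sl, vl, ← sqrt_sq hm, ← sqrt_mul measureReal_nonneg]
  refine sqrt_le_sqrt ?_
  refine (integral_mono_of_nonneg (.of_forall fun y => by positivity) (integrable_const (m ^ 2))
    (.of_forall fun y => ?_)).trans_eq (by simp)
  show ‖u (y, t)‖ ^ 2 ≤ m ^ 2
  gcongr; exact h y

theorem row_le {n : Y → V} {u : Y × ℝ → V} {t m A : ℝ} (hn : ∀ y, ‖n y‖ ≤ A)
    (h : ∀ y, ‖u (y, t)‖ ≤ m) : |row D n u t| ≤ vl D ^ 2 * (A * m) := by
  rw [vl, sq_sqrt measureReal_nonneg, mul_comm]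
  refine norm_integral_le_of_norm_le_const (μ := D.F.μ) (f := fun y => ⟪n y, u (y, t)⟫_ℝ)
    (.of_forall fun y => ?_)
  exact (abs_real_inner_le_norm _ _).trans
    (mul_le_mul (hn y) (h y) (norm_nonneg _) ((norm_nonneg _).trans (hn y)))

end Crest.Agent.X212.Dec35
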