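import Crest.Agent.X212.Dec35.Cyl
import Crest.Agent.X212.Eqv71.Cfg

/-!
# Row 212, DEC (helper35): naturality of the equations
-/

set_option autoImplicit false
set_option linter.unusedSectionVars false
noncomputable section
open scoped Manifold ContDiff Topology InnerProductSpace
open MeasureTheory Set Function Filter Real

namespace Crest.Agent.X212.Dec35
open An Map77 Sob92 Nd18 Cyf70
open Eqv71 (ridx sq2 cj csL)
open Tmp64 (Eq0)

section gen
variable {E : Type} [NormedAddCommGroup E] [NormedSpace ℝ E] [FiniteDimensional ℝ E]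
  [MeasurableSpace E] [BorelSpace E]
  {HM : Type} [TopologicalSpace HM] {I : ModelWithCorners ℝ E HM}
  {M : Type} [TopologicalSpace M] [ChartedSpace HM M] [IsManifold I ∞ M] [MeasurableSpace M]
  {ι : Type} [Fintype ι] {lam : Type} [Fintype lam] {B : Base M ι lam}

theorem sq2_a2 (hB : B.OK I) (x : M) (s t : ι × ι) :
    ∑ r, sq2 (fun b a => B.P b a x) s r * B.a2 x r t = B.a2 x s t := by
  have h := (hB.pr x).idem
  simp only [sq2, Base.a2, Fintype.sum_prod_type]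
  rw [← h s.1 t.1, ← h s.2 t.2, ← h s.1 t.2, ← h s.2 t.1, Finset.sum_mul_sum, Finset.sum_mul_sum,
    ← Finset.sum_sub_distrib, Finset.sum_div]
  refine Finset.sum_congr rfl fun a _ => ?_
  rw [← Finset.sum_sub_distrib, Finset.sum_div]
  exact Finset.sum_congr rfl fun b _ => by ring

theorem ridx_p2 (hB : B.OK I) {m : Md M ι lam} {W : Type} [NormedAddCommGroup W]
    [InnerProductSpace ℝ W] (T : m.A →L[ℝ] W) (x : M) (ξ : Fm (ι × ι) m.A) (s : ι × ι) :
    ridx (sq2 fun b a => B.P b a x) T (m.p2 B x ξ) s = T (m.p2 B x ξ s) := by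
  have e : ∀ t, ∑ r, sq2 (fun b a => B.P b a x) s r * B.sd x r t = B.sd x s t := fun t => by
    rw [Finset.sum_congr rfl fun r _ => by rw [← Std94.a2_sd hB x r t], ← Std94.a2_sd hB x s t]
    simp only [Finset.mul_sum, ← mul_assoc]
    rw [Finset.sum_comm]
    simp only [← Finset.sum_mul, sq2_a2 hB]
  simp only [Eqv71.ridx_apply, Md.p2, Eqv71.idx_apply, map_sum, map_smul, Finset.smul_sum, smul_smul]
  rw [Finset.sum_comm]
  simp only [← Finset.sum_smul, e]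

theorem sm2_eq {X Z : Type} [NormedAddCommGroup X] [NormedSpace ℝ X] [NormedAddCommGroup Z]
    [InnerProductSpace ℝ Z] {α : Type} [Fintype α] {A : X →L[ℝ] X} {T : Z →L[ℝ] Z} {a a' : X}
    {b b' : Fm α Z} (h : a' = A a) (h' : ∀ s, b' s = T (b s)) :
    i1 _ _ a' + i2 _ _ b' = sm2 A (tp fun s => T ∘L pj _ s) (i1 _ _ a + i2 _ _ b) :=
  ext2 (by simp [h]) (by ext1 s; simp [h'])

end gen

variable {E3 : Type} [NormedAddCommGroup E3] [NormedSpace ℝ E3] [FiniteDimensional ℝ E3]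
  [MeasurableSpace E3] [BorelSpace E3]
  {H3 : Type} [TopologicalSpace H3] {I3 : ModelWithCorners ℝ E3 H3} [I3.Boundaryless]
  {Y : Type} [TopologicalSpace Y] [ChartedSpace H3 Y] [IsManifold I3 ∞ Y] [T2Space Y]
  [MeasurableSpace Y] [BorelSpace Y] [SecondCountableTopology Y] [CompactSpace Y]
  {κ : Type} [Fintype κ] {lam : Type} [Fintype lam]
  {D : YD I3 Y κ lam} {β : YC Y κ lam} {τ : Pt (Y × ℝ) (Option κ) lam 0 0}

/-- `NatZ` is 71's naturality over the whole cylinder -/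
theorem natZ_of (hD : D.OK) (h : Eqv71.PNat D.B D.G univ τ)
    (hC : ∀ c : Cfg (Y × ℝ) (Option κ) lam 0, c.Adm D.B D.G → ∀ x, c.m.p2 D.B x (τ.C c x) = τ.C c x) :
    NatZ D τ := fun c c' u ζ hc hc' e x =>
  have k := Eqv71.cr_univ (Eqv71.ad0 hc) (Eqv71.ad0 hc') e
  ⟨h.D k x trivial, fun s => by
    have := h.C k x trivial
    rw [← hC c hc x] at this ⊢
    exact (congrArg (· s) this).trans (ridx_p2 hD.B _ x _ s)⟩

theorem eq_nat (hD : D.OK) (hn : NatZ D τ) {c c' : Cfg (Y × ℝ) (Option κ) lam 0}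
    {u : Y × ℝ → CL c.m.V c'.m.V} {ζ : Circle} (hc : c.Adm D.B D.G) (hc' : c'.Adm D.B D.G)
    (e : CEq D.Z c c' univ id (fun x b a => D.B.P b a x) D.B.l u ζ) (x : Y × ℝ) :
    c'.eD D.G τ x = cs c'.m.J ζ (u x (c.eD D.G τ x)) ∧
      ∀ s, c'.eC D.B D.G τ x s = cj (u x) (c.eC D.B D.G τ x s) := by
  have g := Eqv71.lg_refl hD.B hD.G isOpen_univ
  refine ⟨Eqv71.ceq_eD g (Eqv71.ad0 hc) (Eqv71.ad0 hc') e (mem_univ x) (hn c c' u ζ hc hc' e x).1,
    fun s => ?_⟩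
  have h1 := congrArg (· s) (Eqv71.ceq_p2F g (Eqv71.ad0 hc) (Eqv71.ad0 hc') e (mem_univ x))
  have h2 := congrArg (· s) (Eqv71.ceq_mu g (Eqv71.ad0 hc) (Eqv71.ad0 hc') e (mem_univ x))
  simp only [id, Md.mu, ridx_p2 hD.B] at h1 h2
  simp only [Cfg.eC, PiLp.sub_apply, map_sub, Md.mu, h1, h2, (hn c c' u ζ hc hc' e x).2]

variable (hD : D.OK) (hβ : D.Adm β) (hn : NatZ D τ) {a u : Cz β} (sa : Sm (IC I3) a)
  (ta : Tg D.B (cy β) a)
include hD hβ hn sa ta

/-- the equations are equivariant -/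
theorem sz_nat (su : Sm (IC I3) u) (tu : Tg D.B (cy β) u) {h : Y × ℝ → En (Fin β.m.N)}
    (e : Eq0 D.Z (cf (cy β) a) (cf (cy β) u) univ h) (x : Y × ℝ) :
    sz D β τ u x = acE (h x) (sz D β τ a x) := by
  have h1 := cf_adm hβ.adm sa ta
  have h2 := cf_adm hβ.adm su tu
  have := eq_nat hD hn h1 h2 (Eq0.cEq (G := D.G) e hD.B (Tmp64.admOn_univ.2 h1) (Tmp64.admOn_univ.2 h2)) x
  exact sm2_eq (this.1.trans (Eqv71.cs_one _ _)) this.2

/-- constant phases -/
theorem sz_rot_const (θ : ℝ) (x : Y × ℝ) : sz D β τ (rot (cy β) (fun _ => θ) a) x =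
    sm2 (ph (cy β) θ ∘L β.m.p x.1) (tp fun s => cj (β.m.p x.1) ∘L pj _ s) (sz D β τ a x) := by
  have h1 := cf_adm hβ.adm sa ta
  have h2 := cf_adm hβ.adm (sm_rot hβ.adm (θ := fun _ => θ) contMDiff_const sa) (tg_rot hβ.adm ta _)
  have e := Eq0.cEq (G := D.G) (Eq0.refl (Tmp64.admOn_univ.2 h1)) hD.B (Tmp64.admOn_univ.2 h1)
    (Tmp64.admOn_univ.2 h1)
  have := eq_nat hD hn h1 h2 (ζ := Circle.exp θ) ⟨e.m, by rw [cf_rot_W]; exact e.W, fun x _ => by
    rw [id, cf_rot_Φ, ph_cs]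
    exact congrArg _ ((Tmp64.admOn_univ.2 h1).pΦ (mem_univ x)).symm, Subsingleton.elim _ _⟩ x
  exact sm2_eq (this.1.trans (ph_cs (c := cy β) θ _).symm) this.2

end Crest.Agent.X212.Dec35
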