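import Crest.Agent.X212.Dec35.ScC
import Crest.Agent.X212.Sb73.V
import Crest.Agent.X212.Sb84.Defs

/-!
# Row 212, SB-CORE (helper35, helper73): the class of a reducible connection on a compact piece
-/

set_option autoImplicit false
set_option linter.unusedSectionVars false
noncomputable section
open scoped Manifold ContDiff Topology
open MeasureTheory Function Filter Set

namespace Crest.Agent.X212.Dec35
open An M G75 Loc8

/-- **LEAF CORE** -/
theorem sbCore (κ lam : Type) [Fintype κ] [Fintype lam] [DecidableEq lam] : Sb84.CoreStmt κ lam := by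
  refine fun cs δ => ⟨|cs * δ / (64 * Real.pi ^ 2)|, abs_nonneg _, ?_⟩
  intro X A _ M W N Λ m x w t O k en c p π y hw S hc
  obtain ⟨T, ht, hπ, rfl, Ad, ⟨ξ, R⟩, k1, k2⟩ := S
  obtain rfl : t = fun e => p.2 (x e) := funext fun e => (ht e).symm
  have pO : p ∈ M.O c.1 := T.inf ▸ Mark.mem_O_cOf T.par
  have sw : ∀ e, Sw c p 1 (x e) e (w.s e) (w.s' e) δ (w.θ e) := fun e =>
    ⟨⟨T.fr e, T.pin e, T.par, pO, T.half e, by linarith [T.half e]⟩,
      ⟨hw.sm e, hw.lo e, hw.hi e, hw.bd e⟩, hw.s0 e, hw.s1 e⟩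
  have tw : Tw c p 1 (x true) (x false) (w.s true) (w.s' true) (w.s false) (w.s' false) δ
      (w.θ true) (w.θ false) :=
    ⟨sw true, sw false, cmp_of T.par (T.half _) (T.half _) (T.ord false) (T.ord true), T.ord false,
      T.ord true, fun a ha k => (k (hc a ha)).elim⟩
  obtain ⟨v1, v2⟩ := Sb73.vpart Λ m hπ (fun a ha => hc a (hπ.bd_subset ha)) T.par T.inf
    ((M.sys.isOpen_U π).inter (((M.sys.w _).op_sd _).union (M.sys.w _).op_band)) inter_subset_left Ad R
  refine ⟨_, v1, v2, fun ι _ _ e d V hV hL => ?_⟩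
  rw [hV, show M.sys.U π ∩ hf M (x true) true ∩ (M.sys.w (x true)).sd true =
    M.sys.U π ∩ (M.sys.w (x true)).sd true from Set.ext fun z =>
      ⟨fun k => ⟨k.1.1, k.2⟩, fun k => ⟨⟨k.1, .inl k.2⟩, k.2⟩⟩] at hL
  have hB := Λ.B_ok m c
  have hG := Λ.G_ok m pO
  have k3 := tw.lev W m hπ (T.yc _) (T.yc _) (T.qhs _) (T.qhs _) hL
    (Num57.OK.of_base (W.Z c).dim hB hG) (same_vol W m pO) (Sb73.den Λ m T.par T.inf Ad R)
    (kd := y.m.kd (Λ.B m c) (Λ.G m c p).F y.W) fun z => by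
      have := Wz78.norm_Fg_sq (x := z) hG Ad.conn hB
      change ‖y.m.Fg (W.F m c p) y.W z‖ ^ 2 = 2 * ‖y.m.p2 _ z (y.m.Fg (W.F m c p) y.W z)‖ ^ 2 + _ at this
      linarith
  have e1 : w.K W.toCaps c (fun e => p.2 (x e)) x = win W c p (x true) (w.s true) (w.s' true) ∪
      win W c p (x false) (w.s false) (w.s' false) := Set.ext fun z =>
    mem_iUnion.trans (Bool.exists_bool.trans or_comm)
  rw [e1] at k2
  exact k3.trans (add_le_add k1 ((mul_le_mul_of_nonneg_right (le_abs_self _)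
    (integral_nonneg fun _ => sq_nonneg _)).trans (mul_le_mul_of_nonneg_left k2 (abs_nonneg _))))

end Crest.Agent.X212.Dec35
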