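import Crest.Agent.X212.Dec35.TwB
import Crest.Agent.X212.Cyf70.Kp
import Crest.Agent.X212.Mon62.NkI
import Crest.Agent.X212.Bki64.Frz

/-!
# Row 212, KP-TW (helper35): the neck terms are differentiable on weighted Sobolev spaces
-/

set_option autoImplicit false
set_option linter.unusedSectionVars false
set_option maxSynthPendingDepth 3
noncomputable section
open scoped Manifold ContDiff Topology InnerProductSpace
open MeasureTheory Set Function Filter Real Asymptotics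

namespace Crest.Agent.X212.Dec35
open An Sob92 Map77 Mon62 Dgr80 Nd18 Cyf70
open Ell97 (UB)
open Cyc79 (Wu)

variable {E3 : Type} [NormedAddCommGroup E3] [NormedSpace ℝ E3] [FiniteDimensional ℝ E3]
  [MeasurableSpace E3] [BorelSpace E3]
  {H3 : Type} [TopologicalSpace H3] {I3 : ModelWithCorners ℝ E3 H3} [I3.Boundaryless]
  {Y : Type} [TopologicalSpace Y] [ChartedSpace H3 Y] [IsManifold I3 ∞ Y] [T2Space Y]
  [MeasurableSpace Y] [BorelSpace Y] [SecondCountableTopology Y] [CompactSpace Y]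
  {κ : Type} [Fintype κ] {lam : Type} [Fintype lam]
  {V : Type} [NormedAddCommGroup V] [InnerProductSpace ℝ V] [FiniteDimensional ℝ V]
  {D : YD I3 Y κ lam} {β : YC Y κ lam} {N : ND Y lam} {ψ : ℝ → ℝ} {d : ℝ} {C Dd : ℕ → ℝ} {j : ℕ}

theorem wd_lip (h : Wd D.Z.toPre (fun x => ψ x.2) d Dd) (y : Y) (s t : ℝ) :
    |ψ s - ψ t| ≤ d * |s - t| :=
  have hc : ContDiff ℝ ∞ ψ := sm_slice_snd h.sm y
  convex_univ.norm_image_sub_le_of_norm_deriv_le (fun x _ => hc.differentiable (by simp) x)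
    (fun x _ => (congrArg abs (congrFun (D_none_snd D.F.toPre hc) (y, x))).ge.trans
      (h.sl none (y, x))) (mem_univ t) (mem_univ s)

theorem wd_zero (hd : 0 ≤ d) : Wd D.Z.toPre (fun x => (0 : ℝ → ℝ) x.2) d 0 := by
  have e : ∀ a, D.Z.D a (fun x => (0 : ℝ → ℝ) x.2) = fun _ => 0 := fun a => Sob92.dv_const 0
  exact ⟨contMDiff_const, fun _ => le_rfl, ⟨0, fun _ => le_rfl⟩,
    fun a x => (congrArg abs (congrFun (e a) x)).trans_le (by simpa using hd),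
    fun a => by rw [e a]; exact ⟨contMDiff_const, fun k => by simpa using CB_const k (0 : ℝ)⟩⟩

theorem wu_time {φ : ℝ → ℝ} (h : ContDiff ℝ ∞ φ) (h1 : ∀ t, |deriv φ t| ≤ 1 / 8)
    (h2 : ∀ t, |deriv (deriv φ) t| ≤ 1 / 16) : Wu D.Z fun x => exp (φ x.2) := by
  have e1 : D.Z.D none (fun x => φ x.2) = fun x => deriv φ x.2 := D_none_snd D.F.toPre h
  have e2 : ∀ a, D.Z.D (some a) (fun x => φ x.2) = 0 := D_some_snd D.F.toPre h
  have e3 : D.Z.D none (fun x => deriv φ x.2) = fun x => deriv (deriv φ) x.2 :=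
    D_none_snd D.F.toPre (Neck67.cd_deriv h)
  have e4 : ∀ a, D.Z.D a (0 : Y × ℝ → ℝ) = 0 := fun a => Sob92.dv_zero
  refine Cyc79.wu_exp (sm_snd h) (fun x => ?_) fun x => ?_
  · simp only [Fintype.sum_option, e1, e2, Pi.zero_apply]
    have := abs_le.1 (h1 x.2)
    simp only [ne_eq, OfNat.ofNat_ne_zero, not_false_eq_true, zero_pow, Finset.sum_const_zero]
    nlinarith
  · change ∑ a, (D.Z.D a (D.Z.D a fun x => φ x.2) x + D.Z.dv a x • D.Z.D a (fun x => φ x.2) x) ≤ _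
    simp only [Fintype.sum_option, e1, e2, e3, e4, Pi.zero_apply, smul_zero, add_zero,
      Finset.sum_const_zero, show D.Z.dv none x = 0 from rfl, zero_smul]
    exact (le_abs_self _).trans (h2 _)

theorem te_apply (τ : Pt (Y × ℝ) (Option κ) lam 0 0) (u : Cz β) (x : Y × ℝ) :
    te τ (cy β) u x = i1 (cy β).m.V (Fm (Option κ × Option κ) (cy β).m.A) (τ.D (cf (cy β) u) x) +
      i2 (cy β).m.V (Fm (Option κ × Option κ) (cy β).m.A) (τ.C (cf (cy β) u) x) := rfl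

section p2
variable {A B : Type} [NormedAddCommGroup A] [InnerProductSpace ℝ A] [NormedAddCommGroup B]
  [InnerProductSpace ℝ B]

theorem d0_p2 {f : Cz β → Y × ℝ → A} {g : Cz β → Y × ℝ → B} {u : Cz β} {x : Y × ℝ}
    (h1 : (fun ε : ℝ => f (ε • u) x) =o[𝓝 0] fun ε : ℝ => ε)
    (h2 : (fun ε : ℝ => g (ε • u) x) =o[𝓝 0] fun ε : ℝ => ε)
    (h0 : i1 A B (f 0 x) + i2 A B (g 0 x) = 0) :
    d0 (fun u x => i1 A B (f u x) + i2 A B (g u x)) u x = 0 := by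
  refine HasDerivAt.deriv ?_
  rw [hasDerivAt_iff_isLittleO]
  simp only [zero_smul, h0, sub_zero, smul_zero]
  exact (((i1 A B).isBigO_comp _ _).trans_isLittleO h1).add
    (((i2 A B).isBigO_comp _ _).trans_isLittleO h2)

theorem a0_p2 [CompleteSpace A] [CompleteSpace B] {J : Type} {X Q : J → Type}
    [∀ i, NormedAddCommGroup (X i)] [∀ i, NormedSpace ℝ (X i)]
    {D : Dm (IC I3) (Y × ℝ) (Option κ) X Q} {ε : Prop} {f : ∀ i, Q i → Y × ℝ → A}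
    {g : ∀ i, Q i → Y × ℝ → B} (h4 : 4 ≤ j) (h1 : D.A0 ε j f) (h2 : D.A0 ε j g) :
    D.A0 ε j fun i y x => i1 A B (f i y x) + i2 A B (g i y x) :=
  (h1.clm h4 (i1 A B)).add (h2.clm h4 (i2 A B))

end p2

variable (D) in
/-- the weights -/
abbrev Jw (d : ℝ) (Dd : ℕ → ℝ) : Type := {ψ : ℝ → ℝ // Wd D.Z.toPre (fun x => ψ x.2) d Dd}

variable (κ N) in
/-- small slopes -/
structure Ds (d : ℝ) : Prop where
  d0 : 0 < d
  d1 : d ≤ N.δ / 2
  d2 : (Fintype.card (Option κ) : ℝ) * d ^ 2 ≤ 1 / 4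
  d3 : (1 + cb 1 1 + cb 1 2) * (16 * (2 * d)) ≤ 1 / 16

theorem exists_ds (h : 0 < N.δ) : ∃ d, Ds κ N d := by
  have t : ∀ {f : ℝ → ℝ} {c : ℝ}, Continuous f → f 0 < c → ∀ᶠ d in 𝓝[>] (0 : ℝ), f d ≤ c :=
    fun hf hc => mem_nhdsWithin_of_mem_nhds ((hf.tendsto 0).eventually_le_const hc)
  obtain ⟨d, h0, h1, h2, h3⟩ := ((eventually_mem_nhdsWithin (a := (0 : ℝ)) (s := Ioi 0)).and
    ((t continuous_id (half_pos h)).and ((t (f := fun d => (Fintype.card (Option κ) : ℝ) * d ^ 2)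
      (c := 1 / 4) (by fun_prop) (by norm_num)).and
      (t (f := fun d => (1 + cb 1 1 + cb 1 2) * (16 * (2 * d))) (c := 1 / 16) (by fun_prop)
        (by norm_num))))).exists
  exact ⟨d, h0, h1, h2, h3⟩

theorem Ds.wu (h : Ds κ N d) : ∃ (U : Jw D d Dd → Y × ℝ → ℝ) (c : ℝ), 0 < c ∧ ∀ i, Wu D.Z (U i) ∧
    ∀ x, c * U i x ≤ exp (2 * i.1 x.2) ∧ c * exp (2 * i.1 x.2) ≤ U i x := by
  rcases isEmpty_or_nonempty Y with hY | ⟨⟨y⟩⟩
  · exact ⟨fun _ _ => 1, 1, one_pos, fun _ => ⟨Cyc79.wu_one, fun x => isEmptyElim x⟩⟩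
  have d0 := h.d0
  have : ∀ i : Jw D d Dd, ∃ φ : ℝ → ℝ, ContDiff ℝ ∞ φ ∧ _ := fun i => by
    obtain ⟨A, hA⟩ := i.2.bd
    refine smooth_lip (ψ := fun t => 2 * i.1 t) (d := 2 * d) (A := 2 * A)
      (continuous_const.mul (sm_slice_snd i.2.sm y).continuous) (fun t => ?_) (by positivity)
      fun s t => ?_
    · rw [abs_of_nonneg (by linarith [i.2.nn (y, t)])]; linarith [hA (y, t)]
    · rw [← mul_sub, abs_mul, abs_two]; linarith [wd_lip i.2 y s t]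
  choose φ h1 h2 using this
  have c1 := mul_nonneg (cb_nonneg 1 1) (show 0 ≤ 16 * (2 * d) by positivity)
  have c2 := mul_nonneg (cb_nonneg 1 2) (show 0 ≤ 16 * (2 * d) by positivity)
  have := h.d3
  refine ⟨fun i x => exp (φ i x.2), exp (-1), exp_pos _, fun i => ⟨wu_time (h1 i)
    (fun t => (h2 i t).2.1.trans (by linarith)) fun t => (h2 i t).2.2.trans (by linarith),
    fun x => ?_⟩⟩
  have := abs_le.1 (h2 i x.2).1
  simp only [← exp_add, exp_le_exp]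
  constructor <;> linarith

variable (hF : D.Z.Tame C) (β d Dd j)

/-- the model -/
abbrev wZ := wD hF (fun i : Jw D d Dd => i.2) (mbd D.B (cy β).m).pC j

/-- the configurations -/
abbrev cZ := cfD D.B (G := D.G) hF (fun i : Jw D d Dd => i.2) (cy β) j

variable {β d Dd j} (H : Hz N D β) (h : Ds κ N d) (hj : 8 ≤ j)
include H h hj

theorem cZ_ok : (cZ β d Dd j hF).OK False j := cfD_ok _ _ h.d2 (bs_cyl H.ok H.adm) hj

theorem cZ_nh : NH (c := cZ β d Dd j hF) (B := fun _ => D.B) (a := fun _ _ => D.G.a)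
    (fun _ _ => D.nk) N.δ j :=
  NE.nh (G0 := fun _ => D.G) (K0 := fun _ => D.nk) ⟨fun _ => rfl, fun _ _ => .refl _,
    fun i x => i.1 x.2, N.δ / 2, 0, half_pos H.nd.δ0, half_le_self H.nd.δ0.le, fun i =>
      ⟨i.2.sm.continuous, rfl, fun x _ z _ => by
        rw [Nka63.nk_tm, zero_add, sub_half]
        exact (le_abs_self _).trans ((wd_lip i.2 x.1 _ _).trans
          (mul_le_mul_of_nonneg_right h.d1 (abs_nonneg _)))⟩⟩ (by omega)

theorem cZ_nc (hS : Cys97.SmStmt (IC I3) (Y × ℝ) (Option κ) lam) :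
    NC (c := cZ β d Dd j hF) (B := fun _ => D.B) (a := fun _ _ => D.G.a) (fun _ _ => D.nk) j :=
  fun _ hc =>
  have o := cZ_ok (Dd := Dd) hF H h hj
  have n := cZ_nh (Dd := Dd) hF H h hj
  let ⟨s1, s2, _, s3, s4⟩ := Nka63.sep D.nk hc.sep
  hS _ _ _ _ _ _ _ _ _ _ _ _ _ o (wD_uw (G := D.G) hF _ h.d2 h.wu)
    (fun _ u => (cf_adm H.adm.adm u.2.1.sm u.2.2).conn.cc.proj)
    ⟨.fixed (wD_ub hF _ s1), .fixed (wD_ub hF _ s2), _, wD_ub hF _ s3,
      fun _ _ x => ⟨s4.1 x, s4.2 x⟩⟩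
    (n.las o fun t ht => Nka63.laOK_of (hc.w t ht)) (n.las o fun t ht => Nka63.laOK_of (hc.w' t ht))

theorem a0_gA (hS : Cys97.SmStmt (IC I3) (Y × ℝ) (Option κ) lam) :
    (wZ β d Dd j hF).A0 False j (V := Fm (Option κ) (cy β).m.A)
      fun _ u => (N.dg D.nk).gA D.Z (cf (cy β) u.1) :=
  (cZ_nh hF H h hj).gA (cZ_ok hF H h hj) H.nd (cZ_nc hF H h hj hS)

theorem a0_gP (hS : Cys97.SmStmt (IC I3) (Y × ℝ) (Option κ) lam) :
    (wZ β d Dd j hF).A0 False j (V := (cy β).m.V) fun _ u => (N.dg D.nk).gP D.Z (cf (cy β) u.1) :=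
  (cZ_nh hF H h hj).gP (cZ_ok hF H h hj) H.nd (cZ_nc hF H h hj hS)

theorem a0_gz (hS : Cys97.SmStmt (IC I3) (Y × ℝ) (Option κ) lam) :
    (wZ β d Dd j hF).A0 False j fun _ u => gz N D β u.1 := by
  have h4 : 4 ≤ j := by omega
  have a := ((a0_gA (Dd := Dd) hF H h hj hS).clm h4 (i1 _ (cy β).m.V)).add
    ((a0_gP (Dd := Dd) hF H h hj hS).clm h4 (i2 (Fm (Option κ) (cy β).m.A) _))
  exact a.app h4 (f := fun _ => (mbd D.B (cy β).m).pC) (wD_ub hF _ (bs_cyl H.ok H.adm).cb_pC)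

theorem a0_oc {T : YT Y} (hT : T.OK I3) :
    (wZ β d Dd j hF).A0 False j fun _ u => N.oc D.nk T (cf (cy β) u.1) :=
  (cZ_nh hF H h hj).oc (cZ_ok hF H h hj) H.nd.sy hT

theorem a0_qD {T : YT Y} (hT : T.OK I3) : (wZ β d Dd j hF).A0 False j (V := (cy β).m.V)
    fun _ u => (N.q2 (n := 0) D.nk T).D (cf (cy β) u.1) :=
  (cZ_nh hF H h hj).q2D (cZ_ok hF H h hj) H.nd.sy hT (wD_ub hF _ (bs_cyl H.ok H.adm).dat.pm)
    (a0_oc hF H h hj hT)

theorem a0_qC {T : YT Y} (hT : T.OK I3) :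
    (wZ β d Dd j hF).A0 False j (V := Fm (Option κ × Option κ) (cy β).m.A)
      fun _ u => (N.q2 (n := 0) D.nk T).C (cf (cy β) u.1) :=
  have b := bs_cyl H.ok H.adm
  (cZ_nh hF H h hj).q2C (cZ_ok hF H h hj) H.nd.sy hT (wD_ub hF _ (b.dat.p2 b.hB b.pmx))
    (a0_oc hF H h hj hT)

omit H h in
theorem a0_te {τ : Pt (Y × ℝ) (Option κ) lam 0 0}
    (h1 : (wZ β d Dd j hF).A0 False j (V := (cy β).m.V) fun _ u => τ.D (cf (cy β) u.1))
    (h2 : (wZ β d Dd j hF).A0 False j (V := Fm (Option κ × Option κ) (cy β).m.A)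
      fun _ u => τ.C (cf (cy β) u.1)) : (wZ β d Dd j hF).A0 False j fun _ u => te τ (cy β) u.1 :=
  (a0_p2 (by omega) h1 h2).congr fun _ u x => te_apply τ u.1 x

theorem a0_q2 {T : YT Y} (hT : T.OK I3) :
    (wZ β d Dd j hF).A0 False j fun _ u => te (N.q2 (n := 0) D.nk T) (cy β) u.1 :=
  a0_te hF hj (a0_qD hF H h hj hT) (a0_qC hF H h hj hT)

omit H h hj in
theorem tw_of (hd : 0 < d) {f : Cz β → Y × ℝ → V}
    (h : ∀ Dd j, 8 ≤ j → (wZ β d Dd j hF).A0 False j fun _ u => f u.1) : Tw D β f := by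
  have i : Jw D d 0 := ⟨0, wd_zero hd.le⟩
  refine ⟨fun u hu => tw_der hF _ (h 0) i ⟨u, hu.fl, hu.tg⟩, fun u v hu hv =>
    tw_add hF _ (h 0) i ⟨u, hu.fl, hu.tg⟩ ⟨v, hv.fl, hv.tg⟩,
    fun u hu => tw_fl hF _ (h 0) i ⟨u, hu.fl, hu.tg⟩, d, hd, fun k hk Dd => ?_⟩
  obtain ⟨K, K0, r, r0, hK⟩ := tw_bd hF _ (h Dd) hk
  refine ⟨K, K0, r, r0, fun ψ hψ u hu => ?_⟩
  obtain ⟨h1, h2⟩ := hK ⟨ψ, hψ⟩ ⟨u, hu.fl, hu.tg⟩
  have m := nw_mono (F := D.Z) (ψ := fun x => ψ x.2) k.le_succ u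
  exact ⟨h1, fun hr => (h2 (m.trans hr)).trans (mul_le_mul_of_nonneg_left
    (pow_le_pow_left₀ (nw_nonneg _ _) m 2) K0)⟩

omit H h hj

/-- the term whose outer coefficient is the smoothed energy -/
def T1 : YT Y := .lin ⟨0, Fin.elim0, fun _ => 1⟩ []

theorem T1_ok : (T1 : YT Y).OK I3 :=
  ⟨⟨contDiff_const, fun k => ⟨‖iteratedFDeriv ℝ k (fun _ : Fin 0 → ℝ => (1 : ℝ)) 0‖, fun x => by
    rw [Subsingleton.elim x 0]⟩⟩, fun _ h => by cases h⟩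

theorem oc_le (hδ : 0 < N.δ) {T : YT Y} {R : ℝ} (hR : ∀ x, |T.C.k x| ≤ R)
    (c : Cfg (Y × ℝ) (Option κ) lam 0) (x : Y × ℝ) :
    0 ≤ N.oc D.nk T1 c x ∧ |N.oc D.nk T c x| ≤ R * N.oc D.nk T1 c x := by
  have h0 : 0 ≤ wn D.G.F.μ D.nk.τ N.δ (N.ew D.nk c) (D.nk.τ x + 0) := wn_nonneg hδ (fun y => by
    simp only [ND.ew, Nk.χ4, Nka63.nk_cut, Dgr80.ew]; positivity) _
  simp only [ND.oc, ND.tc, TC.val, YTC.out, T1, YT.C, Fin.cons_zero, Nka63.nk_cut, one_mul, mul_one]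
  generalize wn D.G.F.μ D.nk.τ N.δ (N.ew D.nk c) (D.nk.τ x + 0) = t at h0 ⊢
  refine ⟨by positivity, ?_⟩
  rw [abs_mul, abs_of_nonneg (by positivity), mul_comm]
  exact mul_le_mul_of_nonneg_right (hR _) (by positivity)

theorem norm_nrm_le {U : Type} [NormedAddCommGroup U] [InnerProductSpace ℝ U] (v : U) :
    ‖nrm v‖ ≤ 1 := by
  rw [nrm, norm_smul, norm_inv, Real.norm_of_nonneg (sqrt_nonneg _)]
  exact inv_mul_le_one_of_le₀ (le_sqrt_of_sq_le (by linarith)) (sqrt_nonneg _)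

theorem q2_zero (hβ : D.Adm β) (T : YT Y) : te (N.q2 (n := 0) D.nk T) (cy β) 0 = 0 :=
  funext fun x => by
    simp only [te, cf_zero, ND.q2, Bki64.oc_cy hβ, zero_smul]
    exact (congrArg₂ (· + ·) (map_zero _) (map_zero _)).trans (add_zero _)

theorem te_der {τ : Pt (Y × ℝ) (Option κ) lam 0 0} {u : Cz β} {x : Y × ℝ}
    (h0 : te τ (cy β) 0 = 0)
    (h1 : IsLittleO (E := (cy β).m.V) (𝓝 0) (fun ε : ℝ => τ.D (cf (cy β) (ε • u)) x) fun ε : ℝ => ε)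
    (h2 : IsLittleO (E := Fm (Option κ × Option κ) (cy β).m.A) (𝓝 0)
      (fun ε : ℝ => τ.C (cf (cy β) (ε • u)) x) fun ε : ℝ => ε) : d0 (te τ (cy β)) u x = 0 := by
  have := d0_p2 (A := (cy β).m.V) (B := Fm (Option κ × Option κ) (cy β).m.A)
    (f := fun u => τ.D (cf (cy β) u)) (g := fun u => τ.C (cf (cy β) u)) h1 h2
    ((te_apply τ 0 x).symm.trans (congrFun h0 x))
  rw [show te τ (cy β) = _ from funext fun u => funext (te_apply τ u)]
  exact this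

theorem o_nrm {f g : ℝ → ℝ} {R L : ℝ} (e : ∀ ε, 0 ≤ f ε ∧ |g ε| ≤ R * f ε) (h0 : f 0 = 0)
    (h : HasDerivAt f L 0) {U : Type} [NormedAddCommGroup U] [InnerProductSpace ℝ U] (v : ℝ → U) :
    (fun ε => g ε • nrm (v ε)) =o[𝓝 0] fun ε : ℝ => ε := by
  obtain rfl := IsLocalMin.hasDerivAt_eq_zero (.of_forall fun ε => h0.trans_le (e ε).1) h
  have h1 := hasDerivAt_iff_isLittleO.1 h
  simp only [h0, sub_zero, smul_zero] at h1
  exact (IsBigO.of_bound R (.of_forall fun ε => by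
    rw [norm_smul, Real.norm_of_nonneg (e ε).1]
    exact (mul_le_of_le_one_right (norm_nonneg _) (norm_nrm_le _)).trans (e ε).2)).trans_isLittleO h1

theorem q2_der (H : Hz N D β) {T : YT Y} (hT : T.OK I3) {u : Cz β} {x : Y × ℝ} {L : ℝ}
    (h : HasDerivAt (fun ε : ℝ => N.oc D.nk T1 (cf (cy β) (ε • u)) x) L 0) :
    d0 (te (N.q2 (n := 0) D.nk T) (cy β)) u x = 0 := by
  obtain ⟨R, hR⟩ : ∃ R, ∀ x, |T.C.k x| ≤ R := by
    obtain ⟨R, hR⟩ : ∃ R, ∀ x, ‖iteratedFDeriv ℝ 0 T.C.k x‖ ≤ R := by cases T <;> exact hT.1.2 0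
    exact ⟨R, fun x => by simpa using hR x⟩
  have e := fun ε : ℝ => oc_le (D := D) H.nd.δ0 hR (cf (cy β) (ε • u)) x
  have h0 : N.oc D.nk T1 (cf (cy β) ((0 : ℝ) • u)) x = 0 := by
    rw [zero_smul, cf_zero, Bki64.oc_cy H.adm]
  exact te_der (q2_zero H.adm T) (o_nrm e h0 h _) (o_nrm e h0 h _)

/-- the gradient at the critical point is continuous -/
theorem c0 (hS : Cys97.SmStmt (IC I3) (Y × ℝ) (Option κ) lam) :
    All I3 Y κ lam fun N D β => Continuous (gz N D β 0) := by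
  intro N D β H
  obtain ⟨C, hF⟩ := tame_Z H.ok
  obtain ⟨d, h⟩ := exists_ds (κ := κ) H.nd.δ0
  exact ((a0_gz (Dd := 0) hF H h le_rfl hS).sz.sm ⟨0, wd_zero h.d0.le⟩ Sp.o).continuous

/-- **KP-TW** -/
theorem twStmt (hS : Cys97.SmStmt (IC I3) (Y × ℝ) (Option κ) lam) : TwStmt I3 Y κ lam := by
  intro N D β H
  obtain ⟨C, hF⟩ := tame_Z H.ok
  obtain ⟨d, h⟩ := exists_ds (κ := κ) H.nd.δ0
  refine ⟨tw_of hF h.d0 fun _ _ hj => a0_gz hF H h hj hS, fun T =>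
    ⟨tw_of hF h.d0 fun _ _ hj => a0_q2 hF H h hj T.2, fun u hu => funext fun x => ?_,
      q2_zero H.adm _⟩⟩
  exact q2_der H T.2 ((tw_of (f := fun u => N.oc D.nk T1 (cf (cy β) u)) hF h.d0
    fun _ _ hj => a0_oc hF H h hj T1_ok).der u hu x)

end Crest.Agent.X212.Dec35
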