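import Crest.Agent.X212.Dec35.FRd
import Crest.Agent.X212.Dec35.Tw
import Crest.Agent.X212.Cys97.Main
import Crest.Agent.X212.Eqv71.Cyl
import Crest.Agent.X212.Pj41.Typ

/-!
# Row 212, DEC-U (helper35): the balls of neck perturbations are bounded families
-/

set_option autoImplicit false
set_option linter.unusedSectionVars false
noncomputable section
open scoped Manifold ContDiff Topology InnerProductSpace
open MeasureTheory Set Function Filter Real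

namespace Crest.Agent.X212.Dec35
open An Map77 Sob92 Nd18 Cyf70
open Rsp69 (PB)
open Wz78 (SA)

variable {E3 : Type} [NormedAddCommGroup E3] [NormedSpace ℝ E3] [FiniteDimensional ℝ E3]
  [MeasurableSpace E3] [BorelSpace E3]
  {H3 : Type} [TopologicalSpace H3] {I3 : ModelWithCorners ℝ E3 H3} [I3.Boundaryless]
  {Y : Type} [TopologicalSpace Y] [ChartedSpace H3 Y] [IsManifold I3 ∞ Y] [T2Space Y]
  [MeasurableSpace Y] [BorelSpace Y] [SecondCountableTopology Y] [CompactSpace Y]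
  {κ : Type} [Fintype κ] {lam : Type} [Fintype lam]
  {V : Type} [NormedAddCommGroup V] [InnerProductSpace ℝ V] [FiniteDimensional ℝ V]
  {D : YD I3 Y κ lam} {β : YC Y κ lam} {N : ND Y lam} {ι : Type} {J : Finset ι} {Q γ d : ℝ}

theorem lt_sum {f : Y × ℝ → V} {g : ι → Y × ℝ → V} {q : ι → ℝ} {k : ℕ} {t m : ℝ} {n : ι → ℝ}
    (hq : ∀ j, |q j| ≤ Q) (hf : Sm (IC I3) f) (hg : ∀ j, Sm (IC I3) (g j)) (h : Lt D k f t m)
    (h' : ∀ j, Lt D k (g j) t (n j)) : Sm (IC I3) (fun x => f x + ∑ j ∈ J, q j • g j x) ∧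
      Lt D k (fun x => f x + ∑ j ∈ J, q j • g j x) t (m + ∑ j ∈ J, Q * |n j|) := by
  classical
  induction J using Finset.induction_on with
  | empty => simpa using ⟨hf, h⟩
  | insert j s hj ih =>
    simp only [Finset.sum_insert hj, add_left_comm (f _), add_left_comm m]
    have s1 : Sm (IC I3) fun x => (q j • ContinuousLinearMap.id ℝ V) (g j x) := sm_clm _ (hg j)
    refine ⟨s1.add ih.1, fun w hw y => PB.add k (s1 _) (ih.1 _) ((PB.clm _ k (hg j (y, t))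
      fun w hw => h' j w hw y).mono ?_) (fun w hw => ih.2 w hw y) w hw⟩
    refine (mul_le_mul_of_nonneg_left (le_abs_self _) (norm_nonneg _)).trans
      (mul_le_mul_of_nonneg_right ?_ (abs_nonneg _))
    rw [norm_smul]
    exact (mul_le_of_le_one_right (norm_nonneg _) ContinuousLinearMap.norm_id_le).trans (hq j)

variable {τ₀ : Pt (Y × ℝ) (Option κ) lam 0 0} {σ : ι → Pt (Y × ℝ) (Option κ) lam 0 0}
  {T : Set (Pt (Y × ℝ) (Option κ) lam 0 0)} {K : Cz β → Y × ℝ → Ev (cy β)}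

variable (β τ₀ σ J Q T) in
/-- the members of `T` are bounded combinations -/
def Cmb : Prop := ∀ τ ∈ T, ∃ q : ι → ℝ, (∀ j, |q j| ≤ Q) ∧
  ∀ u, te τ (cy β) u = fun x => te τ₀ (cy β) u x + ∑ j ∈ J, q j • te (σ j) (cy β) u x

theorem sub_cmb {X : Type} {f f' : X → V} {g g' : ι → X → V} {q : ι → ℝ} :
    ((fun x => f x + ∑ j ∈ J, q j • g j x) - fun x => f' x + ∑ j ∈ J, q j • g' j x) =
      fun x => (f - f') x + ∑ j ∈ J, q j • (g j - g' j) x := funext fun x => by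
  simp only [Pi.sub_apply, smul_sub, Finset.sum_sub_distrib]; abel

theorem sm_cmb {f : Y × ℝ → V} {g : ι → Y × ℝ → V} {q : ι → ℝ} (hf : Sm (IC I3) f)
    (hg : ∀ j, Sm (IC I3) (g j)) : Sm (IC I3) fun x => f x + ∑ j ∈ J, q j • g j x :=
  hf.add (contMDiff_finsetSum fun j _ => sm_clm (q j • ContinuousLinearMap.id ℝ V) (hg j))

theorem P1U.cmb (h : Cmb β J Q τ₀ σ T) (h0 : P1U D β γ {τ₀}) (h1 : ∀ j, P1U D β γ {σ j}) :
    P1U D β γ T := by
  refine ⟨fun τ hτ a ha => ?_, fun k => ?_⟩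
  · obtain ⟨q, -, e⟩ := h τ hτ
    rw [e]
    exact sm_cmb (h0.sm _ rfl a ha) fun j => (h1 j).sm _ rfl a ha
  obtain ⟨k₀, g0⟩ := h0.bd k
  choose k₁ g1 using fun j => (h1 j).bd k
  refine ⟨max k₀ (J.sup k₁), fun C => ?_⟩
  obtain ⟨K₀, g0⟩ := g0 C
  choose K₁ g1 using fun j => g1 j C
  refine ⟨K₀ + ∑ j ∈ J, Q * |K₁ j|, fun τ hτ a a' ha ha' c c' t m hm hl => ?_⟩
  obtain ⟨q, hq, e⟩ := h τ hτ
  have le : ∀ j : J, k₁ j ≤ max k₀ (J.sup k₁) := fun j => le_max_of_le_right (Finset.le_sup j.2)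
  have := (lt_sum (J := Finset.univ) (q := fun j : J => q j) (fun j => hq j)
    ((h0.sm _ rfl a ha).sub (h0.sm _ rfl a' ha'))
    (fun j => ((h1 j).sm _ rfl a ha).sub ((h1 j).sm _ rfl a' ha'))
    (g0 _ rfl a a' ha ha' (CB_of_le c (le_max_left _ _)) (CB_of_le c' (le_max_left _ _)) t m hm
      fun s => (hl s).mono (le_max_left _ _) le_rfl)
    fun j => g1 j _ rfl a a' ha ha' (CB_of_le c (le j)) (CB_of_le c' (le j)) t m hm
      fun s => (hl s).mono (le j) le_rfl).2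
  rw [e, e, sub_cmb]
  simp only [← Finset.sum_coe_sort J]
  refine this.mono le_rfl (le_of_eq ?_)
  simp only [add_mul, Finset.sum_mul, abs_mul, abs_of_nonneg hm, mul_assoc]

theorem QdU.cmb (hD : D.OK) (h : Cmb β J Q τ₀ σ T) (h0 : QdU D β K d {τ₀})
    (fK : ∀ u, Vr D β u → Fl D.Z.toPre (K u)) (h1 : ∀ j, QdU D β 0 d {σ j}) : QdU D β K d T := by
  obtain ⟨C, hF⟩ := tame_Z hD
  have fs := fun (q : ι → ℝ) u hu => Fl.sum J fun j _ => ((h1 j).fl _ rfl u hu).csmul (q j)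
  refine ⟨fun τ hτ u hu => ?_, fun k hk Dd => ?_⟩
  · obtain ⟨q, -, e⟩ := h τ hτ
    rw [e, e, sub_cmb]
    exact (h0.fl _ rfl u hu).add (fs q u hu)
  obtain ⟨C₀, c0, r₀, r0, g0⟩ := h0.bd k hk Dd
  choose C₁ c1 r₁ r1 g1 using fun j => (h1 j).bd k hk Dd
  obtain ⟨r, p1, p2⟩ := Bki64.exists_pos_le (fun j : J => r1 j)
  refine ⟨C₀ + ∑ j ∈ J, |Q| * C₁ j, add_nonneg c0 (Finset.sum_nonneg fun j _ =>
    mul_nonneg (abs_nonneg _) (c1 j)), _, lt_min r0 p1, fun τ hτ ψ w u hu hr => ?_⟩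
  obtain ⟨q, hq, e⟩ := h τ hτ
  rw [e, e, sub_cmb, show ((fun x => (te τ₀ (cy β) u - te τ₀ (cy β) 0) x +
    ∑ j ∈ J, q j • (te (σ j) (cy β) u - te (σ j) (cy β) 0) x) - K u) =
      (te τ₀ (cy β) u - te τ₀ (cy β) 0 - K u) +
        fun x => ∑ j ∈ J, (q j • (te (σ j) (cy β) u - te (σ j) (cy β) 0)) x from
    funext fun x => add_sub_right_comm _ _ _, add_mul, Finset.sum_mul]
  refine (nw_add hF w ((h0.fl _ rfl u hu).sub (fK u hu)) (fs q u hu) k).trans (add_le_add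
    (g0 _ rfl ψ w u hu (hr.trans (min_le_left _ _))) ((nw_sum hF w J (fun j _ =>
      ((h1 j).fl _ rfl u hu).csmul (q j)) k).trans (Finset.sum_le_sum fun j hj => ?_)))
  have := g1 j _ rfl ψ w u hu (hr.trans ((min_le_right _ _).trans (p2 ⟨j, hj⟩)))
  rw [Pi.zero_apply, sub_zero] at this
  rw [nw_csmul hF w _ ((h1 j).fl _ rfl u hu), mul_assoc]
  exact mul_le_mul ((hq j).trans (le_abs_self _)) this (nw_nonneg _ _) (abs_nonneg _)

theorem QdU.mono {d' : ℝ} (h : QdU D β K d T) (hd : d' ≤ d) : QdU D β K d' T :=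
  ⟨h.fl, fun k hk Dd => (h.bd k hk Dd).imp fun _ h => ⟨h.1, h.2.imp fun _ h =>
    ⟨h.1, fun τ hτ ψ w => h.2 τ hτ ψ (w.mono hd)⟩⟩⟩

theorem Lz.qd {l ν : ℝ} {Kt n} (h : Lz D β τ₀ l K Kt n ν) : ∃ d > 0, QdU D β K d {τ₀} :=
  h.bd.imp fun _ hd => ⟨hd.1, fun _ e u hu => e ▸ (h.fl u hu).2.2.2, fun k hk Dd =>
    (hd.2 k hk Dd).imp fun _ h => ⟨h.1, h.2.imp fun _ h =>
      ⟨h.1, fun _ e ψ w u hu => e ▸ (h.2 ψ w u hu).2.2⟩⟩⟩

theorem qd_q2 (H : Hz N D β) : ∃ d > 0, ∀ T : YW I3 Y, QdU D β 0 d {N.q2 D.nk T.1} := by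
  obtain ⟨C, hF⟩ := tame_Z H.ok
  obtain ⟨d, h⟩ := exists_ds (κ := κ) H.nd.δ0
  refine ⟨d, h.d0, fun T => ?_⟩
  obtain ⟨t1, t2, -⟩ := (twStmt (Cys97.sm _ _ _ _) N D β H).2 T
  refine ⟨fun _ e u hu => e ▸ (t1.fl u hu).2, fun k hk Dd => ?_⟩
  obtain ⟨K, K0, r, r0, hK⟩ := tw_bd hF (fun i : Jw D d Dd => i.2)
    (f := te (N.q2 (n := 0) D.nk T.1) (cy β)) (fun _ hj => a0_q2 hF H h hj T.2) hk
  refine ⟨K, K0, r, r0, fun _ e ψ hψ u hu hr => ?_⟩
  have m := nw_mono (F := D.Z) (ψ := fun x => ψ x.2) k.le_succ u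
  have := (hK ⟨ψ, hψ⟩ ⟨u, hu.fl, hu.tg⟩).2 (m.trans hr)
  rw [show dz (te (N.q2 (n := 0) D.nk T.1) (cy β)) u = 0 from t2 u hu] at this
  rw [e]
  exact this.trans (mul_le_mul_of_nonneg_left (pow_le_pow_left₀ (nw_nonneg _ _) m 2) K0)

/-- the coefficients supported in `J` and bounded by `Q` -/
def InB {W : Type} (J : Finset W) (Q : ℝ) (q : W →₀ ℝ) : Prop := q.support ⊆ J ∧ ∀ T, |q T| ≤ Q

variable (N D) in
/-- the ball of neck perturbations -/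
def Bl (J : Finset (YW I3 Y)) (Q : ℝ) : Set (Pt (Y × ℝ) (Option κ) lam 0 0) :=
  N.pt D.nk '' {q | InB J Q q}

theorem i_cmb {A B : Type} [NormedAddCommGroup A] [NormedSpace ℝ A] [NormedAddCommGroup B]
    [NormedSpace ℝ B] (p : A) (p' : B) (c : ι → ℝ) (f : ι → A) (g : ι → B) :
    i1 A B (p + ∑ j ∈ J, c j • f j) + i2 A B (p' + ∑ j ∈ J, c j • g j) =
      i1 A B p + i2 A B p' + ∑ j ∈ J, c j • (i1 A B (f j) + i2 A B (g j)) := by
  simp only [map_add, map_sum, map_smul, smul_add, Finset.sum_add_distrib]; abel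

theorem cmb_bl (J : Finset (YW I3 Y)) (Q : ℝ) :
    Cmb β J Q (N.q1 D.nk) (fun T => N.q2 D.nk T.1) (Bl D N J Q) := by
  rintro _ ⟨q, hq, rfl⟩
  refine ⟨q, hq.2, fun u => funext fun x => (i_cmb (J := q.support) _ _ _ _ _).trans
    (congrArg (_ + ·) (Finset.sum_subset hq.1 fun j _ hj => ?_))⟩
  rw [Finsupp.notMem_support_iff.1 hj, zero_smul]

theorem sz_sol {τ : Pt (Y × ℝ) (Option κ) lam 0 0} (h : (cy β).Sol D.B D.G τ) : sz D β τ 0 = 0 :=
  funext fun x => by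
    have e : ∀ c, c = cy β → c.eD D.G τ x = 0 ∧ c.eC D.B D.G τ x = 0 :=
      fun c e => e ▸ ⟨h.D x, h.C x⟩
    have := e _ cf_zero
    exact (congrArg₂ (fun (p : (cy β).m.V) (q : Fm _ (cy β).m.A) => i1 _ _ p + i2 _ _ q) this.1
      this.2).trans ((congrArg₂ (· + ·) (map_zero _) (map_zero _)).trans (add_zero _))

variable (N D β) in
/-- INPUT P1 (69) -/
def P1In : Prop := ∃ γ > 0, P1U D β γ {N.q1 D.nk} ∧ ∀ T : YW I3 Y, P1U D β γ {N.q2 D.nk T.1}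

variable (N D β) in
/-- INPUT LZ (70) -/
def LzIn : Prop := ∃ ν l K Kt n, Lz D β (N.q1 D.nk) l K Kt n ν ∧ (ν = 0 → Fix D.Z (cy β) univ)

theorem irr_of [PreconnectedSpace Y] (hD : D.OK) (hβ : D.Adm β) (irr : D.Zr β → ¬D.Ln β) :
    Irr D β := fun ξ h hΦ => by
  have A := hβ.adm
  have s : ∀ x, SA (IC I3) ξ x := fun x => (h.sm x trivial).contMDiffAt univ_mem
  have hp : ∀ a x, Wz78.nab (IC I3) D.G.F.e ((cy β).m.adW (cy β).W) a ξ x = 0 :=
    fun a x => h.par a x trivial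
  obtain ⟨t, ht⟩ := Abel74.const_of_D (F := D.G.F) isOpen_univ isPreconnected_univ
    (fun x _ => SA.inner (s x) (s x)) fun a x _ => by
      rw [Pre.D_def, Wz78.dv_inner (A := (cy β).m.adW (cy β).W) a (Wz78.adc_skw (A.conn.sk a x))
        (s x) (s x), hp]
      simp
  by_contra! hx
  obtain ⟨x, hx⟩ := hx
  have t0 : 0 < t := (ht x trivial) ▸ real_inner_self_pos.2 hx
  refine irr (fun y => ?_) (Pj41.lin_of_par (G := D.G) A (ξ := fun x => (4 / √t) • ξ x)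
    ⟨fun x _ => (SA.clm ((4 / √t) • ContinuousLinearMap.id ℝ _) (s x)).contMDiffWithinAt,
      fun x hx => Submodule.smul_mem _ _ (h.mem x hx), fun a x _ =>
      (Wz78.nab_csmul a _ (s x)).trans (by rw [hp, smul_zero])⟩ fun x => ?_)
  · have e := congrArg (· ((cy β).Φ (y, 0))) (Std94.g_sq hD.B (Std94.pmx A.ok (y, 0))
      (h.mem (y, 0) trivial))
    simp only [mul_apply_eq_comp, smul_apply, hΦ, map_zero,
      (Tmp64.admOn_univ.2 A).pΦ (mem_univ (y, 0))] at e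
    rw [← real_inner_self_eq_norm_sq, ht _ trivial] at e
    exact (smul_eq_zero.1 e.symm).resolve_left (by linarith)
  · rw [real_inner_smul_left, real_inner_smul_right, ht x trivial, ← mul_assoc, ← sq, div_pow,
      sq_sqrt t0.le, div_mul_cancel₀ _ t0.ne']
    norm_num

/-- **DEC-U for the neck perturbations**: the rate depends on `N`, `D`, `β` and `γ` only -/
theorem dec_bl [PreconnectedSpace Y] (hD : D.OK) (hN : N.OK D) (hβ : N.Crit D β)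
    (irr : D.Zr β → ¬D.Ln β) (h1 : P1In D β N) (h2 : LzIn D β N) (hγ : 0 < γ) :
    ∃ d > 0, ∀ J Q, DecU D β γ d (Bl D N J Q) := by
  have A : D.Adm β := ⟨hβ.sol.toAdm, hβ.tmp⟩
  obtain ⟨g, hg, p1, p2⟩ := h1
  obtain ⟨ν, l, K, Kt, n, hL, fx⟩ := h2
  obtain ⟨d1, e1, q1⟩ := hL.qd
  obtain ⟨d2, e2, q2⟩ := qd_q2 ⟨hD, hN, A⟩
  obtain ⟨d, hd, h⟩ := decU ⟨hD, A, inferInstance, irr_of hD A irr, ⟨_, l, Kt, n, hL⟩, fx⟩ hg
    (lt_min e1 e2) hγ
  have o : Eqv71.OKZ D := ⟨hD, tame_Z hD⟩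
  refine ⟨d, hd, fun J Q => h _ ⟨?_, ?_, .cmb (cmb_bl J Q) p1 p2, .cmb hD (cmb_bl J Q)
    (q1.mono (min_le_left _ _)) (fun u hu => (hL.fl u hu).1) fun T =>
      (q2 T).mono (min_le_right _ _)⟩⟩ <;> rintro _ ⟨q, -, rfl⟩
  exacts [sz_sol ((Bki64.crit_iff A).1 hβ), Eqv71.natZ (o.pt hN q) o]

end Crest.Agent.X212.Dec35
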