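import Crest.Agent.X212.Dec35.Jb
import Crest.Agent.X212.Cyf70.Ka

/-!
# Row 212, DEC (helper35): the plug; the only input is the response of the words (helper69)
-/

set_option autoImplicit false
set_option linter.unusedSectionVars false
noncomputable section
open scoped Manifold ContDiff Topology InnerProductSpace
open MeasureTheory Set Function Filter

namespace Crest.Agent.X212.Dec35
open An An.Job M Cyf70 Eqv71 Nd18

/-- INPUT RSP (69) -/
def Rsp (κ lam : Type) [Fintype κ] [Fintype lam] : Prop := ∀ (Y : Mf 3) [CompactSpace Y.M],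
  P1Stmt Y.I Y.M κ lam ∧ ∀ (D : YD Y.I Y.M κ lam) (N : ND Y.M lam) (β : YC Y.M κ lam), D.OK →
    N.OK D → D.Adm β → P1In D β N ∧ ∃ γ > 0, LocIn D β N γ

theorem Rsp.ipt {κ lam : Type} [Fintype κ] [Fintype lam] (H : Rsp κ lam) {Y : Mf 3}
    [CompactSpace Y.M] [PreconnectedSpace Y.M] {D : YD Y.I Y.M κ lam} {N : ND Y.M lam} (hD : D.OK)
    (hN : N.OK D) (S : N.CD D) (i : S.C) : Ipt D (S.β i) N :=
  have k := (H Y).2 D N _ hD hN (Dgr80.adm_crit (S.crit i))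
  ⟨k.1, lzIn_cd (H Y).1 Y.dim.le hD hN S i, k.2⟩

variable {Wi : Type} {X : Mf 4} {A κ lam : Type} [Fintype A] [Fintype κ] [Fintype lam]
  [DecidableEq lam] {M : Mark X A κ} {W : World M} {N : ML M lam}
  {Λ : Lns W N} {A' h : Type} [Fintype A'] [DecidableEq A'] [Fintype h] {r n : ℕ}
  {J : Job Wi Λ A' h r n} (H : Rsp κ (lam ⊕ lam)) (hJ : J.OK) {a : A}
  (cd : Nonempty ((J.xs a).N.CD (J.xs a).D))
include H hJ cd

theorem Rsp.iw : IW (J.xs a) :=
  have := conn_xs J a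
  cd.elim fun S => ⟨S, H.ipt (hJ.xs a).1.yd (hJ.xs a).2 S⟩

theorem Rsp.cw : Nck90.CW J a := cwI hJ (H.iw hJ cd)

/-- `Kof81.ELa J Adm a`, unfolded -/
theorem Rsp.ela (Adm : (Wi →₀ ℝ) → Prop) : ∀ σ ∈ J.𝒦, ∀ c q (y : J.Obc c), Adm q → Sol σ q y →
    ∀ b (ha : Act J.m c a (some b) (J.Θ y.s)), ∃ d > 0,
      (J.K c a _ _ ha).ELim d y.x (y.β a b) (y.ζ a b) (bif b then atBot else atTop) :=
  fun σ hσ c q y _ hs b ha => (elm_cd hJ (H.iw hJ cd)).imp fun _ k => ⟨k.1, k.2 σ hσ c q y hs b ha⟩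

end Crest.Agent.X212.Dec35
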