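import Crest.Agent.X212.Dec35.Com
import Crest.Agent.X212.Cyf70.Pert

/-!
# Row 212, DEC (helper35): the lower bound for peaked weights, non-local operators allowed

The weight `e^ψ` has `ψ' = -δ ς`, `|ς| ≤ 1`, `ς² = 1` off the support of `κ`; the component along
the kernel is controlled by a row `ρ` on the support of `κ`.
-/

set_option autoImplicit false
noncomputable section
open Set Real
open scoped RealInnerProductSpace

namespace Crest.Agent.X212.Dec35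
open Neck67 Cyf70

variable {A B : Type*} [NormedAddCommGroup A] [InnerProductSpace ℝ A] [NormedAddCommGroup B]
  [NormedSpace ℝ B]

/-- the cylinder operator `T + S` with its multiplications and the kernel projector `P` -/
structure Cy (M : Mu A) (mB : (ℝ → ℝ) → B → B) (i T S : B →L[ℝ] A) (P : A →L[ℝ] A) (C : ℝ) :
    Prop where
  op : CylOp i T S
  one : 1 ≤ C
  im : ∀ b, Sm b → ∀ u, i (mB b u) = M.m b (i u)
  Tm : ∀ b, Sm b → ∀ u, T (mB b u) = M.m b (T u) + M.m (deriv b) (i u)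
  Pm : ∀ b, Sm b → ∀ x, P (M.m b x) = M.m b (P x)
  low : ∀ u, ‖i u - P (i u)‖ ≤ C * (‖S u‖ + ‖T u‖)
  quad : ∀ u w, |⟪S u, P (i w)⟫| ≤ C * (‖i u - P (i u)‖ + ‖T u‖) * ‖T w‖

theorem pk_arith {δ C H a x ρ η y : ℝ} (hδ : 0 < δ) (hC : 1 ≤ C) (hH : 1 ≤ H) (ha : 0 ≤ a)
    (hx : 0 ≤ x) (hρ : 0 ≤ ρ) (hη0 : 0 ≤ η) (hy0 : 0 ≤ y) (hη : η ≤ a + 2 * C * δ * x)
    (hy : y ≤ ρ + H * η) (hs : δ * (416 * C ^ 4 * H ^ 2) ≤ 1)
    (h : 3 / 4 * δ * x ^ 2 ≤ a * x + 3 * C ^ 2 * y ^ 2 + 7 * C ^ 2 * η ^ 2) :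
    δ * x ≤ 3 * (a + ρ) := by
  have hC2 : 1 ≤ C ^ 2 := one_le_pow₀ hC
  have hH2 : 1 ≤ H ^ 2 := one_le_pow₀ hH
  have y2 : y ^ 2 ≤ 2 * ρ ^ 2 + 2 * (H ^ 2 * η ^ 2) := by
    nlinarith [pow_le_pow_left₀ hy0 hy 2, sq_nonneg (ρ - H * η)]
  have η2 : η ^ 2 ≤ 2 * a ^ 2 + 8 * (C ^ 2 * (δ * x) ^ 2) := by
    nlinarith [pow_le_pow_left₀ hη0 hη 2, sq_nonneg (a - 2 * C * δ * x)]
  set W := C ^ 2 * H ^ 2 with hW
  have W1 : C ^ 2 ≤ W := le_mul_of_one_le_right (by positivity) hH2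
  have s1 : 3 * C ^ 2 * y ^ 2 + 7 * C ^ 2 * η ^ 2 ≤ 6 * W * ρ ^ 2 + 13 * W * η ^ 2 := by
    have a1 := mul_le_mul_of_nonneg_left y2 (show 0 ≤ 3 * C ^ 2 by positivity)
    have a2 := mul_le_mul_of_nonneg_right W1 (sq_nonneg ρ)
    have a3 := mul_le_mul_of_nonneg_right W1 (sq_nonneg η)
    nlinarith
  have W0 : 0 ≤ W := by positivity
  have s2 := mul_le_mul_of_nonneg_left η2 (show 0 ≤ 13 * W by positivity)
  have s3 : δ * (416 * (W * C ^ 2)) ≤ 1 := by rw [hW]; linarith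
  have s4 : δ * (416 * W) ≤ 1 := by
    have := mul_le_mul_of_nonneg_left hC2 (show 0 ≤ δ * (416 * W) by positivity)
    linarith
  set z := δ * x with hz
  have z0 : 0 ≤ z := by positivity
  have s5 : 3 / 4 * z ^ 2 ≤ a * z + δ * (6 * W * ρ ^ 2 + 26 * W * a ^ 2 +
      104 * (W * C ^ 2) * z ^ 2) := by
    have := mul_le_mul_of_nonneg_left (h.trans (show _ ≤ a * x + (6 * W * ρ ^ 2 + 26 * W * a ^ 2 +
      104 * (W * C ^ 2) * z ^ 2) by linarith)) hδ.le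
    rw [hz]; nlinarith
  have s6 := mul_le_mul_of_nonneg_right s3 (sq_nonneg z)
  have s7 := mul_le_mul_of_nonneg_right s4 (sq_nonneg ρ)
  have s8 := mul_le_mul_of_nonneg_right s4 (sq_nonneg a)
  have s9 : z ^ 2 / 2 ≤ a * z + (a ^ 2 + ρ ^ 2) / 16 := by nlinarith [sq_nonneg ρ]
  by_contra hc
  push Not at hc
  nlinarith [mul_nonneg ha hρ, mul_nonneg hρ z0, mul_nonneg ha z0]

namespace Cy
variable {M : Mu A} {mB : (ℝ → ℝ) → B → B} {i T S : B →L[ℝ] A} {P : A →L[ℝ] A} {C : ℝ}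
  (h : Cy M mB i T S P C)
include h

/-- **Peaked lower bound**, conjugated form -/
theorem pk {R : A →L[ℝ] A} {δ G ρ : ℝ} {ς κ : ℝ → ℝ} (hδ : 0 < δ) (hG : 0 ≤ G) (hρ : 0 ≤ ρ)
    (hς : Sm ς) (hκ : Sm κ) (s1 : ∀ t, |ς t| ≤ 1) (s2 : ∀ t, |deriv ς t| ≤ 1)
    (k1 : ∀ t, |κ t| ≤ 1) (k2 : ∀ t, κ t ≠ 1 → ς t ^ 2 = 1 ∧ deriv ς t = 0)
    (hR : ‖R‖ ≤ C * δ) (hR' : ∀ x, |⟪R x, M.m ς x⟫| ≤ δ / 4 * ‖x‖ ^ 2)
    (hs : δ * (416 * C ^ 4 * (G + 2 * C) ^ 2) ≤ 1) (u : B)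
    (row : ‖M.m κ (P (i u))‖ ≤ ρ + G * ‖T u‖) :
    δ * ‖i u‖ ≤ 3 * (‖T u + S u + δ • M.m ς (i u) + R (i u)‖ + ρ) := by
  have hC := h.one
  set f := T u + S u + δ • M.m ς (i u) + R (i u) with hf
  set x := i u with hx
  set η := ‖T u + S u‖ with hη
  set y := ‖M.m κ x‖ with hy
  have δ1 : δ ≤ 1 := by
    have a1 : 1 ≤ C ^ 4 := one_le_pow₀ hC
    have a2 : 1 ≤ (G + 2 * C) ^ 2 := one_le_pow₀ (by linarith)
    have a3 : 1 ≤ 416 * C ^ 4 * (G + 2 * C) ^ 2 := by nlinarith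
    nlinarith
  have nς : ‖M.m ς x‖ ≤ ‖x‖ := by simpa using M.le hς s1 x
  have e1 : η ≤ ‖f‖ + 2 * C * δ * ‖x‖ := by
    have e : T u + S u = f - δ • M.m ς x - R x := by rw [hf]; abel
    have a1 := (norm_sub_le (f - δ • M.m ς x) (R x)).trans (add_le_add_left (norm_sub_le _ _) _)
    rw [← e, norm_smul, Real.norm_of_nonneg hδ.le] at a1
    have a2 := ContinuousLinearMap.le_of_opNorm_le _ hR x
    have a3 := mul_le_mul_of_nonneg_left nς hδ.le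
    have a4 := mul_le_mul_of_nonneg_right hC (show 0 ≤ δ * ‖x‖ by positivity)
    linarith
  have eT : ‖T u‖ ≤ η := h.op.left_le u
  have eS : ‖S u‖ ≤ η := h.op.right_le u
  have η0 : 0 ≤ η := norm_nonneg _
  have eP : ‖x - P x‖ ≤ 2 * C * η := by
    have := mul_le_mul_of_nonneg_left (add_le_add eS eT) (by linarith : 0 ≤ C)
    linarith [h.low u]
  have ey : y ≤ ρ + (G + 2 * C) * η := by
    have e : M.m κ x = M.m κ (P x) + M.m κ (x - P x) := by rw [← map_add]; simp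
    have a1 := norm_add_le (M.m κ (P x)) (M.m κ (x - P x))
    rw [← e] at a1
    have a2 := M.le hκ k1 (x - P x)
    have a3 := mul_le_mul_of_nonneg_left eT hG
    linarith
  have loc : ∀ b, Sm b → (∀ t, |b t| ≤ 1) → (∀ t, κ t ≠ 1 → b t = 0) →
      ‖M.m b x‖ ≤ y ∧ |⟪M.m b x, x⟫| ≤ y ^ 2 := fun b hb b1 b0 => by
    have e1 : b = b * κ := by
      ext t; by_cases h1 : κ t = 1
      · simp [h1]
      · simp [b0 t h1]
    have e2 : b = κ * (b * κ) := by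
      ext t; by_cases h1 : κ t = 1
      · simp [h1]
      · simp [b0 t h1]
    have n1 : ‖M.m b (M.m κ x)‖ ≤ y := by simpa using M.le hb b1 (M.m κ x)
    constructor
    · rwa [e1, ← M.mm hb hκ]
    · rw [e2, ← M.mm hκ (hb.mul hκ), M.sym hκ, ← M.mm hb hκ]
      exact (abs_real_inner_le_norm _ _).trans
        ((mul_le_mul_of_nonneg_right n1 (norm_nonneg _)).trans_eq (sq y).symm)
  obtain ⟨d1, d2⟩ := loc _ hς.deriv s2 fun t ht => (k2 t ht).2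
  obtain ⟨-, d3⟩ := loc (1 - ς * ς) (Sm.one.sub (hς.mul hς)) (fun t => by
    have := abs_le_one_iff_mul_self_le_one.1 (s1 t)
    rw [Pi.sub_apply, Pi.one_apply, Pi.mul_apply, abs_le]
    constructor <;> nlinarith [mul_self_nonneg (ς t)]) fun t ht => by
      rw [Pi.sub_apply, Pi.one_apply, Pi.mul_apply, ← sq, (k2 t ht).1, sub_self]
  rw [M.sub Sm.one (hς.mul hς), M.one, sub_apply, one_apply_eq_self, inner_sub_left, ← M.mm hς hς,
    M.sym hς, real_inner_self_eq_norm_sq, real_inner_self_eq_norm_sq] at d3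
  have t1 : 2 * ⟪T u, M.m ς x⟫ = -⟪M.m (deriv ς) x, x⟫ := by
    have := h.op.skew (mB ς u) u
    rw [h.Tm ς hς, h.im ς hς, inner_add_left, M.sym hς, real_inner_comm (T u)] at this
    linarith
  have t2 : |⟪S u, M.m ς x⟫| ≤ η * (2 * C * η) + C * (2 * C * η + η) * (η + y) := by
    have e : M.m ς x = M.m ς (x - P x) + P (i (mB ς u)) := by
      rw [h.im ς hς, h.Pm ς hς, ← map_add]; simp [hx]
    rw [e, inner_add_right]
    refine (abs_add_le _ _).trans (add_le_add ((abs_real_inner_le_norm _ _).trans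
      (mul_le_mul eS ((by simpa using M.le hς s1 (x - P x) : _ ≤ ‖x - P x‖).trans eP)
        (norm_nonneg _) η0)) ((h.quad u _).trans ?_))
    have a1 : ‖T (mB ς u)‖ ≤ η + y := by
      rw [h.Tm ς hς]
      exact (norm_add_le _ _).trans (add_le_add
        ((by simpa using M.le hς s1 (T u) : _ ≤ ‖T u‖).trans eT) d1)
    exact mul_le_mul (mul_le_mul_of_nonneg_left (add_le_add eP eT) (by linarith)) a1
      (norm_nonneg _) (by positivity)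
  have t3 : ⟪f, M.m ς x⟫ = ⟪T u, M.m ς x⟫ + ⟪S u, M.m ς x⟫ + δ * ‖M.m ς x‖ ^ 2 +
      ⟪R x, M.m ς x⟫ := by
    rw [hf, inner_add_left, inner_add_left, inner_add_left, real_inner_smul_left,
      real_inner_self_eq_norm_sq]
  have t4 : ⟪f, M.m ς x⟫ ≤ ‖f‖ * ‖x‖ :=
    (real_inner_le_norm _ _).trans (mul_le_mul_of_nonneg_left nς (norm_nonneg _))
  refine pk_arith hδ hC (by linarith) (norm_nonneg f) (norm_nonneg x) hρ η0 (norm_nonneg _) e1 ey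
    hs ?_
  have u1 := abs_le.1 (hR' x)
  have u2 := abs_le.1 t2
  have u3 := abs_le.1 d2
  have u4 := mul_le_mul_of_nonneg_left (abs_le.1 d3).2 hδ.le
  have u5 := mul_le_mul_of_nonneg_right δ1 (sq_nonneg y)
  have hC2 : C ≤ C ^ 2 := by nlinarith
  have u6 := mul_le_mul_of_nonneg_right hC2 (sq_nonneg η)
  have u7 := mul_le_mul_of_nonneg_right hC2 (mul_nonneg η0 (norm_nonneg (M.m κ x)))
  have u8 := mul_le_mul_of_nonneg_left (two_mul_le_add_sq η y) (sq_nonneg C)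
  have u9 := mul_le_mul_of_nonneg_right (hC.trans hC2) (sq_nonneg y)
  nlinarith

/-- **Peaked lower bound** for `S = local + K` with `K` as in `KW` -/
theorem pk_wt {K : A →L[ℝ] A} {d C' δ ε G ρ : ℝ} {ψ ς κ : ℝ → ℝ} (hK : M.KW K d C') (hd : 0 < d)
    (Ks : ∀ u v, ⟪K u, v⟫ = ⟪u, K v⟫)
    (Sm' : ∀ b, Sm b → ∀ u, S (mB b u) - K (i (mB b u)) = M.m b (S u - K (i u)))
    (hδ : 0 < δ) (hG : 0 ≤ G) (hρ : 0 ≤ ρ) (hψ : Sm ψ) (hς : Sm ς) (hκ : Sm κ)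
    (e : deriv ψ = -δ • ς) (s1 : ∀ t, |ς t| ≤ 1) (s2 : ∀ t, |deriv ς t| ≤ ε) (ε1 : ε ≤ 1)
    (k1 : ∀ t, |κ t| ≤ 1) (k2 : ∀ t, κ t ≠ 1 → ς t ^ 2 = 1 ∧ deriv ς t = 0)
    (c1 : δ ≤ d / cS 0 / 4) (c2 : 2 * cR d C' ≤ C) (c3 : (δ + ε) * (8 * cR d C') ≤ 1)
    (hs : δ * (416 * C ^ 4 * (G + 2 * C) ^ 2) ≤ 1) (u : B)
    (row : ‖M.m κ (P (M.m (ex ψ) (i u)))‖ ≤ ρ + G * ‖T (mB (ex ψ) u)‖) :
    δ * ‖M.m (ex ψ) (i u)‖ ≤ 3 * (‖M.m (ex ψ) (T u + S u)‖ + ρ) := by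
  have bψ : Bd 0 (deriv ψ) δ := fun t => by
    rw [e, Pi.smul_apply, smul_eq_mul, abs_mul, abs_neg, abs_of_pos hδ]
    exact mul_le_of_le_one_right hδ.le (s1 t)
  have c0 := hK.cR_nonneg hd
  have := h.pk (R := Mu.cj M K ψ) hδ hG hρ hς hκ s1 (fun t => (s2 t).trans ε1) k1 k2
    ((hK.norm_cj hd hψ bψ c1).trans (by nlinarith)) (fun x =>
      (hK.inner_cj hd Ks hψ bψ c1 hς s2 s1 x).trans (mul_le_mul_of_nonneg_right
        (by nlinarith [mul_le_mul_of_nonneg_left c3 hδ.le]) (sq_nonneg _))) hs (mB (ex ψ) u)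
    (by rwa [h.im _ hψ.ex])
  rw [h.im _ hψ.ex] at this
  convert this using 4
  have e1 : M.m (deriv (ex ψ)) (i u) = -(δ • M.m ς (M.m (ex ψ) (i u))) := by
    rw [deriv_ex hψ, e, M.mm hς hψ.ex, mul_smul_comm, M.smul _ (hψ.ex.mul hς), mul_comm]; simp
  have e2 := Sm' _ hψ.ex u
  rw [h.im _ hψ.ex, sub_eq_iff_eq_add] at e2
  have e3 : M.m (ex (-ψ)) (M.m (ex ψ) (i u)) = i u := by
    rw [M.mm hψ.neg.ex hψ.ex, mul_comm, ex_mul_neg, M.one]; rfl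
  rw [h.Tm _ hψ.ex, e1, e2, Mu.cj]
  simp only [sub_apply, mul_apply_eq_comp, e3, map_add, map_sub]
  abel

end Cy

end Crest.Agent.X212.Dec35
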