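import Crest.Agent.X212.Dec35.As

/-!
# Row 212, ELIM (helper35): exponential convergence on all necks
-/

set_option autoImplicit false
set_option linter.unusedSectionVars false
noncomputable section
open scoped Manifold ContDiff Topology InnerProductSpace
open MeasureTheory Set Function Filter Real

namespace Crest.Agent.X212.Dec35
open An Map77 Sob92 Nd18 Cyf70 Pj41
open Rsp69 (PB)
open Wz78 (SA)
open Tmp64 (AdmOn Eq0 admOn_univ)
open Bki64 (Cl win win_op)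
open Dgr80 (Gd)
open Eqv71 (cj ridx sq2 ad0 PNat0)

variable {E3 : Type} [NormedAddCommGroup E3] [NormedSpace ℝ E3] [FiniteDimensional ℝ E3]
  [MeasurableSpace E3] [BorelSpace E3]
  {H3 : Type} [TopologicalSpace H3] {I3 : ModelWithCorners ℝ E3 H3} [I3.Boundaryless]
  {Y : Type} [TopologicalSpace Y] [ChartedSpace H3 Y] [IsManifold I3 ∞ Y] [T2Space Y]
  [MeasurableSpace Y] [BorelSpace Y] [SecondCountableTopology Y] [CompactSpace Y]
  {κ : Type} [Fintype κ] {lam : Type} [Fintype lam]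
  {E : Type} [NormedAddCommGroup E] [NormedSpace ℝ E] [FiniteDimensional ℝ E]
  [MeasurableSpace E] [BorelSpace E]
  {HM : Type} [TopologicalSpace HM] {I : ModelWithCorners ℝ E HM} [I.Boundaryless]
  {M : Type} [TopologicalSpace M] [ChartedSpace HM M] [IsManifold I ∞ M]
  [MeasurableSpace M] [T2Space M] [BorelSpace M] [SecondCountableTopology M] {r n : ℕ}

variable {D : YD I3 Y κ lam} {B : Base M (Option κ) lam} {G : Geo I M (Option κ) lam}
  {x c : Cfg M (Option κ) lam r} {β : YC Y κ lam} {N : ND Y lam}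

theorem en_bd (hx : Gd B G x) (K : Nk D B G) : ∃ C, ∀ z, Dgr80.en G.F x K.τ z ≤ C := by
  obtain ⟨A, hA⟩ := cbs_Dτ (D := D)
  have t := fun a => (⟨A, hA K a⟩ : G.F.Cb (G.F.D a K.τ))
  obtain ⟨C, hC⟩ := Fin37.cb_Fg hx
  obtain ⟨P, hP⟩ := Cyc79.cb_bdd (Cb_sum Finset.univ fun a _ =>
    Cb_smul (t a) (Cb_add (Cb_D hx.Φ a) (Cb_app (hx.W a) hx.Φ)))
  refine ⟨(∑ _a : Option κ, (∑ _k : Option κ, A 0 * √C) ^ 2) / 4 + P ^ 2, fun z => add_le_add
    (div_le_div_of_nonneg_right ((PiLp.norm_sq_eq_of_L2 _ _).trans_le (Finset.sum_le_sum fun a _ =>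
      pow_le_pow_left₀ (norm_nonneg _) (norm_sum_le_of_le _ fun k _ => ?_) 2)) zero_le_four)
    (pow_le_pow_left₀ (norm_nonneg _) (hP z) 2)⟩
  have := CB_zero.1 ((hA K k).2 0) z
  exact (norm_smul_le _ _).trans (mul_le_mul this ((PiLp.norm_apply_le _ _).trans
    (le_sqrt_of_sq_le (hC z))) (norm_nonneg _) ((norm_nonneg _).trans this))

/-- integrable weights -/
def Wk (K : Nk D B G) : Prop := ∃ w S v, Mp86.Wts G.F S w ∧ (∀ x y, w x y ≤ 1) ∧
  (∀ x, Dgr80.LB G.F.μ (w x) v) ∧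
    ∀ x ∈ K.dp 1, ∀ z ∈ K.dp 1, exp (-(√(1 + (K.tm z - K.tm x) ^ 2) / 4)) ≤ w x z

theorem Wk.bnd {K : Nk D B G} (h : Wk K) (hx : Gd B G x) (hc : c.Adm B G)
    (e : Cfg.Iso B G.F x c) : ∃ w S C, Bnd K c w S C := by
  obtain ⟨w, S, v, h1, h2, h3, h4⟩ := h
  obtain ⟨σ, h5⟩ := Fin37.gd_le hx h1 h2 h3
  obtain ⟨C, h6⟩ := en_bd hx K
  exact ⟨w, S, max σ C, Bnd.iso ⟨hx.hG.vol, hx.tame, h1, h4, Mp86.le_mono h5 (le_max_left _ _),
    .inr fun z => (h6 z).trans (le_max_right _ _)⟩ hx.hB hx.hG hx.adm hc e⟩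

variable (D β N) in
/-- the inputs at a critical point (69, 70) -/
structure Ipt : Prop where
  p1 : P1In D β N
  lz : LzIn D β N
  loc : ∃ γ > 0, LocIn D β N γ

variable (D β N) in
/-- exponential convergence to `β` with the rate `d`, on all necks -/
def ElN (d : ℝ) : Prop := ∀ (X : Rsp69.Mf (Option κ) lam) (K : Nk D X.B X.G) (r n : ℕ)
  (x c : Cfg X.M (Option κ) lam r) (q : YW I3 Y →₀ ℝ) (l : Filter ℝ) (ζ : Circle),
  Gd X.B X.G x → c.Adm X.B X.G → Cfg.Iso X.B X.G.F x c → Wk K → l = atTop ∨ l = atBot →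
  (∀ᶠ s in l, ∀ y, K.tm y = s → c.eD X.G (N.pt K q : Pt _ _ _ r n) y = 0 ∧
    c.eC X.B X.G (N.pt K q : Pt _ _ _ r n) y = 0) → K.Lim c β ζ l → K.ELim d c β ζ l

theorem inB_self {W : Type} (q : W →₀ ℝ) : InB q.support (∑ j ∈ q.support, |q j|) q :=
  ⟨Subset.rfl, fun j => by
    by_cases h : j ∈ q.support
    · exact Finset.single_le_sum (f := fun j => |q j|) (fun _ _ => abs_nonneg _) h
    · rw [Finsupp.notMem_support_iff.1 h, abs_zero]
      exact Finset.sum_nonneg fun _ _ => abs_nonneg _⟩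

/-- **ELIM** -/
theorem elN [PreconnectedSpace Y] (hD : D.OK) (hN : N.OK D) (hβ : N.Crit D β)
    (irr : D.Zr β → ¬D.Ln β) (h : Ipt D β N) : ∃ d > 0, ElN D β N d := by
  have A : D.Adm β := ⟨hβ.sol.toAdm, hβ.tmp⟩
  obtain ⟨γ, p, h3⟩ := h.loc
  obtain ⟨d, p', h4⟩ := dec_bl hD hN hβ irr h.p1 h.lz p
  refine ⟨d, p', fun X K r n x c q l ζ hx hc e hw hl hs H => ?_⟩
  obtain ⟨w, S, C, hb⟩ := hw.bnd hx hc e
  obtain ⟨k', Kc, h5⟩ := asol hD hN hβ h.p1 p h3 q.support (∑ j ∈ q.support, |q j|) S C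
  obtain ⟨T, a1, a2, -⟩ := H.choose_spec 0 1 one_pos
  exact elim hD A p' (h4 _ _) ⟨q, inB_self q, rfl⟩ hl (ad0 hc) (inter_mem a1 hs)
    (h5 X K r n x c w q _ hx hc e hb (inB_self q) (inter_subset_left.trans a2)
      fun y hy => hy.2 y rfl) H

end Crest.Agent.X212.Dec35
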