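import Crest.Agent.X212.Dec35.Un
import Crest.Agent.X212.Rsp69.Tw
import Crest.Agent.X212.Mp86.Bd

/-!
# Row 212, ASOL (helper35): the input LOC (helper69)
-/

set_option autoImplicit false
set_option linter.unusedSectionVars false
noncomputable section
open scoped Manifold ContDiff Topology InnerProductSpace
open MeasureTheory Set Function Filter Real

namespace Crest.Agent.X212.Dec35
open An Map77 Sob92 Nd18 Cyf70
open Rsp69 (PB)
open Wz78 (SA)
open Pj41 (Emb LitAt stab)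

variable {E3 : Type} [NormedAddCommGroup E3] [NormedSpace ℝ E3] [FiniteDimensional ℝ E3]
  [MeasurableSpace E3] [BorelSpace E3]
  {H3 : Type} [TopologicalSpace H3] {I3 : ModelWithCorners ℝ E3 H3} [I3.Boundaryless]
  {Y : Type} [TopologicalSpace Y] [ChartedSpace H3 Y] [IsManifold I3 ∞ Y] [T2Space Y]
  [MeasurableSpace Y] [BorelSpace Y] [SecondCountableTopology Y] [CompactSpace Y]
  {κ : Type} [Fintype κ] {lam : Type} [Fintype lam]
  {E : Type} [NormedAddCommGroup E] [NormedSpace ℝ E] [FiniteDimensional ℝ E]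
  [MeasurableSpace E] [BorelSpace E]
  {HM : Type} [TopologicalSpace HM] {I : ModelWithCorners ℝ E HM} [I.Boundaryless]
  {M : Type} [TopologicalSpace M] [ChartedSpace HM M] [IsManifold I ∞ M]
  [MeasurableSpace M] [T2Space M] [BorelSpace M] [SecondCountableTopology M]
  {D : YD I3 Y κ lam} {B : Base M (Option κ) lam} {G : Geo I M (Option κ) lam}

/-- the terms of the neck perturbation -/
def tm (N : ND Y lam) (K : Nk D B G) (r n : ℕ) : Option (YW I3 Y) → Pt M (Option κ) lam r n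
  | none => N.q1 K
  | some T => N.q2 K T.1

/-- the a priori bounds (all of them are invariant under `Cfg.Iso`) -/
structure Bnd (K : Nk D B G) {r : ℕ} (c : Cfg M (Option κ) lam r) (w : M → M → ℝ) (S C : ℝ) :
    Prop where
  vol : G.F.IsVol
  tame : ∃ Ct, G.F.Tame Ct
  wts : Mp86.Wts G.F S w
  low : ∀ x ∈ K.dp 1, ∀ z ∈ K.dp 1, exp (-(√(1 + (K.tm z - K.tm x) ^ 2) / 4)) ≤ w x z
  le : c.Le G.F w C
  en : Dgr80.LB G.F.μ (fun z => K.cut 3 (K.τ z) * Dgr80.en G.F c K.τ z) C ∨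
    ∀ z, Dgr80.en G.F c K.τ z ≤ C

variable (D) in
/-- smooth and bounded at the time `t` -/
def Ls {V : Type} [NormedAddCommGroup V] [NormedSpace ℝ V] (k : ℕ) (f : Y × ℝ → V) (t m : ℝ) :
    Prop := ∀ y, SA (IC I3) f (y, t) ∧ PB D.Z.toPre k f (y, t) m

variable (D) in
/-- INPUT LOC (69): the neck terms only see a window, up to exponentially small tails -/
def LocIn (β : YC Y κ lam) (N : ND Y lam) (γ : ℝ) : Prop :=
  ∀ (o : Option (YW I3 Y)) (k : ℕ), ∃ k' : ℕ, ∀ C S : ℝ, ∃ K : ℝ,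
    ∀ (X : Rsp69.Mf (Option κ) lam) (K₀ : Nk D X.B X.G) (r n : ℕ) (c : Cfg X.M (Option κ) lam r)
      (a : Cz β) (i : CL β.m.V c.m.V) (w : X.M → X.M → ℝ) (t R : ℝ), K ≤ R →
      Dgr80.Gd X.B X.G c → Bnd K₀ c w S C → Vb D β a → D.Z.CB k' a C → Emb β.m.J c.m.J i →
      Icc (t - R) (t + R) ⊆ Dp K₀.p K₀.q 0 →
      (∀ z : Y × ℝ, |z.2 - t| ≤ R → LitAt c (cf (cy β) a) i (K₀.ψ z) z) →
      Ls D k (fun z => (tm N K₀ r n o).D c (K₀.ψ z) -
        (tm N D.nk 0 0 o).D (stab (cf (cy β) a) c.m.J i) z) t (K * exp (-γ * R)) ∧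
      Ls D k (fun z => (tm N K₀ r n o).C c (K₀.ψ z) -
        (tm N D.nk 0 0 o).C (stab (cf (cy β) a) c.m.J i) z) t (K * exp (-γ * R))

end Crest.Agent.X212.Dec35
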