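import Crest.Agent.X212.Dec35.Fl
import Crest.Agent.X212.Wz78.Boch
import Crest.Agent.X212.Spn45.Aff

/-!
# Row 212, DEC (helper35): algebra of variations, the expansion of the equations, phases
-/

set_option autoImplicit false
set_option linter.unusedSectionVars false
noncomputable section
open scoped Manifold ContDiff Topology InnerProductSpace
open MeasureTheory Set Function Filter Real

namespace Crest.Agent.X212.Dec35
open An Map77 Sob92 Nd18
open Wz78 (nab dir)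
open Tmp64 (Eq0)

variable {E : Type} [NormedAddCommGroup E] [NormedSpace ℝ E] [FiniteDimensional ℝ E]
  [MeasurableSpace E] [BorelSpace E]
  {HM : Type} [TopologicalSpace HM] {I : ModelWithCorners ℝ E HM} [I.Boundaryless]
  {M : Type} [TopologicalSpace M] [ChartedSpace HM M] [IsManifold I ∞ M] [MeasurableSpace M]
  [T2Space M] [BorelSpace M] [SecondCountableTopology M]
  {ι : Type} [Fintype ι] {lam : Type} [Fintype lam] {r n : ℕ}
  {B : Base M ι lam} {G : Geo I M ι lam} {c : Cfg M ι lam r} {u v : M → Cv c}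

theorem sm_clm {N N' : Type} [NormedAddCommGroup N] [NormedSpace ℝ N] [NormedAddCommGroup N']
    [NormedSpace ℝ N'] (L : N →L[ℝ] N') {f : M → N} (h : Sm I f) : Sm I fun x => L (f x) :=
  L.contMDiff.comp h

theorem Tg.p1 (h : Tg B c u) (x : M) : c.m.p1 B x (fa (u x)) = fa (u x) := Wz78.p1_of (h x)

theorem Tg.pp (h : Tg B c u) (x : M) : c.m.pp B x (fp (u x)) = fp (u x) := Wz78.sp_of (h x)

theorem Tg.mem (h : Tg B c u) (x : M) (a : ι) : fa (u x) a ∈ c.m.gS x :=
  (Spn45.p1_iff.1 (h.p1 x)).1 a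

theorem Tg.of (h1 : ∀ x, c.m.p1 B x (fa (u x)) = fa (u x))
    (h2 : ∀ x, c.m.pp B x (fp (u x)) = fp (u x)) : Tg B c u := fun x =>
  ext2 ((f2_ps x _).trans (h1 x)) ((s2_ps x _).trans (h2 x))

theorem Tg.zero : Tg B c 0 := fun _ => map_zero _

theorem Tg.add (h : Tg B c u) (h' : Tg B c v) : Tg B c (u + v) := fun x => by
  rw [Pi.add_apply, map_add, h x, h' x]

theorem Tg.sub (h : Tg B c u) (h' : Tg B c v) : Tg B c (u - v) := fun x => by
  rw [Pi.sub_apply, map_sub, h x, h' x]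

theorem Tg.smul (h : Tg B c u) (f : M → ℝ) : Tg B c fun x => f x • u x := fun x => by
  rw [map_smul, h x]

theorem cf_zero : cf c 0 = c := by
  have : c.m.addC c.W (fun _ => 0) = c.W := by funext a x; simp [Md.addC]
  simp only [cf, vr, Pi.zero_apply, map_zero, add_zero, this]

theorem cf_adm (h : c.Adm B G) (hu : Sm I u) (ht : Tg B c u) : (cf c u).Adm B G :=
  ⟨h.ok, Spn45.isConn_addC h.ok h.conn (sm_clm fa hu) ht.p1, h.sm.add (sm_clm fp hu),
    fun x => (map_add _ _ _).trans (congrArg₂ _ (h.pos x) (ht.pp x)), h.z⟩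

theorem base_cf (x : M) : base (κ := Fin c.m.N) (cf c u).W (cf c u).Φ x = base c.W c.Φ x + u x :=
  base_add c.W c.Φ x u

theorem sm_base (h : c.Adm B G) : Sm I (base c.W c.Φ) :=
  (sm_clm _ (sm_clm (PiLp.continuousLinearEquiv 2 ℝ fun _ : ι => c.m.A).symm.toContinuousLinearMap
    (contMDiff_pi_space.2 fun a => sm_clm hsL (h.conn.cc.sm a)))).add (sm_clm _ h.sm)

/-- the unperturbed equations -/
theorem pE_N (hB : B.OK I) (hG : G.OK B) (h : c.Adm B G) (x : M) :
    (mbd B c.m).pE x ((mbd B c.m).N G.F (base c.W c.Φ) x) =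
      i1 _ _ (dir I G.F.e c.m.ρ c.W c.Φ x) +
        i2 _ _ (c.m.p2 B x (c.m.Fg G.F c.W x) - c.m.mu B x (c.Φ x) (c.Φ x)) := by
  refine ext2 ?_ ?_
  · rw [f2_ps, Bd.f2_N _ (sm_base h)]
    have e := Wz78.dir_pp hB h.ok h.conn (u := c.Φ) (x := x) (h.sm x)
    rw [funext h.pos] at e
    simp only [oa_base, fp_base, map_add, f2_i1, f2_i2, add_zero]
    exact e.symm
  · have e := Bd.s2_N (d := mbd B c.m) (F := G.F) hG.P _ (sm_base h) x
    simp only [oa_base, fp_base] at e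
    rw [s2_ps]
    simp only [map_add, s2_i1, s2_i2, zero_add]
    ext1 s
    simp only [mbd, Md.p2, Md.mu, Md.Fg, Md.q, PiLp.sub_apply, Eqv71.idx_apply, Wz78.pg_pg] at e ⊢
    simp only [e, map_sub, smul_sub, Finset.sum_sub_distrib]

theorem se_N (hB : B.OK I) (hG : G.OK B) (h : c.Adm B G) (τ : Pt M ι lam r n) (hu : Sm I u)
    (ht : Tg B c u) (x : M) : se B G τ c u x =
      (mbd B c.m).pE x ((mbd B c.m).N G.F (fun y => base c.W c.Φ y + u y) x) - te τ c u x := by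
  have e := pE_N hB hG (cf_adm h hu ht) x
  have e' := congrArg (fun w => (mbd B c.m).pE x ((mbd B c.m).N G.F w x))
    (funext (base_cf (c := c) (u := u)))
  refine Eq.trans ?_ (congrArg (· - te τ c u x) (e.symm.trans e'))
  refine ext2 ?_ ?_
  · exact (by simp : ∀ (a t : c.m.V) (b s : Fm (ι × ι) c.m.A), f2 _ _ (i1 _ _ (a - t) + i2 _ _ (b - s)) =
      f2 _ _ (i1 _ _ a + i2 _ _ b - (i1 _ _ t + i2 _ _ s))) _ _ _ _
  · exact (by simp : ∀ (a t : c.m.V) (b s : Fm (ι × ι) c.m.A), s2 _ _ (i1 _ _ (a - t) + i2 _ _ (b - s)) =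
      s2 _ _ (i1 _ _ a + i2 _ _ b - (i1 _ _ t + i2 _ _ s))) _ _ _ _

/-- the quadratic part of the equations -/
def qd (B : Base M ι lam) (c : Cfg M ι lam r) (x : M) : Cv c →L[ℝ] Cv c →L[ℝ] Ev c :=
  post ((mbd B c.m).pE x) ((mbd B c.m).β x)

theorem sm_pC (hB : B.OK I) (hG : G.OK B) (h : c.Adm B G) : Sm I (mbd B c.m).pC :=
  (Wz78.cp_of hB hG h.ok h.conn).sm_pC

/-- **expansion of the equations** -/
theorem se_eq (hB : B.OK I) (hG : G.OK B) (h : c.Adm B G) (τ : Pt M ι lam r n) (hu : Sm I u)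
    (ht : Tg B c u) (x : M) : se B G τ c u x =
      se B G τ c 0 x + lin B G.F c u x + qd B c x (u x) (u x) - (te τ c u x - te τ c 0 x) := by
  have e : ∀ a, G.F.D a (fun y => base c.W c.Φ y + u y) x = G.F.D a (base c.W c.Φ) x + G.F.D a u x :=
    fun a => dv_add ((sm_base h).mdifferentiableAt (by simp)) (hu.mdifferentiableAt (by simp))
  rw [se_N hB hG h τ hu ht, se_N hB hG h τ (u := 0) contMDiff_const Tg.zero, lin, Op.app, Bd.lin,
    op_cut _ (sm_pC hB hG h) hu ht]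
  simp only [Bd.N, Nq, Pre.op, e, map_add, Finset.sum_add_distrib, _root_.add_apply,
    ContinuousLinearMap.flip_apply, qd, post_apply, Pi.zero_apply, add_zero]
  abel

/-- the operator `dO` acts as `dg` -/
theorem dO_app (hB : B.OK I) (hG : G.OK B) (h : c.Adm B G) (l : ℝ) {ξ : M → c.m.A} (hs : Sm I ξ)
    (hξ : ∀ x, ξ x ∈ c.m.gS x) : (dO B G.F c l).app G.F ξ = dg G.F c l ξ ∧ Tg B c (dg G.F c l ξ) := by
  classical
  have C : Wz78.Cp (mbd B c.m) G.F G.F.Gam c.W := Wz78.cp_of hB hG h.ok h.conn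
  have hg : ∀ y, c.m.pg y (ξ y) = ξ y := fun y => Wz78.pg_of_mem (hξ y)
  have t : Tg B c (dg G.F c l ξ) := by
    refine Tg.of (fun x => Spn45.p1_iff.2 ⟨fun a => ?_, fun a => ?_⟩) fun x => ?_
    · have := Wz78.Cp.par_nab (F := G.F) (A := c.m.adW c.W) (p := c.m.pg) (a := a) (C.sg x) (C.g a x) (hs x) hg
      simp only [dg, map_add, f2_i1, f2_i2, add_zero]
      rw [← this]; exact neg_mem (Wz78.pg_mem x _)
    · simp only [dg, map_add, f2_i1, f2_i2, add_zero, smul_neg, Finset.sum_neg_distrib]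
      rw [← hG.P]
      exact congrArg _ ((Wz78.frm G.F).projN C.con_adw a ξ x)
    · simp only [dg, map_add, s2_i1, s2_i2, zero_add, map_smul]
      rw [← mul_apply_eq_comp, ← Wz78.g_pp h.ok (hξ x), mul_apply_eq_comp, h.pos]
  refine ⟨funext fun x => ?_, t⟩
  rw [Op.app, dO, Bd.d0, op_cut _ C.sg hs hg, ← t x]
  refine congrArg _ (ext2 ?_ ?_)
  · ext1 a
    have := (Wz78.frm G.F).projD a ξ x
    rw [hG.P] at this
    simp only [Pre.op, σ0, dg, map_add, map_sum, PiLp.add_apply, fa_l0, oa_base, f2_i1, f2_i2,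
      add_zero, _root_.neg_apply, ContinuousLinearMap.comp_apply, map_neg, nab, Md.adW, neg_add,
      WithLp.ofLp_sum, Finset.sum_apply, PiLp.neg_apply, ea_apply, Finset.sum_neg_distrib, Pre.D_def]
    rw [← this]; rfl
  · simp [Pre.op, σ0, dg, fp_l0]

/-! ### bounded coefficients -/

namespace Bs
variable {c : Cfg M ι lam 0} (h : Bs B G c)
include h

theorem pmx (x : M) : Std94.PMx B c.m x := Std94.pmx h.adm.ok x

theorem inK : (mbd B c.m).In (cb (fun _ : Unit => G.F.toPre) univ) :=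
  ⟨fun a b _ _ => h.dat.P a b, fun a _ _ => h.dat.ρ a, fun _ _ => h.dat.pg h.hB h.pmx,
    fun _ _ => h.dat.p1 h.hB h.pmx, fun _ _ => h.dat.p2 h.hB h.pmx, fun _ _ => h.dat.pp,
    fun _ _ => h.dat.pm⟩

theorem ok : (mbd B c.m).OK := Wz78.bdOf_ok h.hB h.adm.ok

theorem cb_pC : G.F.Cb (mbd B c.m).pC := Bd.In.pC (F := fun _ => G.F) h.inK () trivial

theorem cb_pE : G.F.Cb (mbd B c.m).pE := Bd.In.pE (F := fun _ => G.F) h.inK () trivial

theorem cb_qd : G.F.Cb (qd B c) :=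
  Cls.post (K := cb (fun _ : Unit => G.F.toPre) univ) (L := fun _ => (mbd B c.m).pE)
    (β := fun _ => (mbd B c.m).β) (fun _ _ => h.cb_pE) (Bd.In.β (F := fun _ => G.F) h.inK) () trivial

theorem cb_base (l : ℝ) : G.F.Cb (base c.W fun x => l • c.Φ x) :=
  Cls.base (K := cb (fun _ : Unit => G.F.toPre) univ) (W := fun _ => c.W)
    (Φ := fun _ x => l • c.Φ x) (fun a _ _ => h.cW a) (fun _ _ => Cb_smul (Cb_const l) h.cΦ) () trivial

theorem cb_base' : G.F.Cb (base c.W c.Φ) := by simpa using h.cb_base 1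

theorem good {V W : Type} [NormedAddCommGroup V] [InnerProductSpace ℝ V] [NormedAddCommGroup W]
    [InnerProductSpace ℝ W] {A : Op M ι V W}
    (hA : (cb (fun _ : Unit => G.F.toPre) univ).op fun _ => A) (ha : Alg B.P A) :
    ∃ C', G.F.Tame C' ∧ A.Good G.F C' :=
  good_of h.tame.choose_spec (hA.p () trivial) (hA.q () trivial) (fun a => hA.σ a () trivial)
    (hA.B () trivial) (h.hG.P ▸ ha)

theorem cc (a b k : ι) : G.F.Cb (G.F.c a b k) := ⟨_, h.tame.choose_spec.c a b k⟩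

theorem cdv (a : ι) : G.F.Cb (G.F.dv a) := ⟨_, h.tame.choose_spec.dv a⟩

theorem good_dO (l : ℝ) : ∃ C', G.F.Tame C' ∧ (dO B G.F c l).Good G.F C' :=
  h.good (Bd.In.d0 (F := fun _ => G.F) h.inK fun _ _ => h.cb_base l) (h.ok.alg_d0 _)

theorem good_row (l : ℝ) : ∃ C', G.F.Tame C' ∧ ((dO B G.F c l).adj G.F).Good G.F C' :=
  h.good (Cls.op.adj (F := fun _ => G.F) (Bd.In.d0 (F := fun _ => G.F) h.inK fun _ _ => h.cb_base l)
    fun a _ _ => h.cdv a) (h.hG.P ▸ Alg.adj G.F (h.hG.P ▸ h.ok.alg_d0 _))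

theorem good_lin : ∃ C', G.F.Tame C' ∧ ((mbd B c.m).lin G.F (base c.W c.Φ)).Good G.F C' :=
  h.good (Bd.In.lin (F := fun _ => G.F) h.inK (fun a b k _ _ => h.cc a b k) fun _ _ => h.cb_base')
    (h.ok.alg_lin _)

theorem good_full : ∃ C', G.F.Tame C' ∧ ((mbd B c.m).full G.F (base c.W c.Φ)).Good G.F C' :=
  h.good (Bd.In.full (F := fun _ => G.F) h.inK (fun a b k _ _ => h.cc a b k) (fun a _ _ => h.cdv a)
    fun _ _ => h.cb_base') (h.ok.alg_full _)

theorem cliff_dO (l : ℝ) : (dO B G.F c l).CliffL G.F := h.ok.cliffL_d0 h.hG.P _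

theorem cliff_full : ((mbd B c.m).full G.F (base c.W c.Φ)).CliffL G.F := h.ok.cliffL_full h.hG.P _

end Bs

/-! ### phases -/

variable {θ θ' : M → ℝ}

theorem ph_zero : ph c 0 = 1 := by simp [ph]

theorem ph_apply (t : ℝ) (w : c.m.V) : ph c t w = cos t • w + sin t • c.m.J w := rfl

theorem ph_cs (t : ℝ) (w : c.m.V) : ph c t w = cs c.m.J (Circle.exp t) w := by
  simp [ph_apply, cs, Complex.exp_ofReal_mul_I_re, Complex.exp_ofReal_mul_I_im]

theorem ph_ph (hJ : c.m.J * c.m.J = -1) (s t : ℝ) (w : c.m.V) : ph c s (ph c t w) = ph c (s + t) w := by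
  have e : c.m.J (c.m.J w) = -w := by rw [← mul_apply_eq_comp, hJ]; rfl
  simp only [ph_apply, map_add, map_smul, e, cos_add, sin_add]
  module

@[simp] theorem fa_rot (x : M) : fa (rot c θ v x) = fa (v x) := by simp [rot]

@[simp] theorem fp_rot (x : M) : fp (rot c θ v x) = ph c (θ x) (c.Φ x + fp (v x)) - c.Φ x := by
  simp [rot]

theorem rot_zero : rot c (fun _ => 0) v = v := funext fun x => ext2 (fa_rot x) (by
  rw [show s2 _ _ (rot c (fun _ => 0) v x) = _ from fp_rot x, ph_zero]; simp)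

theorem rot_rot (hJ : c.m.J * c.m.J = -1) : rot c θ (rot c θ' v) = rot c (fun x => θ x + θ' x) v :=
  funext fun x => ext2 ((fa_rot x).trans ((fa_rot x).trans (fa_rot x).symm)) (by
    refine (fp_rot x).trans (Eq.trans ?_ (fp_rot x).symm)
    rw [fp_rot, add_sub_cancel, ph_ph hJ])

theorem rot_congr {x : M} {v' : M → Cv c} (h : θ x = θ' x) (h' : v x = v' x) :
    rot c θ v x = rot c θ' v' x := by simp only [rot, h, h']

theorem rot_sub (x : M) : rot c θ v x - v x = i2 _ _ ((ph c (θ x) - 1) (c.Φ x + fp (v x))) :=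
  ext2 (by simp) (by
    rw [map_sub, show s2 _ _ (rot c θ v x) = _ from fp_rot x]; simp; abel)

theorem cf_rot_W : (cf c (rot c θ v)).W = (cf c v).W := by simp only [cf, vr, fa_rot]

theorem cf_rot_Φ (x : M) : (cf c (rot c θ v)).Φ x = ph c (θ x) ((cf c v).Φ x) := by
  simp only [cf, vr, fp_rot, add_sub_cancel]

theorem tg_rot (h : c.Adm B G) (ht : Tg B c v) (θ : M → ℝ) : Tg B c (rot c θ v) := by
  refine Tg.of (fun x => by rw [fa_rot, ht.p1]) fun x => ?_
  have e : c.m.pp B x (c.Φ x + fp (v x)) = c.Φ x + fp (v x) := by rw [map_add, h.pos, ht.pp]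
  rw [fp_rot, map_sub, h.pos, ph_apply, map_add, map_smul, map_smul, ← mul_apply_eq_comp _ c.m.J,
    ← Wz78.J_pp h.ok, mul_apply_eq_comp, e]

theorem sm_ph (hθ : Sm I θ) : Sm I fun x => ph c (θ x) :=
  ((Mon62.sm_comp contDiff_cos hθ).smul contMDiff_const).add
    ((Mon62.sm_comp contDiff_sin hθ).smul contMDiff_const)

theorem sm_rot (h : c.Adm B G) (hθ : Sm I θ) (hv : Sm I v) : Sm I (rot c θ v) :=
  (sm_clm _ (sm_clm fa hv)).add
    (sm_clm _ (((sm_ph hθ).clm_apply (h.sm.add (sm_clm fp hv))).sub h.sm))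

/-- gauge equivalences commute with phase functions -/
theorem eq0_rot {F : Fr I M ι} {O : Set M} {g : M → En (Fin c.m.N)}
    (h : Eq0 F (cf c u) (cf c v) O g) (θ : M → ℝ) :
    Eq0 F (cf c (rot c θ u)) (cf c (rot c θ v)) O g := by
  refine ⟨h.iso, ?_, fun x hx => ?_, h.z⟩
  · rw [cf_rot_W, cf_rot_W]; exact h.par
  · have e : ∀ w, c.m.J (g x w) = g x (c.m.J w) := DFunLike.congr_fun (h.iso.J x hx)
    have e' : ∀ w, ph c (θ x) (g x w) = g x (ph c (θ x) w) := fun w => by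
      simp only [ph_apply, map_add, map_smul, e]
    rw [cf_rot_Φ, cf_rot_Φ, h.Φ x hx]
    exact e' _

theorem eq0_congr {F : Fr I M ι} {O : Set M} {g : M → En (Fin c.m.N)} {u' : M → Cv c}
    (h : Eq0 F (cf c u) (cf c v) O g) (e : ∀ x ∈ O, u' x = u x) : Eq0 F (cf c u') (cf c v) O g :=
  ⟨h.iso, fun x hx a => by
    have : (cf c u').W a x = (cf c u).W a x := by simp only [cf, vr, Md.addC, e x hx]
    rw [this]; exact h.par x hx a, fun x hx => by
    have : (cf c u').Φ x = (cf c u).Φ x := by simp only [cf, vr, e x hx]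
    rw [this]; exact h.Φ x hx, h.z⟩

end Crest.Agent.X212.Dec35
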