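import Crest.Agent.X212.Dec35.Lo
import Crest.Agent.X212.Dec35.Asm
import Crest.Agent.X212.Fin37.Fld
import Crest.Agent.X212.Pj41.Nkg

/-!
# Row 212, ASOL (helper35): solutions on a neck are approximate solutions on the cylinder
-/

set_option autoImplicit false
set_option linter.unusedSectionVars false
noncomputable section
open scoped Manifold ContDiff Topology InnerProductSpace
open MeasureTheory Set Function Filter Real

namespace Crest.Agent.X212.Dec35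
open An Map77 Sob92 Nd18 Cyf70 Pj41
open Rsp69 (PB)
open Wz78 (SA)
open Tmp64 (AdmOn Eq0 admOn_univ)
open Bki64 (Cl win win_op)
open Dgr80 (Gd)
open Eqv71 (cj ridx sq2 ad0 PNat0)

variable {E3 : Type} [NormedAddCommGroup E3] [NormedSpace ℝ E3] [FiniteDimensional ℝ E3]
  [MeasurableSpace E3] [BorelSpace E3]
  {H3 : Type} [TopologicalSpace H3] {I3 : ModelWithCorners ℝ E3 H3} [I3.Boundaryless]
  {Y : Type} [TopologicalSpace Y] [ChartedSpace H3 Y] [IsManifold I3 ∞ Y] [T2Space Y]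
  [MeasurableSpace Y] [BorelSpace Y] [SecondCountableTopology Y] [CompactSpace Y]
  {κ : Type} [Fintype κ] {lam : Type} [Fintype lam]
  {E : Type} [NormedAddCommGroup E] [NormedSpace ℝ E] [FiniteDimensional ℝ E]
  [MeasurableSpace E] [BorelSpace E]
  {HM : Type} [TopologicalSpace HM] {I : ModelWithCorners ℝ E HM} [I.Boundaryless]
  {M : Type} [TopologicalSpace M] [ChartedSpace HM M] [IsManifold I ∞ M]
  [MeasurableSpace M] [T2Space M] [BorelSpace M] [SecondCountableTopology M] {r n : ℕ}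

section gen
variable {ι : Type} [Fintype ι] {B : Base M ι lam} {G : Geo I M ι lam} {x c : Cfg M ι lam r}

theorem gd_of (hx : Gd B G x) (hc : c.Adm B G) {C : ℕ → ℝ} (h : CBc G.F.toPre c C) : Gd B G c := by
  obtain ⟨h1, h2, h3, h4, h5⟩ := exists_cbc.1 ⟨C, h⟩
  refine ⟨⟨hx.hB, hx.hG, hc.ok, hc.conn, hx.tame, h4, ?_⟩, hc, h5, h1, h2, h3⟩
  rw [show c.m.pg = _ from funext fun y => Std94.pg_eq hx.hB (Std94.pmx hc.ok y)]
  exact Std94.Kl.pgF (K := Std94.cbK G.F.toPre) (Cb_const _) h2 h3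

/-- the phase of an isomorphism is absorbed -/
theorem gd_eq0 (hx : Gd B G x) (hc : c.Adm B G) (e : Cfg.Iso B G.F x c) :
    ∃ x' v, Gd B G x' ∧ Eq0 G.F x' c univ v := by
  obtain ⟨v, ζ, e⟩ := e
  have a := admOn_univ.1 (admOn_ph ζ (admOn_univ.2 hx.adm))
  have k := Iso0.of_mEq isOpen_univ e.m (OK.on hx.ok _) (OK.on hc.ok _)
  refine ⟨⟨x.m, x.W, (Pj41.ph ζ x).Φ, c.z⟩, v, ⟨⟨hx.hB, hx.hG, hx.ok, hx.conn, hx.tame, hx.W, hx.pg⟩,
    ⟨a.ok, a.conn, a.sm, a.pos, hc.z⟩, Cb_clm (Eqv71.csL x.m.J ζ) hx.Φ, hx.p, hx.ρ, hx.j⟩, k,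
    (par0_iff ((IsConn.on hc.conn _).proj' hx.hB)).2 e.W, fun y hy => (e.Φ y hy).trans ?_, rfl⟩
  have : c.m.J (v y (x.Φ y)) = v y (x.m.J (x.Φ y)) := DFunLike.congr_fun (k.J y hy) _
  simp only [cs, map_add, map_smul, this]

theorem pg_congr {X X' : Type} {N : ℕ} {J : En (Fin N)} {p : X → En (Fin N)} {p' : X' → En (Fin N)}
    {ρ : ι → X → En (Fin N)} {ρ' : ι → X' → En (Fin N)} {j : X → CL (Eu lam) (En (Fin N))}
    {j' : X' → CL (Eu lam) (En (Fin N))} {y : X} {y' : X'} (h1 : p y = p' y')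
    (h2 : ∀ a, ρ a y = ρ' a y') (h3 : j y = j' y') :
    (⟨N, J, p, ρ, j⟩ : Md X ι lam).pg y = (⟨N, J, p', ρ', j'⟩ : Md X' ι lam).pg y' :=
  let f : En (Fin N) → (ι → En (Fin N)) → CL (Eu lam) (En (Fin N)) → CL (HS (Fin N)) (HS (Fin N)) :=
    fun a b c => (⟨N, J, fun _ => a, fun s _ => b s, fun _ => c⟩ : Md Unit ι lam).pg ()
  have e : f _ _ _ = f _ _ _ := congr (congr (congrArg f h1) (funext h2)) h3
  e

theorem norm_cj_ad {κ κ' : Type} [Fintype κ] [DecidableEq κ] [Fintype κ'] [DecidableEq κ']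
    {i : CL (Eu κ) (Eu κ')} (h : ad i ∘L i = 1) : ‖ad i‖ ≤ 1 ∧ ‖cj (ad i)‖ ≤ 1 := by
  have k : CIso (ad i) (i ∘L ad i) 1 := ⟨by rw [ad_ad], by rw [ad_ad, h], by
    rw [← ContinuousLinearMap.comp_assoc, h]; rfl⟩
  have e : ad (cj (ad i)) = cj (trn (ad i)) := ad_eq fun w v => by
    rw [Eqv71.inner_cj, Eqv71.trn_trn]
  refine ⟨Bki64.norm_iso k, Bki64.norm_iso (p := cj (i ∘L ad i)) (q := cj 1) ⟨?_, ?_, ?_⟩⟩ <;> ext1 ξ
  · rw [e, ContinuousLinearMap.comp_apply, Eqv71.cj_cj, ← ad_trn, k.src]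
  · rw [e, ContinuousLinearMap.comp_apply, Eqv71.cj_cj, ← ad_trn, k.tgt]
  · rw [ContinuousLinearMap.comp_apply, Eqv71.cj_cj, k.idem]

/-- the equations of a stabilisation -/
theorem e_stab {τ : Pt M ι lam r n} (hB : B.OK I) (hG : G.OK B) (p : PNat0 B G univ τ)
    (hc : c.Adm B G) {N : ℕ} {J : En (Fin N)} {i : CL c.m.V (Eu (Fin N))} (hi : Emb c.m.J J i)
    (y : M) : c.eD G τ y = ad i ((stab c J i).eD G τ y) ∧
      c.eC B G τ y = Cyc79.fb (cj (ad i)) ((stab c J i).eC B G τ y) := by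
  obtain ⟨h1, h2⟩ := stab_spec hi isOpen_univ (admOn_univ.2 hc)
  have g := Eqv71.lg_refl hB hG isOpen_univ
  have k := Eqv71.cr0_univ (ad0 hc) (ad0 (admOn_univ.1 h1)) (h2.cEq hB (admOn_univ.2 hc) h1)
  have k0 := Eqv71.cr0_refl hB hG isOpen_univ (ad0 hc) fun _ h => (h trivial).elim
  have a1 := p.eD g k (mem_univ y)
  have a2 := p.eD g k0 (mem_univ y)
  have b1 := p.eC g k (mem_univ y)
  have b2 := p.eC g k0 (mem_univ y)
  simp only [id, Circle.coe_one, Eqv71.cs_one] at a1 a2 b1 b2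
  have ii : ∀ v, ad i (i v) = v := fun v => DFunLike.congr_fun hi.iso v
  refine ⟨by rw [a1, ContinuousLinearMap.comp_apply, ii, ← a2], PiLp.ext fun s =>
    (?_ : _ = cj (ad i) ((stab c J i).eC B G τ y s))⟩
  rw [b1, Eqv71.ridx_P (hB.pr y) b2, Eqv71.cj_cj, ← ContinuousLinearMap.comp_assoc,
    hi.iso, ← Eqv71.ridx_P (hB.pr y) b2]
  exact congrArg (· s) b2

end gen

variable {D : YD I3 Y κ lam} {B : Base M (Option κ) lam} {G : Geo I M (Option κ) lam}
  (K : Nk D B G) {x c : Cfg M (Option κ) lam r} {c₂ : Cfg (Y × ℝ) (Option κ) lam 0} {t R : ℝ}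

/-- a configuration is made literal on a window -/
theorem win_lit (hx : Gd B G x) (hc : c.Adm B G) {v : M → CL x.m.V c.m.V} (e : Eq0 G.F x c univ v)
    (h₂ : c₂.Adm D.B D.G) {u : Y × ℝ → CL c.m.V c₂.m.V} (hJ : Ioo (t - R) (t + R) ⊆ K.J)
    (h : Cl D.Z (K.pb c) c₂ u (fun _ => 1) (win Y t R) 0 0) :
    ∃ (c' : Cfg M (Option κ) lam r) (i : CL c₂.m.V c'.m.V), Emb c₂.m.J c'.m.J i ∧ Gd B G c' ∧
      Cfg.Iso B G.F c c' ∧ ∀ z : Y × ℝ, |z.2 - t| ≤ R - 1 / 2 → LitAt c' c₂ i (K.ψ z) z := by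
  have o := win_op (Y := Y) t R
  have s : win Y t R ⊆ K.ψ.source := fun z hz => K.mem_src.2 (hJ hz.2)
  have g := (nk_gRel K).mono o s
  have li := fun z hz => K.ψ.left_inv (s (a := z) hz)
  have A := g.admOn_iff.2 ((admOn_univ.2 hc).mono (subset_univ _))
  have k1 := h.iso.congr o (u' := fun z => u (K.ψ.symm (K.ψ z))) fun z hz => congrArg u (li z hz)
  have k2 := (par0_of_ad (G := D.G) (W' := c₂.W) o h.iso A.ok A.conn fun z hz a => by
    have := norm_le_zero_iff.1 ((h.A a).le hz)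
    rw [Bki64.dA, ← ad_trn] at this
    exact this).congr o
      (u' := fun z => u (K.ψ.symm (K.ψ z))) fun z hz => congrArg u (li z hz)
  have b0 : AdmOn (cmC K.ψ.symm c₂) B G (K.ψ '' win Y t R) := g.admOn_iff.1 (admOn_same o
    (fun z hz => congrArg c₂.m.p (li z hz)) (fun b z hz => congrArg (c₂.m.ρ b) (li z hz))
    (fun z hz => congrArg c₂.m.j (li z hz)) ((admOn_univ.2 h₂).mono (subset_univ _))
    (fun b z hz => congrArg (c₂.W b) (li z hz)) (fun z hz => congrArg c₂.Φ (li z hz)) (.inl rfl))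
  have b1 : Iso0 I c.m (cmM K.ψ.symm c₂.m) (K.ψ '' win Y t R) fun y => u (K.ψ.symm y) :=
    g.fr.iso0_push ⟨k1.su, fun z hz => by dsimp only; rw [li z hz]; exact h.iso.iso z hz, k1.J,
      fun z hz b => by dsimp only; rw [li z hz]; exact h.iso.ρ z hz b,
      fun z hz b => by dsimp only; rw [li z hz]; exact h.iso.j z hz b⟩
  have b2 : Par0 G.F (m' := cmM K.ψ.symm c₂.m) c.W (fun a y => c₂.W a (K.ψ.symm y))
      (K.ψ '' win Y t R) fun y => u (K.ψ.symm y) :=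
    g.fr.par0_push (m' := cmM K.ψ.symm c₂.m) fun z hz a => by
      have := k2 z hz a
      dsimp only at this ⊢
      rw [li z hz] at this ⊢
      exact this
  have b3 : ∀ y ∈ K.ψ '' win Y t R, c₂.Φ (K.ψ.symm y) = u (K.ψ.symm y) (c.Φ y) :=
    forall_mem_image.2 fun z hz => by
      have := norm_le_zero_iff.1 (h.P.le hz)
      rw [Bki64.dP, Circle.coe_one, Eqv71.cs_one, sub_eq_zero] at this
      rw [li z hz]
      exact this.symm
  have st := smoothTransition.contDiff (n := ⊤)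
  set f : ℝ → ℝ := fun s => 4 * smoothTransition (4 * (s - (t - R)) - 1) *
    smoothTransition (4 * (t + R - s) - 1) with hf
  have cs : Icc (t - R + 1 / 4) (t + R - 1 / 4) ⊆ Ioo (t - R) (t + R) := fun s hs =>
    ⟨by linarith [hs.1], by linarith [hs.2]⟩
  have f0 : ∀ s ∉ Icc (t - R + 1 / 4) (t + R - 1 / 4), f s = 0 := fun s hs => by
    rcases not_and_or.1 hs with k | k
    · simp only [hf, smoothTransition.zero_of_nonpos (show 4 * (s - (t - R)) - 1 ≤ 0 by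
        linarith [not_le.1 k]), mul_zero, zero_mul]
    · simp only [hf, smoothTransition.zero_of_nonpos (show 4 * (t + R - s) - 1 ≤ 0 by
        linarith [not_le.1 k]), mul_zero]
  have hs : ∀ y, 0 < f (K.tm y) → y ∈ K.ψ '' win Y t R := fun y hy =>
    image_mono (fun z hz => show z ∈ win Y t R from ⟨trivial, hz⟩) 
      (nk_image K hJ (cs (by_contra fun k => hy.ne' (f0 _ k))))
  obtain ⟨c', i₁, i, a, q1, q2, -, q3, -, -, q4, q5⟩ := exists_lit (c₂ := cmC K.ψ.symm c₂) hx.hG.P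
    hx.adm b0 ((e.iso.mono (subset_univ _)).trans b1)
    (nk_sm K (f := f) (by fun_prop) isClosed_Icc (cs.trans hJ) f0) hs
  have w := fun y (hy : 3 < f (K.tm y)) => hs y (three_pos.trans hy)
  have q6 := q5 univ isOpen_univ ((e.par.mono (subset_univ _)).trans (b2.mono fun y hy => w y hy.2)
    (fun y _ => e.iso.su y trivial) fun y hy => b1.su y (w y hy.2)) fun y _ hy => by
      rw [ContinuousLinearMap.comp_apply, ← e.Φ y trivial]; exact b3 y (w y hy)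
  obtain ⟨C0, k0⟩ := exists_cbc.2 ⟨hx.p, hx.ρ, hx.j, hx.W, hx.Φ⟩
  obtain ⟨C1, k3⟩ := exists_cbc_stab k0 c'.m.J i₁
  obtain ⟨C2, k4⟩ := exists_bAc q2 ((Cht98.nck K).isCompact isCompact_Icc (cs.trans hJ))
  refine ⟨c', i, q1.e₂, gd_of hx q2 (C := fun k => max (C1 k) (C2 k)) (cbc_of_bAc q2 fun y => ?_),
    ((e.symm (admOn_univ.2 hx.adm) (admOn_univ.2 hc)).trans q6).cfgIso hx.hB hc q2,
    fun z hz => ?_⟩
  · by_cases hy : y ∈ K.tm ⁻¹' Icc (t - R + 1 / 4) (t + R - 1 / 4)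
    · exact (k4 y hy).mono fun k => le_max_right _ _
    · exact ((FRel.refl G.F (isClosed_Icc.preimage K.cont).isOpen_compl).bAc_lit k3
        (fun y hy => q3 y ((f0 _ hy).trans_le zero_le_one)) hy).mono fun k => le_max_left _ _
  · obtain ⟨z1, z2⟩ := abs_le.1 hz
    have hz' : z ∈ win Y t R := ⟨trivial, by linarith, by linarith⟩
    have j := q4 (K.ψ z) (by
      simp only [K.tm_ψ z (s hz'), hf, smoothTransition.one_of_one_le (show
        1 ≤ 4 * (z.2 - (t - R)) - 1 by linarith), smoothTransition.one_of_one_le (show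
        1 ≤ 4 * (t + R - z.2) - 1 by linarith), mul_one, le_rfl])
    have j' : LitAt c' c₂ i (K.ψ z) (K.ψ.symm (K.ψ z)) := ⟨j.p, j.ρ, j.j, j.W, j.Φ⟩
    rwa [li z hz'] at j'

/-- the local parts of the equations of literal configurations agree -/
theorem e_lit {i : CL c₂.m.V c.m.V} {z : Y × ℝ} (hs : z ∈ K.ψ.source)
    (e : ∀ᶠ y in 𝓝 z, LitAt c c₂ i (K.ψ y) y) (τ : Pt M (Option κ) lam r n)
    (σ : Pt (Y × ℝ) (Option κ) lam 0 0) (h : c.eD G τ (K.ψ z) = 0 ∧ c.eC B G τ (K.ψ z) = 0) :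
    (stab c₂ c.m.J i).eD D.G σ z = τ.D c (K.ψ z) - σ.D (stab c₂ c.m.J i) z ∧
      (stab c₂ c.m.J i).eC D.B D.G σ z = τ.C c (K.ψ z) - σ.C (stab c₂ c.m.J i) z := by
  have l := e.self_of_nhds
  have pg : (stab c₂ c.m.J i).m.pg z = c.m.pg (K.ψ z) :=
    pg_congr l.p.symm (fun a => (l.ρ a).symm) l.j.symm
  have e1 : (stab c₂ c.m.J i).m.Fg D.G.F (stab c₂ c.m.J i).W z = c.m.Fg G.F c.W (K.ψ z) :=
    PiLp.ext fun s => congrArg₂ (fun (A : CL c.m.A c.m.A) T => A (hsL T)) pg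
      (K.rel.curv hs (fun a => e.mono fun _ k => (k.W a).symm) s.1 s.2)
  have e2 : D.B.sd z = B.sd (K.ψ z) := by
    funext s t
    simp only [Base.sd, Base.st, Base.a2, K.o _ _ _ _ z hs, K.P _ _ z hs]
  have e3 : (stab c₂ c.m.J i).m.p2 D.B z = c.m.p2 B (K.ψ z) := congrArg₂ idx e2 pg
  have e4 : (stab c₂ c.m.J i).m.mu D.B z (i (c₂.Φ z)) (i (c₂.Φ z)) =
      c.m.mu B (K.ψ z) (c.Φ (K.ψ z)) (c.Φ (K.ψ z)) := by
    simp only [Md.mu, Md.q, e3, pg, l.Φ, l.ρ]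
  refine ⟨congrArg (· - _) ((K.rel.dir hs (fun a => (l.ρ a).symm) (fun a => (l.W a).symm)
    (e.mono fun _ k => k.Φ.symm)).trans (sub_eq_zero.1 h.1)), congrArg (· - _) ?_⟩
  rw [e1, e3, e4]
  exact sub_eq_zero.1 h.2

variable {K} {w : M → M → ℝ} {S C C' : ℝ}

theorem Bnd.iso {c' : Cfg M (Option κ) lam r} (h : Bnd K c w S C) (hB : B.OK I) (hG : G.OK B)
    (hc : c.Adm B G) (hc' : c'.Adm B G) (e : Cfg.Iso B G.F c c') : Bnd K c' w S C := by
  obtain ⟨a, -, -, b, d⟩ := Fin37.iso_inv hB hG h.tame hc hc' e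
  refine ⟨h.vol, h.tame, h.wts, h.low, ⟨h.le.one, fun y => a y ▸ h.le.Φ y, fun y => ?_, fun y => ?_⟩,
    d _ K.sm_τ ▸ h.en⟩
  · simpa only [b] using h.le.int y
  · simpa only [b] using h.le.F y

theorem Bnd.mono (h : Bnd K c w S C) (e : C ≤ C') : Bnd K c w S C' :=
  ⟨h.vol, h.tame, h.wts, h.low, Mp86.le_mono h.le e, h.en.imp (·.le e) fun k y => (k y).trans e⟩

section ls
variable {V V' : Type} [NormedAddCommGroup V] [NormedSpace ℝ V] [NormedAddCommGroup V']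
  [NormedSpace ℝ V'] {f g : Y × ℝ → V} {k : ℕ} {m m' : ℝ}

theorem Ls.mono (h : Ls D k f t m) (e : m ≤ m') : Ls D k f t m' :=
  fun y => ⟨(h y).1, (h y).2.mono e⟩

theorem Ls.add (h : Ls D k f t m) (h' : Ls D k g t m') : Ls D k (fun z => f z + g z) t (m + m') :=
  fun y => ⟨(h y).1.add (h' y).1, PB.add k (h y).1 (h' y).1 (h y).2 (h' y).2⟩

theorem Ls.clm (h : Ls D k f t m) (L : V →L[ℝ] V') {a : ℝ} (e : ‖L‖ ≤ a) :
    Ls D k (fun z => L (f z)) t (a * |m|) := fun y => ⟨SA.clm L (h y).1, (PB.clm L k (h y).1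
      (h y).2).mono (mul_le_mul e (le_abs_self m) (h y).2.nn ((norm_nonneg _).trans e))⟩

theorem Ls.sum {ι : Type} (J : Finset ι) {g : ι → Y × ℝ → V} {q n : ι → ℝ} {Q : ℝ}
    (hq : ∀ j, |q j| ≤ Q) (h : Ls D k f t m) (h' : ∀ j ∈ J, Ls D k (g j) t (n j)) :
    Ls D k (fun z => f z + ∑ j ∈ J, q j • g j z) t (m + ∑ j ∈ J, Q * |n j|) := by
  classical
  induction J using Finset.induction_on with
  | empty => simpa using h
  | insert j s hj ih =>
    simp only [Finset.sum_insert hj, add_left_comm (f _), add_left_comm m]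
    exact ((h' j (by simp)).clm (q j • ContinuousLinearMap.id ℝ V) (by
      rw [norm_smul]
      exact (mul_le_of_le_one_right (norm_nonneg _) ContinuousLinearMap.norm_id_le).trans
        (hq j))).add (ih fun i hi => h' i (by simp [hi]))

end ls

theorem pt_sub {V : Type} [AddCommGroup V] [Module ℝ V] {W : Type} {J : Finset W} {q : W →₀ ℝ}
    (h : q.support ⊆ J) (a b : V) (f g : W → V) :
    a + (q.sum fun w s => s • f w) - (b + q.sum fun w s => s • g w) =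
      a - b + ∑ j ∈ J, q j • (f j - g j) := by
  rw [q.sum_of_support_subset h (fun w s => s • f w) fun _ _ => zero_smul _ _,
    q.sum_of_support_subset h (fun w s => s • g w) fun _ _ => zero_smul _ _]
  simp only [smul_sub, Finset.sum_sub_distrib]
  abel

variable {β : YC Y κ lam} {N : ND Y lam} {γ : ℝ}

/-- the equations are bounded on bounded variations of a critical point -/
theorem sz_bd (hD : D.OK) (hβ : D.Adm β) {T : Set (Pt (Y × ℝ) (Option κ) lam 0 0)} {g : ℝ}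
    (p1 : P1U D β g T) (hg : 0 < g) (h0 : ∀ τ ∈ T, sz D β τ 0 = 0) (k : ℕ) : ∃ k', ∀ A, ∃ K,
    ∀ τ ∈ T, ∀ a, Vb D β a → D.Z.CB k' a A → ∀ t, Lt D k (sz D β τ a) t K := by
  obtain ⟨k', h⟩ := p1.bd k
  refine ⟨max k' (k + 1), fun A => ?_⟩
  obtain ⟨K, -, b⟩ := (Err63.cd_cy hD hβ).bs_Lc (l := ⊤) (S := fun _ => univ) (k := k)
    (u := fun a : {a : Cz β // Vb D β a ∧ D.Z.CB (k + 1) a |A|} => a.1)
    (Rsp69.Bk.of_CB (.of_forall fun a => ⟨a.2.1.cb.choose_spec.1, a.2.2⟩))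
  simp only [eventually_top, mem_univ, forall_const, Pi.one_apply, mul_one] at b
  obtain ⟨K', h⟩ := h |A|
  have v0 : Vb D β 0 := ⟨Cb_const 0, Tg.zero⟩
  have c0 : ∀ j, D.Z.CB j (0 : Cz β) |A| := fun j =>
    CB_mono (CB_const j 0) (norm_zero.trans_le (abs_nonneg A))
  refine ⟨K + 1 * |K| + 1 * |K' * (|A|)|, fun τ hτ a ha hc t w hw y => ?_⟩
  have c1 := CB_mono hc (le_abs_self A)
  have n : ‖-ContinuousLinearMap.id ℝ (Ev (cy β))‖ ≤ 1 := by
    rw [norm_neg]; exact ContinuousLinearMap.norm_id_le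
  have l1 : Ls D k (Err63.Lc D.B D.G (cy β) a) t K := fun y =>
    (b ⟨a, ha, CB_of_le c1 (le_max_right _ _)⟩ (y, t)).2
  have l2 : Ls D k (Err63.Lc D.B D.G (cy β) 0) t K := fun y => (b ⟨0, v0, c0 _⟩ (y, t)).2
  have l3 : Ls D k (te τ (cy β) a - te τ (cy β) 0) t (K' * |A|) := fun y =>
    ⟨(p1.sm τ hτ a ha _).sub (p1.sm τ hτ 0 v0 _), fun w hw => h τ hτ a 0 ha v0
      (CB_of_le c1 (le_max_left _ _)) (c0 _) t _ (abs_nonneg A) (fun s w hw y => by
        rw [sub_zero]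
        exact (c1 w (hw.trans (le_max_left _ _)) _).trans (le_mul_of_one_le_right (abs_nonneg A)
          (one_le_exp (by positivity)))) w hw y⟩
  refine (((l1.add (l2.clm _ n)).add (l3.clm _ n)) y).2.congr (.of_forall fun x => ?_) w hw
  have e := congrFun ((Err63.sz_eq hD hβ v0).symm.trans (h0 τ hτ)) x
  rw [Err63.sz_eq hD hβ ha]
  simp only [neg_apply, ContinuousLinearMap.id_apply, Pi.sub_apply,
    sub_eq_zero.1 e]
  abel

/-- **ASOL**: uniform on the balls `InB J Q` and for given a priori bounds -/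
theorem asol (hD : D.OK) (hN : N.OK D) (hβ₀ : N.Crit D β) (h₁ : P1In D β N) (hγ : 0 < γ)
    (h : LocIn D β N γ) (J : Finset (YW I3 Y)) (Q S C : ℝ) : ∃ (k' : ℕ → ℕ) (Kc : ℕ → ℝ → ℝ),
    ∀ (X : Rsp69.Mf (Option κ) lam) (K : Nk D X.B X.G) (r n : ℕ) (x c : Cfg X.M (Option κ) lam r)
      (w : X.M → X.M → ℝ) (q : YW I3 Y →₀ ℝ) (T : Set ℝ), Gd X.B X.G x → c.Adm X.B X.G →
      Cfg.Iso X.B X.G.F x c → Bnd K c w S C → InB J Q q → T ⊆ K.J →
      (∀ y, K.tm y ∈ T → c.eD X.G (N.pt K q : Pt _ _ _ r n) y = 0 ∧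
        c.eC X.B X.G (N.pt K q : Pt _ _ _ r n) y = 0) →
      Asol D β (N.pt D.nk q) γ k' Kc (K.pb c) T := by
  classical
  have hβ : D.Adm β := ⟨hβ₀.sol.toAdm, hβ₀.tmp⟩
  obtain ⟨g₀, hg₀, p1, p2⟩ := h₁
  choose k₂ h₁ using sz_bd hD hβ (P1U.cmb (cmb_bl J Q) p1 p2) hg₀ (by
    rintro _ ⟨q, -, rfl⟩; exact sz_sol ((Bki64.crit_iff hβ).1 hβ₀))
  choose K₂ h₁ using h₁
  choose k₁ h using h
  choose K₁ h using h
  set Ko : ℕ → ℝ → ℝ := fun k A => K₁ none k (max C A) S +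
    ∑ j ∈ J, Q * |K₁ (some j) k (max C A) S|
  set R₀ : ℕ → ℝ → ℝ := fun k A => ∑ o ∈ insert none (J.image some), |K₁ o k (max C A) S| + 1 / 2
  refine ⟨fun k => max (k₂ k) ((insert none (J.image some)).sup (k₁ · k)), fun k A =>
    max (2 * |Ko k A| * exp (γ / 2)) (|K₂ k A| * exp (γ * R₀ k A)),
    fun X K r n x c w q T hx hc e hb hq hT hs k A a u t R h1 h2 ha hk hu => ?_⟩
  rcases le_total R (R₀ k A) with hR | hR
  · refine (h₁ k A _ ⟨q, hq, rfl⟩ a ha (CB_of_le hk (le_max_left _ _)) t).mono le_rfl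
      (((le_abs_self _).trans ?_).trans (mul_le_mul_of_nonneg_right (le_max_right _ _) (exp_pos _).le))
    rw [mul_assoc, ← exp_add]
    exact le_mul_of_one_le_right (abs_nonneg _) (one_le_exp (by nlinarith))
  refine Lt.mono ?_ le_rfl (mul_le_mul_of_nonneg_right (le_max_left _ _) (exp_pos _).le)
  replace hk := CB_of_le hk (le_max_right _ _)
  obtain ⟨x', v, hx', e'⟩ := gd_eq0 hx hc e
  have h₂ := cf_adm hβ.adm ha.cb.choose_spec.1 ha.tg
  obtain ⟨c', i, hi, hc', ⟨v', ζ, e₂⟩, lit⟩ := win_lit K hx' hc e' h₂ (h2.trans hT) hu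
  obtain ⟨Ct, ht⟩ := hx.tame
  obtain ⟨Cz, hz⟩ := tame_Z hD
  have p := Eqv71.pt_nat0 (r := r) (n := n) K hx.hB hx.hG ht isClopen_univ
    (fun _ h => (h trivial).elim) hN q
  have p' := Eqv71.pt_nat0 (r := 0) (n := 0) D.nk hD.B hD.G hz isClopen_univ
    (fun _ h => (h trivial).elim) hN q
  have g := Eqv71.lg_refl hx.hB hx.hG isOpen_univ
  have cr := Eqv71.cr0_univ (ad0 hc) (ad0 hc'.adm) e₂
  have sub : Icc (t - (R - 1 / 2)) (t + (R - 1 / 2)) ⊆ T := fun s hs =>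
    h2 ⟨by linarith [hs.1], by linarith [hs.2]⟩
  have L := fun o (ho : o ∈ insert none (J.image some)) => h o k (max C A) S X K r n c' a i w t
    (R - 1 / 2) (le_sub_iff_add_le.2 (le_trans (add_le_add_left ((le_abs_self _).trans
      (Finset.single_le_sum (f := fun o => |K₁ o k (max C A) S|) (fun _ _ => abs_nonneg _) ho)) _) hR))
    hc' ((hb.iso hx.hB hx.hG hc hc'.adm ⟨v', ζ, e₂⟩).mono (le_max_left _ _))
    ha (CB_mono (CB_of_le hk (Finset.le_sup (f := (k₁ · k)) ho)) (le_max_right _ _)) hi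
    (fun s hs => have := hT (sub hs); ⟨fun a ha => by linarith [this.1 a ha],
      fun a ha => by linarith [this.2 a ha]⟩) lit
  have L0 := L none (by simp)
  have L1 := fun j (hj : j ∈ J) => L (some j) (by simp [hj])
  obtain ⟨n1, n2⟩ := norm_cj_ad hi.iso
  have m1 := ((L0.1.sum J hq.2 fun j hj => (L1 j hj).1).clm (i1 _ (Fm (Option κ × Option κ)
    (cy β).m.A) ∘L ad i) (a := 1) (ContinuousLinearMap.opNorm_le_bound _ zero_le_one fun y => by
      simpa [i1] using (ad i).le_of_opNorm_le n1 y))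
  have m2 := ((L0.2.sum J hq.2 fun j hj => (L1 j hj).2).clm (i2 (cy β).m.V _ ∘L
    Cyc79.fb (cj (ad i))) (a := 1) (ContinuousLinearMap.opNorm_le_bound _ zero_le_one fun y => by
      simpa [i2] using (Cyc79.norm_fb_le _ y).trans (mul_le_mul_of_nonneg_right n2 (norm_nonneg _))))
  intro w' hw y
  refine (((m1.add m2) y).2.congr ?_ w' hw).trans ?_
  · have o : IsOpen {z : Y × ℝ | |z.2 - t| < R - 1 / 2} := isOpen_lt (by fun_prop) continuous_const
    refine (o.eventually_mem (x := (y, t)) (by simp; linarith)).mono fun z hz => ?_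
    obtain ⟨z1, z2⟩ := abs_lt.1 (show |z.2 - t| < _ from hz)
    have zT : z.2 ∈ T := sub ⟨by linarith, by linarith⟩
    have zs := K.mem_src.2 (hT zT)
    obtain ⟨s1, s2⟩ := hs (K.ψ z) (K.tm_ψ z zs ▸ zT)
    obtain ⟨b1, b2⟩ := e_lit K zs ((o.eventually_mem hz).mono fun y hy => lit y (le_of_lt hy))
      (N.pt K q : Pt _ _ _ r n) (N.pt D.nk q) ⟨(p.eD g cr (mem_univ (K.ψ z))).trans (by
        rw [s1, map_zero, ← Eqv71.csL_apply, map_zero]), (p.eC g cr (mem_univ (K.ψ z))).trans (by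
        rw [s2, map_zero])⟩
    obtain ⟨b3, b4⟩ := e_stab hD.B hD.G p' h₂ hi z
    exact congrArg₂ (fun (a : (cy β).m.V) (b : Fm _ (cy β).m.A) => i1 _ _ a + i2 _ _ b)
      (b3.trans (congrArg _ (b1.trans (pt_sub hq.1 _ _ _ _)))).symm
      (b4.trans (congrArg _ (b2.trans (pt_sub hq.1 _ _ _ _)))).symm
  · have p := exp_pos (-γ * (R - 1 / 2))
    simp only [abs_mul (K₁ _ _ _ _), abs_of_pos p, ← mul_assoc, ← Finset.sum_mul, ← add_mul]
    rw [abs_mul, abs_of_pos p, mul_assoc (2 * _), ← exp_add,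
      show γ / 2 + -γ * R = -γ * (R - 1 / 2) by ring]
    exact le_of_eq (by ring)

end Crest.Agent.X212.Dec35
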