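import Crest.Agent.X212.Dec35.Kw

/-!
# Row 212, DEC (helper35): commutator bounds from `KW`

`R = e^ψ K e^(-ψ) - K` is `O(δ)` and the symmetric part of `ς R` is `O(δ² + εδ)` when
`|ψ'| ≤ δ`, `|ς'| ≤ ε`, `|ς| ≤ 1`.
-/

set_option autoImplicit false
noncomputable section
open Set Real
open scoped RealInnerProductSpace

namespace Crest.Agent.X212.Dec35
open Neck67

def cw (e : ℝ) : ℝ := 64 / e ^ 2 * exp (4 * e)

/-- the constant of the commutator bounds -/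
def cR (d C : ℝ) : ℝ := 2 * (C * cw (d / cS 0)) * (1 - exp (-(d / cS 0 / 4)))⁻¹

theorem poly {e : ℝ} (he : 0 < e) (n : ℕ) :
    ((n : ℝ) + 1) ^ 2 * exp (e * (n + 1) / 2) * exp (e * (3 - n)) ≤ cw e * exp (-(e / 4)) ^ n := by
  have h1 : e * (n + 1) / 8 ≤ exp (e * (n + 1) / 8) := by linarith [add_one_le_exp (e * (n + 1) / 8)]
  have h2 : (e * (n + 1) / 8) ^ 2 ≤ exp (e * (n + 1) / 4) := by
    refine (pow_le_pow_left₀ (by positivity) h1 2).trans_eq ?_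
    rw [← exp_nat_mul]; congr 1; push_cast; ring
  have h3 : ((n : ℝ) + 1) ^ 2 ≤ 64 / e ^ 2 * exp (e * (n + 1) / 4) := by
    rw [div_mul_eq_mul_div, le_div_iff₀ (by positivity)]; nlinarith
  rw [cw, ← exp_nat_mul, mul_assoc, mul_assoc, ← exp_add, ← exp_add]
  refine (mul_le_mul_of_nonneg_right h3 (exp_pos _).le).trans ?_
  rw [mul_assoc, ← exp_add]
  exact mul_le_mul_of_nonneg_left (exp_le_exp.2 (by nlinarith)) (by positivity)

theorem abs_exp_sub {x z : ℝ} (h : |x| ≤ z) : |exp x - 1| ≤ z * exp z := by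
  have hz := (abs_nonneg x).trans h
  rw [abs_le] at h ⊢
  have h1 := add_one_le_exp x
  have h2 := add_one_le_exp (-x)
  have h3 : exp x ≤ exp z := exp_le_exp.2 h.2
  have h4 : exp x * exp (-x) = 1 := by rw [← exp_add]; simp
  have h5 := exp_pos x
  have h6 := one_le_exp hz
  constructor
  · nlinarith
  · nlinarith

theorem abs_cosh {x z : ℝ} (h : |x| ≤ z) : |exp x + exp (-x) - 2| ≤ z ^ 2 * exp (2 * z) := by
  have h4 : exp x * exp (-x) = 1 := by rw [← exp_add]; simp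
  have e : exp x + exp (-x) - 2 = -((exp x - 1) * (exp (-x) - 1)) := by linarith
  have hz := (abs_nonneg x).trans h
  rw [e, abs_neg, abs_mul]
  refine (mul_le_mul (abs_exp_sub h) (abs_exp_sub (z := z) (by rwa [abs_neg])) (abs_nonneg _)
    (by positivity)).trans_eq ?_
  rw [two_mul, exp_add]; ring

namespace Mu
variable {A : Type*} [NormedAddCommGroup A] [InnerProductSpace ℝ A] {M : Mu A}
  {K : A →L[ℝ] A} {d C : ℝ} {i j l : ℤ} {b c ψ ς : ℝ → ℝ} {β γ δ ε z : ℝ}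

theorem Nr.one (l : ℤ) : Nr l 1 1 := ⟨Sm.one, fun _ _ => by simp⟩

theorem Nr.mul (hb : Nr l b β) (hc : Nr l c γ) : Nr l (b * c) (β * γ) :=
  ⟨hb.1.mul hc.1, fun t ht => by
    rw [Pi.mul_apply, abs_mul]
    exact mul_le_mul (hb.2 t ht) (hc.2 t ht) (abs_nonneg _) ((abs_nonneg _).trans (hb.2 t ht))⟩

theorem Nr.neg (hb : Nr l b β) : Nr l (-b) β := ⟨hb.1.neg, fun t ht => by simpa using hb.2 t ht⟩

theorem Nr.ex (hb : Nr l b z) : Nr l (ex b) (exp z) := ⟨hb.1.ex, fun t ht => by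
  rw [Neck67.ex, abs_exp]; exact exp_le_exp.2 ((le_abs_self _).trans (hb.2 t ht))⟩

theorem Nr.ex1 (hb : Nr l b z) : Nr l (Neck67.ex b - 1) (z * exp z) :=
  ⟨hb.1.ex.sub Sm.one, fun t ht => abs_exp_sub (hb.2 t ht)⟩

theorem Nr.ex2 (hb : Nr l b z) :
    Nr l (Neck67.ex b + Neck67.ex (-b) - (1 + 1)) (z ^ 2 * exp (2 * z)) :=
  ⟨(hb.1.ex.add hb.1.neg.ex).sub (Sm.one.add Sm.one), fun t ht => by
    have := abs_cosh (hb.2 t ht)
    simpa [Neck67.ex, one_add_one_eq_two] using this⟩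

theorem nr_ctr (hb : Sm b) (h : Bd 0 (deriv b) β) (i : ℤ) {n : ℕ} (hl : (i - l).natAbs ≤ n) :
    Nr l (b - fun _ => b i) (β * (n + 1)) := ⟨hb.sub (Sm.const _), fun t ht => by
  refine (abs_sub_le_of_bd hb h _ _).trans (mul_le_mul_of_nonneg_left ?_ h.nonneg)
  have h1 : ((i - l).natAbs : ℝ) ≤ n := by exact_mod_cast hl
  rw [Nat.cast_natAbs] at h1
  push_cast at h1
  rw [abs_le] at h1 ⊢
  constructor <;> linarith [ht.1, ht.2]⟩

variable (M d C) in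
/-- one block is bounded by `w` times the standard bound -/
def Tb (i j : ℤ) (T : A →L[ℝ] A) (w : ℝ) : Prop :=
  ‖M.m (ch i) * T * M.m (ch j)‖ ≤
    w * (C * cw (d / cS 0)) * exp (-(d / cS 0 / 4)) ^ (i - j).natAbs

theorem Tb.add {T T' : A →L[ℝ] A} {w w' : ℝ} (h : Tb M d C i j T w) (h' : Tb M d C i j T' w') :
    Tb M d C i j (T + T') (w + w') := by
  rw [Tb, mul_add, add_mul, add_mul, add_mul]
  exact (norm_add_le _ _).trans (add_le_add h h')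

theorem Tb.smul {T : A →L[ℝ] A} {w a : ℝ} (h : Tb M d C i j T w) (ha : |a| ≤ 1) :
    Tb M d C i j (a • T) w := by
  rw [Tb, mul_smul_comm, smul_mul_assoc, norm_smul]
  exact (mul_le_of_le_one_left (norm_nonneg _) ha).trans h

theorem KW.tb (h : M.KW K d C) (hd : 0 < d) (hb : Nr i b β) (hc : Nr j c γ) {w : ℝ} (hw : 0 ≤ w)
    (hz : z = ((i - j).natAbs : ℝ) + 1) (hδ : δ ≤ d / cS 0 / 4)
    (hle : β * γ ≤ w * (z ^ 2 * exp (2 * (δ * z)))) : Tb M d C i j (M.m b * K * M.m c) w := by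
  have cS0 : 0 < cS 0 := lt_of_lt_of_le one_pos (one_le_cS 0)
  have C0 : 0 ≤ C := (norm_nonneg _).trans (h.norm_le hd.le)
  have z0 : 0 ≤ z := by rw [hz]; positivity
  refine (h.blk hd.le hb hc).trans ?_
  have h1 := poly (show 0 < d / cS 0 by positivity) (i - j).natAbs
  rw [← hz] at h1
  have h2 : exp (2 * (δ * z)) ≤ exp (d / cS 0 * z / 2) := exp_le_exp.2 (by nlinarith)
  have h3 : β * γ ≤ w * (z ^ 2 * exp (d / cS 0 * z / 2)) := hle.trans (by gcongr)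
  calc _ ≤ C * (w * (z ^ 2 * exp (d / cS 0 * z / 2))) * exp (d / cS 0 * (3 - (i - j).natAbs)) := by
        gcongr
    _ = C * w * (z ^ 2 * exp (d / cS 0 * z / 2) * exp (d / cS 0 * (3 - (i - j).natAbs))) := by ring
    _ ≤ C * w * (cw (d / cS 0) * exp (-(d / cS 0 / 4)) ^ (i - j).natAbs) := by gcongr
    _ = _ := by ring

theorem KW.norm_of_tb (h : M.KW K d C) (hd : 0 < d) {T : A →L[ℝ] A} {w : ℝ} (hw : 0 ≤ w)
    (hT : ∀ i j, Tb M d C i j T w) : ‖T‖ ≤ w * cR d C := by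
  have cS0 : 0 < cS 0 := lt_of_lt_of_le one_pos (one_le_cS 0)
  have C0 : 0 ≤ C := (norm_nonneg _).trans (h.norm_le hd.le)
  refine (M.schur (by unfold cw; positivity) (exp_pos _).le
    (exp_lt_one_iff.2 (by rw [neg_lt_zero]; positivity)) hT).trans_eq ?_
  rw [cR]; ring

theorem KW.cR_nonneg (h : M.KW K d C) (hd : 0 < d) : 0 ≤ cR d C := by
  have := h.norm_of_tb hd (T := 0) zero_le_one fun i j => by
    have C0 : 0 ≤ C := (norm_nonneg _).trans (h.norm_le hd.le)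
    simp only [Tb, mul_zero, zero_mul, norm_zero, cw]; positivity
  simpa using this

variable (M K) in
/-- the error of the conjugation -/
def cj (ψ : ℝ → ℝ) : A →L[ℝ] A := M.m (ex ψ) * K * M.m (ex (-ψ)) - K

theorem cj_ctr (hψ : Sm ψ) (a : ℝ) : cj M K ψ = cj M K (ψ - fun _ => a) := by
  have e1 : ex (ψ - fun _ => a) = exp (-a) • ex ψ := by
    ext t; simp [ex, ← exp_add, sub_eq_neg_add]
  have e2 : ex (-(ψ - fun _ => a)) = exp a • ex (-ψ) := by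
    ext t; simp [ex, ← exp_add, sub_eq_add_neg]
  rw [cj, cj, e1, e2, M.smul _ hψ.ex, M.smul _ hψ.neg.ex, smul_mul_assoc, smul_mul_assoc,
    mul_smul_comm, smul_smul, ← exp_add]
  simp

theorem cj_eq (hψ : Sm ψ) : cj M K ψ =
    M.m (ex ψ - 1) * K * M.m (ex (-ψ)) + M.m 1 * K * M.m (ex (-ψ) - 1) := by
  rw [M.sub hψ.ex Sm.one, M.sub hψ.neg.ex Sm.one, M.one, cj]; noncomm_ring

/-- the conjugation error is of first order -/
theorem KW.norm_cj (h : M.KW K d C) (hd : 0 < d) (hψ : Sm ψ) (bψ : Bd 0 (deriv ψ) δ)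
    (hδ : δ ≤ d / cS 0 / 4) : ‖cj M K ψ‖ ≤ 2 * δ * cR d C := by
  have δ0 := bψ.nonneg
  refine h.norm_of_tb hd (by positivity) fun i j => ?_
  set z : ℝ := ((i - j).natAbs : ℝ) + 1 with hz
  have z1 : 1 ≤ z := by rw [hz]; linarith [Nat.cast_nonneg (α := ℝ) (i - j).natAbs]
  have xi : Nr i _ (δ * z) := nr_ctr hψ bψ i (n := (i - j).natAbs) (by simp)
  have xj : Nr j _ (δ * z) := nr_ctr hψ bψ i (n := (i - j).natAbs) le_rfl
  have e1 : exp (2 * (δ * z)) = exp (δ * z) * exp (δ * z) := by rw [two_mul, exp_add]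
  have e2 : 1 ≤ exp (δ * z) := one_le_exp (by positivity)
  have e3 : z * exp (δ * z) * exp (δ * z) ≤ z ^ 2 * (exp (δ * z) * exp (δ * z)) := by
    have : 0 ≤ z * (z - 1) * (exp (δ * z) * exp (δ * z)) := by
      have : 0 ≤ z - 1 := by linarith
      positivity
    nlinarith
  have e4 : z * exp (δ * z) ≤ z * exp (δ * z) * exp (δ * z) :=
    le_mul_of_one_le_right (by positivity) e2
  rw [cj_ctr hψ (ψ i), cj_eq xi.1, two_mul]
  refine (h.tb hd xi.ex1 xj.neg.ex δ0 hz hδ ?_).add (h.tb hd (Nr.one i) xj.neg.ex1 δ0 hz hδ ?_)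
  · rw [e1]; nlinarith [mul_le_mul_of_nonneg_left e3 δ0]
  · rw [e1]; nlinarith [mul_le_mul_of_nonneg_left (e4.trans e3) δ0]

/-- the symmetric part of `ς R` -/
theorem KW.norm_sym (h : M.KW K d C) (hd : 0 < d) (hψ : Sm ψ) (bψ : Bd 0 (deriv ψ) δ)
    (hδ : δ ≤ d / cS 0 / 4) (hς : Sm ς) (bς : Bd 0 (deriv ς) ε) (h1 : ∀ t, |ς t| ≤ 1) :
    ‖M.m ς * cj M K ψ + cj M K (-ψ) * M.m ς‖ ≤ (4 * δ ^ 2 + 4 * (ε * δ)) * cR d C := by
  have δ0 := bψ.nonneg
  have ε0 := bς.nonneg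
  refine h.norm_of_tb hd (by positivity) fun i j => ?_
  set z : ℝ := ((i - j).natAbs : ℝ) + 1 with hz
  have z1 : 1 ≤ z := by rw [hz]; linarith [Nat.cast_nonneg (α := ℝ) (i - j).natAbs]
  have xi : Nr i _ (δ * z) := nr_ctr hψ bψ i (n := (i - j).natAbs) (by simp)
  have xj : Nr j _ (δ * z) := nr_ctr hψ bψ i (n := (i - j).natAbs) le_rfl
  have si : Nr i _ (ε * z) := nr_ctr hς bς i (n := (i - j).natAbs) (by simp)
  have sj : Nr j _ (ε * z) := nr_ctr hς bς i (n := (i - j).natAbs) le_rfl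
  have e1 : exp (2 * (δ * z)) = exp (δ * z) * exp (δ * z) := by rw [two_mul, exp_add]
  have e2 : 1 ≤ exp (δ * z) := one_le_exp (by positivity)
  have e4 : exp (δ * z) ≤ exp (δ * z) * exp (δ * z) := le_mul_of_one_le_right (by positivity) e2
  have e5 : 0 ≤ ε * δ * z ^ 2 := by positivity
  have e6 := mul_le_mul_of_nonneg_left e4 e5
  have en : (-ψ - fun _ => -ψ i) = -(ψ - fun _ => ψ i) := by ext; simp; ring
  rw [cj_ctr hψ (ψ i), cj_ctr hψ.neg (-ψ i), en]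
  set x := ψ - fun _ => ψ i
  set s := ς - fun _ => ς i
  have es : M.m ς = ς i • 1 + M.m s := by
    rw [M.sub hς (Sm.const _), M.const]; abel
  have hx := xi.1
  have hs := si.1
  have e : M.m ς * cj M K x + cj M K (-x) * M.m ς =
      ς i • (M.m (ex x - 1) * K * M.m (ex (-x) - 1) + M.m (ex (-x) - 1) * K * M.m (ex x - 1) +
        M.m (ex x + ex (-x) - (1 + 1)) * K * M.m 1 + M.m 1 * K * M.m (ex x + ex (-x) - (1 + 1))) +
      (M.m (s * (ex x - 1)) * K * M.m (ex (-x)) + M.m s * K * M.m (ex (-x) - 1) +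
        M.m (ex (-x)) * K * M.m ((ex x - 1) * s) + M.m (ex (-x) - 1) * K * M.m s) := by
    rw [M.mul hs (hx.ex.sub Sm.one), M.mul (hx.ex.sub Sm.one) hs,
      M.sub (hx.ex.add hx.neg.ex) (Sm.one.add Sm.one), M.add hx.ex hx.neg.ex, M.add Sm.one Sm.one,
      M.sub hx.ex Sm.one, M.sub hx.neg.ex Sm.one, M.one, es, cj, cj, neg_neg]
    simp only [add_mul, mul_add, sub_mul, mul_sub, smul_mul_assoc, mul_smul_comm, one_mul, mul_one,
      smul_add, smul_sub, mul_assoc]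
    abel
  rw [e, show 4 * δ ^ 2 + 4 * (ε * δ) = δ ^ 2 + δ ^ 2 + δ ^ 2 + δ ^ 2 +
    (ε * δ + ε * δ + ε * δ + ε * δ) by ring]
  have w1 : 0 ≤ δ ^ 2 := by positivity
  have w2 : 0 ≤ ε * δ := by positivity
  refine (Tb.smul ((((h.tb hd xi.ex1 xj.neg.ex1 w1 hz hδ ?_).add
    (h.tb hd xi.neg.ex1 xj.ex1 w1 hz hδ ?_)).add (h.tb hd xi.ex2 (Nr.one j) w1 hz hδ ?_)).add
    (h.tb hd (Nr.one i) xj.ex2 w1 hz hδ ?_)) (h1 _)).add
    ((((h.tb hd (si.mul xi.ex1) xj.neg.ex w2 hz hδ ?_).add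
    (h.tb hd si xj.neg.ex1 w2 hz hδ ?_)).add (h.tb hd xi.neg.ex (xj.ex1.mul sj) w2 hz hδ ?_)).add
    (h.tb hd xi.neg.ex1 sj w2 hz hδ ?_))
  · rw [e1]; exact le_of_eq (by ring)
  · rw [e1]; exact le_of_eq (by ring)
  · exact le_of_eq (by ring)
  · exact le_of_eq (by ring)
  · rw [e1]; exact le_of_eq (by ring)
  · rw [e1]; nlinarith
  · rw [e1]; exact le_of_eq (by ring)
  · rw [e1]; nlinarith

theorem KW.inner_cj (h : M.KW K d C) (hd : 0 < d) (hK : ∀ u v, ⟪K u, v⟫ = ⟪u, K v⟫) (hψ : Sm ψ)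
    (bψ : Bd 0 (deriv ψ) δ) (hδ : δ ≤ d / cS 0 / 4) (hς : Sm ς) (bς : Bd 0 (deriv ς) ε)
    (h1 : ∀ t, |ς t| ≤ 1) (x : A) :
    |⟪cj M K ψ x, M.m ς x⟫| ≤ (2 * δ ^ 2 + 2 * (ε * δ)) * cR d C * ‖x‖ ^ 2 := by
  have hn := h.norm_sym hd hψ bψ hδ hς bς h1
  have a1 : ⟪cj M K (-ψ) (M.m ς x), x⟫ = ⟪cj M K ψ x, M.m ς x⟫ := by
    simp only [cj, neg_neg, sub_apply, mul_apply_eq_comp, inner_sub_left]
    rw [M.sym hψ.neg.ex, hK, M.sym hψ.ex, hK (M.m ς x), real_inner_comm, real_inner_comm (K x)]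
  have a2 : ⟪(M.m ς * cj M K ψ + cj M K (-ψ) * M.m ς) x, x⟫ = 2 * ⟪cj M K ψ x, M.m ς x⟫ := by
    simp only [add_apply, mul_apply_eq_comp, inner_add_left]
    rw [a1, M.sym hς]; ring
  have a3 := (abs_real_inner_le_norm _ x).trans (mul_le_mul_of_nonneg_right
    (ContinuousLinearMap.le_of_opNorm_le _ hn x) (norm_nonneg x))
  rw [a2, abs_mul, abs_two] at a3
  nlinarith

end Mu

end Crest.Agent.X212.Dec35
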