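import Crest.Agent.X212.Nd18.Defs
import Crest.Agent.X212.Tmp64.Cfg
import Crest.Agent.X212.Map77.Mono
import Crest.Agent.X212.Std94.Smo
import Crest.Agent.X212.Sob92.Fun
import Crest.Agent.X212.Neck67.Bd

/-!
# Row 212, DEC (helper35): definitions and the statements of the leaves

Everything is at the level of smooth functions.  `cf c u` is the configuration `c + u`,
`se τ c u` the equations at `c + u`, `nw k ψ u` the norm of `e^ψ u`.
-/

set_option autoImplicit false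
set_option linter.unusedSectionVars false
noncomputable section
open scoped Manifold ContDiff Topology InnerProductSpace
open MeasureTheory Set Function Filter Real

namespace Crest.Agent.X212.Dec35
open An Map77 Sob92 Nd18 Cyf70
open Wz78 (nab)
open Tmp64 (Eq0)

section gen
variable {E : Type} [NormedAddCommGroup E] [NormedSpace ℝ E] [FiniteDimensional ℝ E]
  [MeasurableSpace E] [BorelSpace E]
  {HM : Type} [TopologicalSpace HM] {I : ModelWithCorners ℝ E HM} [I.Boundaryless]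
  {M : Type} [TopologicalSpace M] [ChartedSpace HM M] [IsManifold I ∞ M] [MeasurableSpace M]
  [T2Space M] [BorelSpace M] [SecondCountableTopology M]
  {ι : Type} [Fintype ι] {lam : Type} [Fintype lam]
  {N : Type} [NormedAddCommGroup N] [NormedSpace ℝ N]
  {V : Type} [NormedAddCommGroup V] [InnerProductSpace ℝ V] {r n : ℕ}

/-- smooth with all derivatives in `L²` -/
structure Fl (F : Pre I M ι) (u : M → N) : Prop where
  sm : Sm I u
  fl : ∀ k, FL F k u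

/-- the weighted norm -/
def nw (F : Pre I M ι) (k : ℕ) (ψ : M → ℝ) (u : M → V) : ℝ := F.nrm k fun x => exp (ψ x) • u x

/-- bounded weights `ψ ≥ 0` of slope `≤ d` with the bounds `D` of the gradient -/
structure Wd (F : Pre I M ι) (ψ : M → ℝ) (d : ℝ) (D : ℕ → ℝ) : Prop where
  sm : Sm I ψ
  nn : ∀ x, 0 ≤ ψ x
  bd : ∃ A, ∀ x, ψ x ≤ A
  sl : ∀ a x, |F.D a ψ x| ≤ d
  der : ∀ a, F.CBs (F.D a ψ) D

/-- values of variations -/
abbrev Cv (c : Cfg M ι lam r) : Type := Cf ι (Fin c.m.N)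
/-- values of the equations -/
abbrev Ev (c : Cfg M ι lam r) : Type := Ef ι (Fin c.m.N)

/-- the configuration `c + u` -/
def cf (c : Cfg M ι lam r) (u : M → Cv c) : Cfg M ι lam r :=
  vr c (fun x => fa (u x)) fun x => fp (u x)

/-- the bundles of a module -/
def mbd (B : Base M ι lam) (m : Md M ι lam) : Bd M ι (Fin m.N) :=
  ⟨B.P, B.o, m.ρ, m.pg, m.p1 B, m.p2 B, m.pp B, m.pm B⟩

/-- values in the bundle of variations -/
def Tg (B : Base M ι lam) (c : Cfg M ι lam r) (u : M → Cv c) : Prop :=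
  ∀ x, (mbd B c.m).pC x (u x) = u x

/-- admissible bounded base configurations on a tame manifold -/
structure Bs (B : Base M ι lam) (G : Geo I M ι lam) (c : Cfg M ι lam r) : Prop where
  hB : B.OK I
  hG : G.OK B
  adm : c.Adm B G
  tame : ∃ C, G.F.Tame C
  dat : Std94.Kl.Dat (Std94.cbK G.F.toPre) B c.m id
  cW : ∀ a, G.F.Cb (c.W a)
  cΦ : G.F.Cb c.Φ

/-- the values of a perturbation at `c + u` -/
def te (τ : Pt M ι lam r n) (c : Cfg M ι lam r) (u : M → Cv c) (x : M) : Ev c :=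
  i1 _ _ (show c.m.V from τ.D (cf c u) x) + i2 _ _ (show Fm (ι × ι) c.m.A from τ.C (cf c u) x)

/-- the equations at `c + u` -/
def se (B : Base M ι lam) (G : Geo I M ι lam) (τ : Pt M ι lam r n) (c : Cfg M ι lam r)
    (u : M → Cv c) (x : M) : Ev c :=
  i1 _ _ (show c.m.V from (cf c u).eD G τ x) +
    i2 _ _ (show Fm (ι × ι) c.m.A from (cf c u).eC B G τ x)

/-- the infinitesimal gauge action, with the spinor scaled by `l` -/
def dg (F : Fr I M ι) (c : Cfg M ι lam r) (l : ℝ) (ξ : M → c.m.A) (x : M) : Cv c :=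
  i1 _ _ (WithLp.toLp 2 fun a => -nab I F.e (c.m.adW c.W) a ξ x) +
    i2 _ _ (l • opL (ξ x) (c.Φ x))

/-- the operator `dg` -/
abbrev dO (B : Base M ι lam) (F : Fr I M ι) (c : Cfg M ι lam r) (l : ℝ) :
    Op M ι c.m.A (Cv c) := (mbd B c.m).d0 F (base c.W fun x => l • c.Φ x)

/-- the gauge row: the adjoint of `dg 1` for the metric `|α|² + l² |φ|²` -/
def sig (B : Base M ι lam) (F : Fr I M ι) (c : Cfg M ι lam r) (l : ℝ) (u : M → Cv c) :
    M → c.m.A := ((dO B F c l).adj F).app F fun x => i1 _ _ (fa (u x)) + i2 _ _ (l • fp (u x))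

/-- the linearisation of the unperturbed equations -/
abbrev lin (B : Base M ι lam) (F : Fr I M ι) (c : Cfg M ι lam r) (u : M → Cv c) : M → Ev c :=
  ((mbd B c.m).lin F (base c.W c.Φ)).app F u

/-- the action of a gauge transformation on variations -/
def act {κ : Type} [Fintype κ] [DecidableEq κ] (h : En κ) : CL (Cf ι κ) (Cf ι κ) :=
  sm2 (tp fun a => Eqv71.cj h ∘L pj _ a) h

/-- the action of a gauge transformation on the values of the equations -/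
def acE {κ : Type} [Fintype κ] [DecidableEq κ] (h : En κ) : CL (Ef ι κ) (Ef ι κ) :=
  sm2 h (tp fun a => Eqv71.cj h ∘L pj _ a)

/-- the phase `e^{iθ}` -/
def ph (c : Cfg M ι lam r) (θ : ℝ) : CL c.m.V c.m.V := cos θ • 1 + sin θ • c.m.J

/-- `c + rot c θ v = e^{iθ} (c + v)` -/
def rot (c : Cfg M ι lam r) (θ : M → ℝ) (v : M → Cv c) (x : M) : Cv c :=
  i1 _ _ (fa (v x)) + i2 _ _ (ph c (θ x) (c.Φ x + fp (v x)) - c.Φ x)

variable (I M ι) in
/-- LEAF HM: an almost parallel contraction is a multiplier of the Sobolev spaces -/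
def HmStmt : Prop :=
  ∀ (F : Fr I M ι) (C : ℕ → ℝ), F.Tame C → ∀ (U X X' : Type) [NormedAddCommGroup U]
    [InnerProductSpace ℝ U] [FiniteDimensional ℝ U] [NormedAddCommGroup X] [InnerProductSpace ℝ X]
    [FiniteDimensional ℝ X] [NormedAddCommGroup X'] [InnerProductSpace ℝ X']
    [FiniteDimensional ℝ X'] (ρ : ι → U →L[ℝ] X' →L[ℝ] X') (k : ℕ), 7 ≤ k → ∀ C0 : ℝ, ∃ K ≥ 0,
    ∀ (T : M → X →L[ℝ] X') (A : ι → M → X →L[ℝ] X) (A' : ι → M → X' →L[ℝ] X') (α : M → U),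
      Sm I T → (∀ x, ‖T x‖ ≤ 1) → (∀ a, F.Cb (A a) ∧ F.CB k (A a) C0) →
      (∀ a, F.Cb (A' a) ∧ F.CB k (A' a) C0) → Fl F.toPre α → F.nrm k α ≤ 1 →
      (∀ a x, F.D a T x = T x ∘L A a x - (A' a x + ρ a (α x)) ∘L T x) →
      F.Cb T ∧ ∀ j ≤ k + 1, ∀ w : M → X, Fl F.toPre w →
        F.nrm j (fun x => T x (w x)) ≤ K * F.nrm j w

variable (I M ι lam) in
/-- LEAF CAY: one step of the gauge group (Cayley transform) -/
def CayStmt : Prop :=
  ∀ (B : Base M ι lam) (G : Geo I M ι lam) (c : Cfg M ι lam 0), Bs B G c → ∀ k, 7 ≤ k →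
    ∀ D : ℕ → ℝ, ∃ K ≥ 0, ∃ r₀ > 0, ∀ (ψ : M → ℝ) (d : ℝ) (u : M → Cv c) (ξ : M → c.m.A),
      Wd G.F.toPre ψ d D → Fl G.F.toPre u → Tg B c u → Fl G.F.toPre ξ → (∀ x, ξ x ∈ c.m.gS x) →
      nw G.F.toPre (k + 1) ψ ξ ≤ r₀ →
      ∃ (g : M → En (Fin c.m.N)) (u' : M → Cv c), Fl G.F.toPre u' ∧ Tg B c u' ∧
        Eq0 G.F (cf c u) (cf c u') univ g ∧
        nw G.F.toPre k ψ (fun x => u' x - u x - dg G.F c 1 ξ x) ≤
          K * (nw G.F.toPre (k + 1) ψ ξ + nw G.F.toPre k ψ u) * nw G.F.toPre (k + 1) ψ ξ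

variable (I M ι) in
/-- LEAF LLW: the inverse of `A* A` on weighted spaces -/
def LlwStmt : Prop :=
  ∀ (F : Fr I M ι) (C C' : ℕ → ℝ), F.Tame C → ∀ (X X' : Type) [NormedAddCommGroup X]
    [InnerProductSpace ℝ X] [FiniteDimensional ℝ X] [NormedAddCommGroup X']
    [InnerProductSpace ℝ X'] [FiniteDimensional ℝ X'] (A : Op M ι X X'), A.Good F C' →
    A.CliffL F → ∀ c : ℝ, (∀ ξ : Sec I A.p, F.nrm 0 ξ.1 ≤ c * F.nrm 0 (A.app F ξ.1)) →
    ∃ d₀ > 0, ∀ (k : ℕ) (D : ℕ → ℝ), ∃ K ≥ 0, ∀ f : M → X, Fl F.toPre f →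
      (∀ x, A.p x (f x) = f x) → ∃ ξ : M → X, Fl F.toPre ξ ∧ (∀ x, A.p x (ξ x) = ξ x) ∧
        (A.adj F).app F (A.app F ξ) = f ∧
        ∀ ψ, Wd F.toPre ψ d₀ D → nw F.toPre (k + 2) ψ ξ ≤ K * nw F.toPre k ψ f

end gen

/-! ### the cylinder -/

variable {E3 : Type} [NormedAddCommGroup E3] [NormedSpace ℝ E3] [FiniteDimensional ℝ E3]
  [MeasurableSpace E3] [BorelSpace E3]
  {H3 : Type} [TopologicalSpace H3] {I3 : ModelWithCorners ℝ E3 H3} [I3.Boundaryless]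
  {Y : Type} [TopologicalSpace Y] [ChartedSpace H3 Y] [IsManifold I3 ∞ Y] [T2Space Y]
  [MeasurableSpace Y] [BorelSpace Y] [SecondCountableTopology Y] [CompactSpace Y]
  {κ : Type} [Fintype κ] {lam : Type} [Fintype lam]
  {N : Type} [NormedAddCommGroup N] [NormedSpace ℝ N]
  {V : Type} [NormedAddCommGroup V] [InnerProductSpace ℝ V]

section cyl
variable (D : YD I3 Y κ lam) (β : YC Y κ lam)

/-- the `L²` norm of a slice -/
def sl (u : Y × ℝ → V) (t : ℝ) : ℝ := √(∫ y, ‖u (y, t)‖ ^ 2 ∂D.F.μ)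

/-- the pairing of a slice with a field on `Y` -/
def row (n : Y → V) (u : Y × ℝ → V) (t : ℝ) : ℝ := ∫ y, ⟪n y, u (y, t)⟫_ℝ ∂D.F.μ

/-- `C^k` bound along a slice -/
def Lt (k : ℕ) (f : Y × ℝ → N) (t m : ℝ) : Prop :=
  ∀ w : List (Option κ), w.length ≤ k → ∀ y, ‖D.Z.Dw w f (y, t)‖ ≤ m

/-- trivial infinitesimal stabiliser -/
def Irr : Prop := ∀ ξ, ParS D.Z (cy β) univ ξ → (∀ x, opL (ξ x) ((cy β).Φ x) = 0) → ∀ x, ξ x = 0

/-- the row which sees the phase: it kills the gauge directions and is `ν` on `i Φ` -/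
structure Rw (n : Y → Cv (cy β)) (ν : ℝ) : Prop where
  sm : Sm I3 n
  g : ∀ ξ : Y × ℝ → β.m.A, Sm (IC I3) ξ → (∀ x, ξ x ∈ (cy β).m.gS x) →
    ∀ t, row D n (dg D.Z (cy β) 1 ξ) t = 0
  tm : ∀ y, fa (n y) none = 0
  J : ∫ y, ⟪fp (n y), β.m.J (β.Φ y)⟫_ℝ ∂D.F.μ = ν
  alt : ν = 1 ∨ ν = 0 ∧ n = 0

end cyl

variable (I3 Y κ lam) in
/-- LEAF POI: the Poincaré inequality for the gauge operator on the cylinder -/
def PoiStmt : Prop :=
  ∀ (D : YD I3 Y κ lam) (β : YC Y κ lam), D.OK → D.Adm β → Irr D β → ∀ l : ℝ, l ≠ 0 → ∃ c,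
    ∀ ξ : Y × ℝ → β.m.A, Sm (IC I3) ξ → HasCompactSupport ξ → (∀ x, ξ x ∈ (cy β).m.gS x) →
      D.Z.nrm 0 ξ ≤ c * D.Z.nrm 0 (dg D.Z (cy β) l ξ)

variable (I3 Y κ lam) in
/-- LEAF PH: the row measures the phase up to quadratic errors -/
def PhStmt : Prop :=
  ∀ (D : YD I3 Y κ lam) (β : YC Y κ lam), D.OK → D.Adm β → PreconnectedSpace Y →
    ∀ n ν, Rw D β n ν → ∃ K ≥ 0, ∀ (a b : Y × ℝ → Cv (cy β)) (h : Y × ℝ → En (Fin β.m.N))
      (t θ : ℝ), Sm (IC I3) a → Sm (IC I3) b → Tg D.B (cy β) a → Tg D.B (cy β) b →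
      Eq0 D.Z (cf (cy β) a) (cf (cy β) b) univ h →
      (∀ y, a (y, t) = rot (cy β) (fun _ => θ) 0 (y, t)) →
      |row D n b t - ν * θ| ≤ K * (sl D b t + |ν * θ|) ^ 2

end Crest.Agent.X212.Dec35
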