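import Crest.Agent.X212.Dec35.Fam
import Crest.Agent.X212.Err63.Main

/-!
# Row 212, DEC-U (helper35): the error estimate of `Err63.errStmt`, uniformly on a family
-/

set_option autoImplicit false
set_option linter.unusedSectionVars false
noncomputable section
open scoped Manifold ContDiff Topology InnerProductSpace
open MeasureTheory Set Function Filter Real

namespace Crest.Agent.X212.Dec35
open An Map77 Sob92 Nd18 Cyf70 Err63 Rsp69
open Wz78 (SA)

variable {E3 : Type} [NormedAddCommGroup E3] [NormedSpace ℝ E3] [FiniteDimensional ℝ E3]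
  [MeasurableSpace E3] [BorelSpace E3]
  {H3 : Type} [TopologicalSpace H3] {I3 : ModelWithCorners ℝ E3 H3} [I3.Boundaryless]
  {Y : Type} [TopologicalSpace Y] [ChartedSpace H3 Y] [IsManifold I3 ∞ Y] [T2Space Y]
  [MeasurableSpace Y] [BorelSpace Y] [SecondCountableTopology Y] [CompactSpace Y]
  {κ : Type} [Fintype κ] {lam : Type} [Fintype lam] {D : YD I3 Y κ lam} {β : YC Y κ lam}
  {T : Set (Pt (Y × ℝ) (Option κ) lam 0 0)} {K₀ : Cz β → Y × ℝ → Ev (cy β)} {d₀ : ℝ}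

theorem lemU (hD : D.OK) (hβ : D.Adm β) {g : ℝ} (p1 : P1U D β g T) (hg : 0 < g) (k : ℕ) :
    ∃ k₁, ∀ A, ∃ K ≥ 0, ∀ τ ∈ T, ∀ (P : Pr D β A k₁) y,
      PB D.Z.toPre k (fun x => sz D β τ P.a x - sz D β τ P.a' x) (y, P.t)
      (K * (P.m * exp (-(g / 2 * P.ρ)))) := by
  obtain ⟨k', h⟩ := p1.bd k
  refine ⟨max k' (k + 1), fun A => ?_⟩
  have b1 := bs_a hD hβ A (max k' (k + 1))
  have b2 := bs_a' hD hβ A (max k' (k + 1))
  have b3 := bs_sub hD hβ A (max k' (k + 1)) hg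
  obtain ⟨K4, h4, b4⟩ := (cd_cy hD hβ).bs_Lc_sub (b1.of_le (le_max_right _ _))
    (b2.of_le (le_max_right _ _)) (b3.of_le (le_max_right _ _))
  obtain ⟨K1, h1, b1⟩ := b1.of_le (le_max_left _ _)
  obtain ⟨K2, h2, b2⟩ := b2.of_le (le_max_left _ _)
  obtain ⟨K3, h3, b3⟩ := b3.of_le (le_max_left _ _)
  simp only [eventually_top, mem_univ, forall_const, Pi.one_apply, mul_one] at b1 b2 b3 b4
  obtain ⟨K, h⟩ := h (K1 + K2)
  refine ⟨K4 + |K| * K3, by positivity, fun τ hτ P y => ?_⟩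
  have hm := P.bd.nonneg
  have v1 := P.h.rot hD hβ
  have v2 := P.h'.rot hD hβ
  have h5 := h τ hτ P.a P.a' v1 v2 (CB_of_PB fun x => (b1 P x).2.2.mono (by linarith))
    (CB_of_PB fun x => (b2 P x).2.2.mono (by linarith)) P.t (K3 * (P.m * exp (-(g / 2 * P.ρ))))
    (by positivity) fun s w hw y => ((b3 P (y, s)).2.2 w hw).trans (le_of_eq (by ring))
  have h6 : PB D.Z.toPre k (fun x => te τ (cy β) P.a x - te τ (cy β) P.a' x) (y, P.t)
      (|K| * (K3 * (P.m * exp (-(g / 2 * P.ρ))))) := fun w hw =>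
    (h5 w hw y).trans (mul_le_mul_of_nonneg_right (le_abs_self K) (by positivity))
  have s1 : SA (IC I3) (fun x => te τ (cy β) P.a x - te τ (cy β) P.a' x) (y, P.t) :=
    (p1.sm τ hτ _ v1 _).sub (p1.sm τ hτ _ v2 _)
  have h7 := PB.add k (b4 P (y, P.t)).2.1 (sa_clm _ s1) (b4 P (y, P.t)).2.2
    (PB.clm (-ContinuousLinearMap.id ℝ _) k s1 h6)
  rw [sz_eq hD hβ v1, sz_eq hD hβ v2]
  refine (h7.mono ?_).congr (.of_forall fun x => ?_)
  · have : ‖-ContinuousLinearMap.id ℝ (Ev (cy β))‖ ≤ 1 := by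
      rw [norm_neg]; exact ContinuousLinearMap.norm_id_le
    simp only [sub_self, abs_zero, mul_zero, exp_zero, mul_one]
    calc _ ≤ K4 * (P.m * exp (-(g / 2 * P.ρ))) +
          1 * (|K| * (K3 * (P.m * exp (-(g / 2 * P.ρ))))) := by gcongr
      _ = _ := by ring
  · simp only [neg_apply, ContinuousLinearMap.id_apply]; abel

theorem sliceU (hD : D.OK) (hβ : D.Adm β) {g₁ g : ℝ} (F : Fu D β K₀ g₁ d₀ T) (hg₁ : 0 < g₁)
    (e₁ : g = g₁ / 2) {γ : ℝ} (hγ : 0 < γ) (k : ℕ) : ∃ k₁, ∃ K ≥ 0, ∀ τ ∈ T,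
      ∀ (d : Dt D β τ γ k k₁) x,
      PB D.Z.toPre k (sz D β τ d.X) x (K * (d.m * exp (-(min g γ * sg d.L d.p d.q x.2)))) := by
  have hg : 0 < g := by rw [e₁]; positivity
  have hg' : 0 < min g γ := lt_min hg hγ
  obtain ⟨k₁, h⟩ := lemU hD hβ F.p1 hg₁ k
  rw [← e₁] at h
  obtain ⟨K, hK, h⟩ := h (cA k₁ * 3)
  obtain ⟨K', hK', h'⟩ := ub_phE (cy β)
  have hA := zero_le_one.trans (one_le_cA k₁)
  refine ⟨k₁, K * (2 * cA k₁) * exp (min g γ) + K', by positivity, fun τ hτ d ⟨y, t⟩ => ?_⟩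
  have p1 := F.p1.p1 hg₁ hτ
  have nat := F.nat τ hτ
  have h0 := F.crit τ hτ
  replace h := h τ hτ
  have hm := d.m0
  have key : ∀ ρ, 0 ≤ ρ → sg d.L d.p d.q t ≤ ρ + 1 →
      K * ((cA k₁ * d.m + cA k₁ * d.m) * exp (-(g * ρ))) ≤
        K * (2 * cA k₁) * exp (min g γ) * (d.m * exp (-(min g γ * sg d.L d.p d.q t))) := by
    intro ρ h1 h2
    have : exp (-(g * ρ)) ≤ exp (min g γ) * exp (-(min g γ * sg d.L d.p d.q t)) := by
      rw [← exp_add]; exact exp_le_exp.2 (by nlinarith [min_le_left g γ])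
    calc _ ≤ K * ((cA k₁ * d.m + cA k₁ * d.m) *
          (exp (min g γ) * exp (-(min g γ * sg d.L d.p d.q t)))) := by gcongr
      _ = _ := by ring
  by_cases ht : t ∈ Icc (d.p + 1) (d.q - 1)
  · have r1 : 1 ≤ min (t - d.p) (d.q - t) := le_min (by linarith [ht.1]) (by linarith [ht.2])
    have e : sg d.L d.p d.q t = min (t - d.p) (d.q - t) :=
      max_eq_left (max_le (by linarith) (by linarith [d.L0]))
    have o := d.ok_in 0
    simp only [add_zero] at o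
    have s1 := sm_sz hD hβ p1 (d.ok.rot hD hβ) (y, t)
    have s2 := sm_sz hD hβ p1 ((d.prIn ht).h'.rot hD hβ) (y, t)
    have h2 : PB D.Z.toPre k (sz D β τ (d.prIn ht).a') (y, t)
        (K' * (d.m * exp (-(min g γ * sg d.L d.p d.q t)))) := by
      rw [show sz D β τ (d.prIn ht).a' = _ from sz_phase hD hβ nat o (d.ok_in _)]
      refine (PB.clm _ k (sm_sz hD hβ p1 (o.rot hD hβ) _) fun w hw =>
        d.inp.df t ⟨by linarith [ht.1], by linarith [ht.2]⟩ w hw y).mono ?_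
      have := d.η0
      rw [e]
      gcongr
      exacts [h' _, d.η_le, by nlinarith [min_le_right g γ]]
    refine ((PB.add k (s1.sub s2) s2 (h (d.prIn ht) y) h2).mono ?_).congr
      (.of_forall fun x => sub_add_cancel _ _)
    rw [add_mul]
    exact add_le_add (key _ (by show 0 ≤ min _ _ - 1; linarith)
      (by show _ ≤ min _ _ - 1 + 1; rw [e]; linarith)) le_rfl
  · have o := Dt.ok_out (D := D) (β := β) (k₁ := k₁) 0
    simp only [add_zero] at o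
    have e0 : sz D β τ (rot (cy β) (fun _ => 0) 0) = 0 := (congrArg (sz D β τ) (Err63.rot_zero _)).trans h0
    have e : ∀ x, sz D β τ (d.prOut t).a' x = 0 := fun x => by
      have := congrFun (sz_phase hD hβ nat o (Dt.ok_out (k₁ := k₁) (d.Θ t))) x
      rw [e0] at this
      exact this.trans (map_zero _)
    have h2 : PB D.Z.toPre k (sz D β τ d.X) (y, t) _ :=
      (h (d.prOut t) y).congr (.of_forall fun x =>
        (congrArg (sz D β τ d.X x - ·) (e x)).trans (sub_zero _))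
    refine h2.mono ((key _ (le_max_left _ _) ?_).trans ?_)
    · have r1 : min (t - d.p) (d.q - t) ≤ 1 := by
        by_contra k
        have := lt_min_iff.1 (not_le.1 k)
        exact ht ⟨by linarith [this.1], by linarith [this.2]⟩
      have r2 := le_max_left 0 (-d.L - min (t - d.p) (d.q - t))
      exact max_le (by show _ ≤ max _ _ + 1; linarith) (by show _ ≤ max _ _ + 1; linarith)
    · rw [add_mul]; exact le_add_of_nonneg_right (by positivity)

theorem errU (hD : D.OK) (hβ : D.Adm β) {g₁ γ : ℝ} (hg₁ : 0 < g₁) (hγ : 0 < γ) :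
    ∃ δ₁ > 0, ∀ δ, 0 < δ → δ ≤ δ₁ → ∀ (k : ℕ) (Dd : ℕ → ℝ) (A : ℝ) T, Fu D β K₀ g₁ d₀ T →
      ∃ k₁, ∃ K ≥ 0, ∀ τ ∈ T, ∀ (η L p q c d : ℝ) (v : Cz β) (th ψ : ℝ → ℝ),
      Inp D β τ γ k k₁ η v th p q → η ≤ 1 → 1 ≤ L → |c| ≤ 1 → |c + vth th p q q| ≤ 1 →
      Wd D.Z.toPre (fun x => ψ x.2) d Dd →
      (∀ t, ψ t ≤ δ * max 0 (L + min (t - p) (q - t)) + A) →
      FL D.Z.toPre k (fun x => exp (ψ x.2) • sz D β τ (Xc v th L p q c) x) ∧
      nw D.Z.toPre k (fun x => ψ x.2) (sz D β τ (Xc v th L p q c)) ≤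
        K * exp (δ * L) * (η + (|c| + |c + vth th p q q|) / L) := by
  obtain ⟨g, e₁⟩ : ∃ g, g = min (g₁ / 2) γ := ⟨_, rfl⟩
  have hg : 0 < g := by rw [e₁]; positivity
  refine ⟨g / 2, by positivity, fun δ hδ hδg k Dd A T F => ?_⟩
  obtain ⟨k₁, K, hK, h⟩ := sliceU hD hβ F hg₁ rfl hγ k
  rw [← e₁] at h
  obtain ⟨K', hK', h'⟩ := Ph.exp (F := D.Z.toPre) (l := ⊤) (S := fun _ => univ)
    (θ := fun ψ : {ψ : Y × ℝ → ℝ // ∃ d, Wd D.Z.toPre ψ d Dd} => ψ.1) k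
    ⟨.of_forall fun ψ x _ => ψ.2.choose_spec.sm x, fun a => Bk.of_CB (.of_forall fun ψ =>
      ⟨(ψ.2.choose_spec.der a).1, (ψ.2.choose_spec.der a).2 k⟩)⟩
  simp only [eventually_top, mem_univ, forall_const] at h'
  have := D.F.fin
  have hδ' : 2 * δ ≤ g := by linarith
  have hc := cN_nonneg (ι := Option κ) k
  have hv : 0 ≤ D.F.μ.real univ := measureReal_nonneg
  refine ⟨k₁, 2 ^ k * K' * K * exp A * √(cN (Option κ) k * (2 / δ) * (D.F.μ.real univ * 4)),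
    by positivity, fun τ hτ η L p q c d v th ψ inp η1 L1 c1 c2 hw hψ => ?_⟩
  have p1 := F.p1.p1 hg₁ hτ
  replace h := h τ hτ
  let e : Dt D β τ γ k k₁ := ⟨η, L, p, q, c, v, th, inp, η1, L1, c1, c2⟩
  have hm := e.m0
  have s1 := sm_sz hD hβ p1 (e.ok.rot hD hβ)
  have s2 : Sm (IC I3) fun x : Y × ℝ => exp (ψ x.2) := fun x => (h' ⟨_, d, hw⟩ x).2.1
  have hδ2 : 0 < 2 * δ := by positivity
  set R := (2 ^ k * K' * K * e.m) ^ 2 * (exp (A + δ * L) ^ 2 * (2 / δ)) with hR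
  obtain ⟨f1, f2⟩ := n2_le (F := D.Z.toPre)
    (W := fun x => 2 ^ k * K' * K * e.m * exp (ψ x.2 - g * sg L p q x.2))
    (V := fun x => R * V4 (2 * δ) L p q x.2)
    (((integrable_V4 hδ2 L p q).comp_snd D.F.μ).const_mul R) (fun x => by
      rw [mul_pow, hR, mul_assoc (_ ^ 2)]
      exact mul_le_mul_of_nonneg_left (wt_le hδ hδ' e.L0.le (hψ x.2)) (sq_nonneg _))
    k (s2.smul s1) fun x => (PB.smul (s2 x) (s1 x) (h' ⟨_, d, hw⟩ x).2.2 (h e x)).mono
      (le_of_eq (by rw [sub_eq_add_neg, exp_add]; ring))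
  refine ⟨f1, nrm_le_of_sq (by positivity) (f2.trans (le_of_eq ?_))⟩
  rw [integral_const_mul, show ∫ x : Y × ℝ, V4 (2 * δ) L p q x.2 ∂D.Z.μ = _ from
    integral_fun_snd _, integral_V4 hδ2, hR, exp_add]
  simp only [mul_pow, smul_eq_mul]
  rw [sq_sqrt (by positivity)]
  show _ = _ * e.m ^ 2
  ring

end Crest.Agent.X212.Dec35
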