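import Crest.Agent.X212.Dec35.Fam
import Crest.Agent.X212.Hm83.St

/-!
# Row 212, DEC-U (helper35): the Newton step of `Hm83.st`, uniformly on a family
-/

set_option autoImplicit false
set_option linter.unusedSectionVars false
noncomputable section
open scoped Manifold ContDiff Topology InnerProductSpace
open MeasureTheory Set Function Filter Real

namespace Crest.Agent.X212.Dec35
open An An.Pre Map77 Sob92 Hm83 Ell97 Nd18 Cyf70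
open Tmp64 (Eq0)

variable {E3 : Type} [NormedAddCommGroup E3] [NormedSpace ℝ E3] [FiniteDimensional ℝ E3]
  [MeasurableSpace E3] [BorelSpace E3]
  {H3 : Type} [TopologicalSpace H3] {I3 : ModelWithCorners ℝ E3 H3} [I3.Boundaryless]
  {Y : Type} [TopologicalSpace Y] [ChartedSpace H3 Y] [IsManifold I3 ∞ Y] [T2Space Y]
  [MeasurableSpace Y] [BorelSpace Y] [SecondCountableTopology Y] [CompactSpace Y]
  {κ : Type} [Fintype κ] {lam : Type} [Fintype lam] {D : YD I3 Y κ lam} {β : YC Y κ lam}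
  {τ₀ : Pt (Y × ℝ) (Option κ) lam 0 0} {ν l d : ℝ} {K : Cz β → Y × ℝ → Ev (cy β)}
  {Kt : Cz β → Y × ℝ → (cy β).m.A} {n : Y → Cv (cy β)}

theorem Lz.bdU (H : Lz D β τ₀ l K Kt n ν) (hd : 0 < d) : ∃ d₂ > 0, ∀ k, 8 ≤ k → ∀ (Dd : ℕ → ℝ) T,
    QdU D β K d T → ∃ C ≥ 0, ∃ r₀ > 0, ∀ τ ∈ T, ∀ ψ : ℝ → ℝ,
    Wd D.Z.toPre (fun x => ψ x.2) d₂ Dd → ∀ u, Vr D β u →
      nw D.Z.toPre k (fun x => ψ x.2) (K u) ≤ C * nw D.Z.toPre k (fun x => ψ x.2) u ∧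
      nw D.Z.toPre k (fun x => ψ x.2) (Kt u) ≤ C * nw D.Z.toPre k (fun x => ψ x.2) u ∧
      (nw D.Z.toPre (k + 1) (fun x => ψ x.2) u ≤ r₀ →
        nw D.Z.toPre k (fun x => ψ x.2) (te τ (cy β) u - te τ (cy β) 0 - K u) ≤
          C * nw D.Z.toPre (k + 1) (fun x => ψ x.2) u ^ 2) := by
  obtain ⟨d', d0, h⟩ := H.bd
  refine ⟨min d d', lt_min hd d0, fun k hk Dd T hT => ?_⟩
  obtain ⟨C, c0, _, -, h⟩ := h k hk Dd
  obtain ⟨C', c1, r, r0, h'⟩ := hT.bd k hk Dd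
  refine ⟨C + C', by positivity, r, r0, fun τ hτ ψ w u hu => ?_⟩
  obtain ⟨h1, h2, -⟩ := h ψ (w.mono (min_le_right _ _)) u hu
  have e := mul_le_mul_of_nonneg_right (le_add_of_nonneg_right (a := C) c1)
    (nw_nonneg (F := D.Z) (ψ := fun x => ψ x.2) k u)
  exact ⟨h1.trans e, h2.trans e, fun hr => (h' τ hτ ψ (w.mono (min_le_left _ _)) u hu hr).trans
    (mul_le_mul_of_nonneg_right (le_add_of_nonneg_left c0) (sq_nonneg _))⟩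

theorem stU (hD : D.OK) (hβ : D.Adm β) (hI : Irr D β) (H : Lz D β τ₀ l K Kt n ν) (hd : 0 < d) :
    ∃ ε > 0, ∀ G ≥ 0, ∃ δ₀ > 0, ∀ δ, 0 < δ → δ ≤ δ₀ → ∀ k, 8 ≤ k → ∀ (Dd : ℕ → ℝ) T, QdU D β K d T →
      (∀ τ ∈ T, sz D β τ 0 = 0) → ∃ C ≥ 0, ∃ r₀ > 0, ∀ τ ∈ T,
      ∀ ψ ς k', Pf δ ε ψ ς k' → Wd D.Z.toPre (fun x => ψ x.2) δ Dd → ∀ u, Vr D β u →
        nw D.Z.toPre (k + 1) (fun x => ψ x.2) u ≤ r₀ → ∀ ρ ≥ 0,
        (∀ V, Vr D β V → (∀ t, row D n V t = row D n u t) →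
          √(∫ t, (k' t * exp (ψ t) * row D n V t) ^ 2) ≤
            ρ + G * D.Z.nrm 0 (D.Z.D none fun x => exp (ψ x.2) • V x)) →
        Fl D.Z.toPre (sz D β τ u) ∧ ∃ (g : Y × ℝ → En (Fin β.m.N)) (u' : Cz β), Vr D β u' ∧
          Eq0 D.Z (cf (cy β) u) (cf (cy β) u') univ g ∧
          nw D.Z.toPre (k + 1) (fun x => ψ x.2) u' ≤ C * (nw D.Z.toPre k (fun x => ψ x.2) (sz D β τ u) +
            ρ + nw D.Z.toPre (k + 1) (fun x => ψ x.2) u ^ 2) := by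
  have b : Bs D.B ⟨D.Z, ca D.a⟩ (cy β) := bs_cy hD hβ
  obtain ⟨C0, hF, gA⟩ := b.good_dO l
  obtain ⟨_, -, gR⟩ := b.good_row l
  obtain ⟨_, -, gL⟩ := b.good_lin
  obtain ⟨cp, hp⟩ := Hm83.poi D β hD hβ hI l H.l0
  have mem : ∀ {ξ : Y × ℝ → (cy β).m.A}, (∀ x, (cy β).m.pg x (ξ x) = ξ x) → ∀ x, ξ x ∈ (cy β).m.gS x :=
    fun h x => h x ▸ Wz78.pg_mem x _
  obtain ⟨d₁, d1, hl⟩ := llw D.Z C0 C0 hF _ _ _ gA (b.cliff_dO l) cp fun ξ =>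
    (hp ξ.1 ξ.2.1 ξ.2.2.1 (mem ξ.2.2.2)).trans_eq (congrArg (cp * D.Z.nrm 0 ·)
      (dO_app b.hB b.hG b.adm l ξ.2.1 (mem ξ.2.2.2)).1.symm)
  obtain ⟨d₂, d2, hb⟩ := H.bdU hd
  obtain ⟨Cp, p0, ε, hε, hk⟩ := H.pk
  refine ⟨ε, hε, fun G hG => ?_⟩
  obtain ⟨δ₀, d0, hk⟩ := hk G hG
  refine ⟨min δ₀ (min d₁ d₂), by positivity, fun δ hδ hδ' k k8 Dd T hT h0 => ?_⟩
  obtain ⟨hδ0, hδ1⟩ := le_min_iff.1 hδ'
  obtain ⟨hδ1, hδ2⟩ := le_min_iff.1 hδ1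
  obtain ⟨K1, k1, hl⟩ := hl k Dd
  obtain ⟨K2, k2, r2, s2, hb⟩ := hb k k8 Dd T hT
  obtain ⟨K3, k3, r3, s3, hc⟩ := Cay24.cay D.B _ (cy β) b (k + 1) (by omega) Dd
  obtain ⟨K4, k4, hs⟩ := nw_sig b l Dd k
  obtain ⟨K5, k5, hf⟩ := nw_full b l Dd k
  obtain ⟨K6, k6, hi⟩ := nrm_itp (V := Cv (cy β)) hF (δ := (2 * (K5 * (2 * K2 + 1)) + 1)⁻¹)
    (by positivity) k
  obtain ⟨K7, k7, hq⟩ := nw_qd hF b.cb_qd Dd (k := k) (by omega)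
  set Q := 2 * (K5 * (2 * K2 + 1)) * K6 * (Cp / δ) with hQ
  set A := K1 * (K4 + K2) with hA
  have q0 : 0 ≤ Q := by positivity
  have a0 : 0 ≤ A := by positivity
  refine ⟨(2 * K5 + Q) * (1 + K7 + K2) + K3 * (A + 1) * A, by positivity, min r2 (r3 / (A + 1)),
    by positivity, fun τ hτ ψ ς k' pf w u hu hr ρ hρ hrow => ?_⟩
  obtain ⟨hr2, hr3⟩ := le_min_iff.1 hr
  obtain ⟨fK, fT, mT, -⟩ := H.fl u hu
  have fe := hT.fl τ hτ u hu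
  obtain ⟨b1, b2, b3⟩ := hb τ hτ ψ (w.mono hδ2) u hu
  have fs := fl_sig b l hu.fl
  obtain ⟨ξ, fξ, pξ, eξ, hξ⟩ := hl _ (fs.add fT) fun x => (map_add _ _ _).trans
    (congrArg₂ (· + ·) (q_app gR _ x) (Wz78.pg_of_mem (mT x)))
  have mξ := mem pξ
  have m1 : nw D.Z.toPre k (fun x => ψ x.2) u ≤ _ := nw_mono k.le_succ u
  have n0 : 0 ≤ nw D.Z.toPre k (fun x => ψ x.2) u := nw_nonneg k u
  have nξ : nw D.Z.toPre (k + 2) (fun x => ψ x.2) ξ ≤ A * nw D.Z.toPre (k + 1) (fun x => ψ x.2) u := by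
    rw [hA, mul_assoc, add_mul]
    exact (hξ _ (w.mono hδ1)).trans (mul_le_mul_of_nonneg_left ((nw_add hF w fs fT k).trans
      (add_le_add (hs _ _ w u hu.fl) (b2.trans (mul_le_mul_of_nonneg_left m1 k2)))) k1)
  obtain ⟨_, -, g1⟩ := b.good_dO 1
  obtain ⟨e1, t1⟩ := dO_app b.hB b.hG b.adm 1 fξ.sm mξ
  have fd : Fl D.Z.toPre (dg D.Z (cy β) 1 ξ) := e1 ▸ fξ.opA g1
  have vd : Vr D β (dg D.Z (cy β) 1 ξ) := ⟨fd, t1⟩
  have vV : Vr D β (u - dg D.Z (cy β) 1 ξ) := ⟨hu.fl.sub fd, hu.tg.sub t1⟩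
  obtain ⟨g2, g3⟩ := H.gau ξ fξ mξ
  obtain ⟨u1, u2⟩ := H.sub _ _ hu vd
  have e2 : sig D.B D.Z (cy β) l (dg D.Z (cy β) 1 ξ) = sig D.B D.Z (cy β) l u + Kt u := by
    rw [sig_eq, funext (scl_dg l ξ), ← eξ]
    exact congrArg _ (dO_app b.hB b.hG b.adm l fξ.sm mξ).1.symm
  have e3 : sig D.B D.Z (cy β) l (u - dg D.Z (cy β) 1 ξ) = -Kt (u - dg D.Z (cy β) 1 ξ) := by
    rw [u2, g3, sub_zero]
    exact (sig_sub b l hu.fl.sm fd.sm).trans ((congrArg _ e2).trans (sub_add_cancel_left _ _))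
  obtain ⟨fq, nq⟩ := hq _ _ w u hu.fl
  have fL : Fl D.Z.toPre (lin D.B D.Z (cy β) u) := hu.fl.opA gL
  have e4 : sz D β τ u = lin D.B D.Z (cy β) u + (fun x => qd D.B (cy β) x (u x) (u x)) -
      (te τ (cy β) u - te τ (cy β) 0) := funext fun x =>
    (se_eq b.hB b.hG b.adm τ hu.fl.sm hu.tg x).trans (by
      rw [show se D.B ⟨D.Z, ca D.a⟩ τ (cy β) 0 x = 0 from congrFun (h0 τ hτ) x, zero_add]; rfl)
  have fz : Fl D.Z.toPre (sz D β τ u) := e4 ▸ (fL.add fq).sub fe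
  have e5 : lin D.B D.Z (cy β) (u - dg D.Z (cy β) 1 ξ) - K (u - dg D.Z (cy β) 1 ξ) =
      sz D β τ u - (fun x => qd D.B (cy β) x (u x) (u x)) + (te τ (cy β) u - te τ (cy β) 0 - K u) := by
    rw [u1, lin, app_sub hu.fl.sm fd.sm, ← lin, ← lin, g2, e4]
    abel
  have rw : ∀ t, row D n (u - dg D.Z (cy β) 1 ξ) t = row D n u t := fun t => by
    have c : ∀ {v : Cz β}, Sm (IC I3) v → Integrable (fun y => ⟪n y, v (y, t)⟫_ℝ) D.F.μ := fun hv =>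
      int_c D.F.toPre (H.rw.sm.continuous.inner (sm_slice_fst hv t).continuous)
    have := H.rw.g ξ fξ.sm mξ t
    simp only [row, Pi.sub_apply, inner_sub_right] at this ⊢
    rw [integral_sub (c hu.fl.sm) (c fd.sm), this, sub_zero]
  have e6 : u - dg D.Z (cy β) 1 ξ = fun x => u x + dg D.Z (cy β) 1 (-ξ) x := funext fun x => by
    rw [dg_neg, ← sub_eq_add_neg]; rfl
  obtain ⟨g, u', fu', tu', eq, nu'⟩ := hc _ _ u (-ξ) w hu.fl hu.tg fξ.neg (fun x => neg_mem (mξ x)) (by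
    rw [le_div_iff₀ (by positivity)] at hr3
    refine (nw_neg hF w fξ _).trans_le (nξ.trans ?_)
    linarith)
  refine ⟨fz, g, u', ⟨fu', tu'⟩, eq, ?_⟩
  have e7 : (fun x => u' x - u x - dg D.Z (cy β) 1 (-ξ) x) = u' - (u - dg D.Z (cy β) 1 ξ) :=
    funext fun x => by rw [e6, sub_sub]; rfl
  replace nu' : nw D.Z.toPre (k + 1) (fun x => ψ x.2) (u' - (u - dg D.Z (cy β) 1 ξ)) ≤
      K3 * (nw D.Z.toPre (k + 2) (fun x => ψ x.2) ξ + nw D.Z.toPre (k + 1) (fun x => ψ x.2) u) *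
        nw D.Z.toPre (k + 2) (fun x => ψ x.2) ξ := by
    rw [← e7, ← nw_neg hF w fξ]; exact nu'
  generalize u - dg D.Z (cy β) 1 ξ = V at vV e3 e5 rw nu'
  obtain ⟨fK', fT', -, -⟩ := H.fl V vV
  obtain ⟨c1, c2, -⟩ := hb τ hτ ψ (w.mono hδ2) V vV
  have fL' : Fl D.Z.toPre (lin D.B D.Z (cy β) V) := vV.fl.opA gL
  have a1 := (nw_add hF w (fz.sub fq) (fe.sub fK) k).trans
    (add_le_add ((nw_sub hF w fz fq k).trans (add_le_add le_rfl (nq.trans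
      (mul_le_mul_of_nonneg_left (pow_le_pow_left₀ n0 m1 2) k7)))) (b3 hr2))
  rw [← e5] at a1
  have a2 := hk δ hδ hδ0 ψ ς k' pf V vV ρ hρ (hrow V vV rw)
  have z : nw D.Z.toPre 0 (fun x => ψ x.2) (0 : Y × ℝ → (cy β).m.A) = 0 := by
    simp only [nw, Pi.zero_apply, smul_zero]; exact nrm_zero hF 0
  rw [e3, neg_add_cancel, z, add_zero, ← le_div_iff₀' hδ, mul_div_right_comm] at a2
  have a3 := a2.trans (mul_le_mul_of_nonneg_left (add_le_add ((nw_mono k.zero_le _).trans a1) le_rfl)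
    (by positivity))
  have a4 := nw_add hF w (fL'.sub fK') fK' k
  rw [sub_add_cancel] at a4
  have a5 := st_arith k5 k2 (nw_nonneg _ _) (hf _ _ w V vV.fl vV.tg)
    ((congrArg _ e3).trans_le ((nw_neg hF w fT' k).trans_le c2))
    (a4.trans (add_le_add a1 c1)) (hi _ (w.fl vV.fl))
  have a6 := nw_add hF w (fu'.sub vV.fl) vV.fl (k + 1)
  rw [sub_add_cancel] at a6
  have a7 := (mul_le_mul_of_nonneg_left a3
    (show 0 ≤ 2 * (K5 * (2 * K2 + 1)) * K6 by positivity)).trans_eq (mul_assoc _ _ _).symm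
  exact st_fin k2 k3 k5 k7 q0 a0 hρ (nw_nonneg _ _) (nw_nonneg _ _) (nw_nonneg _ _) nξ
    (a6.trans (add_le_add nu' (a5.trans (add_le_add le_rfl a7))))

end Crest.Agent.X212.Dec35
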