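import Crest.Agent.X212.Dec35.Main
import Crest.Agent.X212.Dec35.FSt
import Crest.Agent.X212.Dec35.FEr

/-!
# Row 212, DEC-U (helper35): the continuity argument, uniformly on a family
-/

set_option autoImplicit false
set_option linter.unusedSectionVars false
noncomputable section
open scoped Manifold ContDiff Topology InnerProductSpace
open MeasureTheory Set Function Filter Real

namespace Crest.Agent.X212.Dec35
open An Map77 Sob92 Nd18 Cyf70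
open Tmp64 (Eq0)

variable {E3 : Type} [NormedAddCommGroup E3] [NormedSpace ℝ E3] [FiniteDimensional ℝ E3]
  [MeasurableSpace E3] [BorelSpace E3]
  {H3 : Type} [TopologicalSpace H3] {I3 : ModelWithCorners ℝ E3 H3} [I3.Boundaryless]
  {Y : Type} [TopologicalSpace Y] [ChartedSpace H3 Y] [IsManifold I3 ∞ Y] [T2Space Y]
  [MeasurableSpace Y] [BorelSpace Y] [SecondCountableTopology Y] [CompactSpace Y]
  {κ : Type} [Fintype κ] {lam : Type} [Fintype lam] {D : YD I3 Y κ lam} {β : YC Y κ lam}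

theorem fl_szU {τ : Pt (Y × ℝ) (Option κ) lam 0 0} (hD : D.OK) (hβ : D.Adm β) (h0 : sz D β τ 0 = 0)
    {u : Cz β} (hL : Vr D β u → Fl D.Z.toPre (te τ (cy β) u - te τ (cy β) 0)) (hu : Vr D β u) :
    Fl D.Z.toPre (sz D β τ u) := by
  have b := bs_cyl hD hβ
  obtain ⟨C, hC, g⟩ := b.good_lin
  have e : sz D β τ u = lin D.B D.Z (cy β) u + (fun x => qd D.B (cy β) x (u x) (u x)) -
      (te τ (cy β) u - te τ (cy β) 0) := funext fun x => by
    have := se_eq hD.B hD.G hβ.adm τ hu.fl.sm hu.tg x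
    rw [show se D.B D.G τ (cy β) 0 x = 0 from congrFun h0 x, zero_add] at this
    exact this
  rw [e]
  exact ((hu.fl.opA g).add (hu.fl.app (Cb_app b.cb_qd (hu.fl.cb hC)))).sub (hL hu)

/-- moving the right end -/
theorem step1U (hD : D.OK)
    (hβ : D.Adm β) {δ : ℝ} (δ0 : 0 < δ) (δ1 : δ ≤ 1) {k : ℕ} (hk : 7 ≤ k) (Dd : ℕ → ℝ) (Λ : ℝ) :
    ∃ C ≥ 1, ∀ {τ} {γ η L p q q' q₀ c b T : ℝ} {v : Cz β} {th ψ ψ' : ℝ → ℝ} {u h},
      Inp D β τ γ k (k + 1) η v th p q₀ → η ≤ 1 → 1 ≤ L → p ≤ q → q ≤ q' → q' ≤ q + 2 → |c| ≤ 1 →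
      |c + vth th p q q| ≤ 1 → Wz D ψ δ Dd → Wz D ψ' δ Dd → (∀ t, δ * tent L p q t ≤ ψ t) →
      (∀ t, ψ' t ≤ δ * tent L p q' t + Λ) → C * b ≤ 1 →
      exp (δ * L) * (η + |c + vth th p q q|) ≤ T → Stt D β k ψ (Xc v th L p q c) b u h →
      |vth th p q' q' - vth th p q q| ≤ 3 * η ∧
        ∃ u', Stt D β k ψ' (Xc v th L p q' c) (C * (b + T)) u' h := by
  obtain ⟨K, K0, hK⟩ := Tr6.tr1 D β hD hβ δ δ0 δ1 (k + 1) Dd Λ
  obtain ⟨G, G1, hG⟩ := ga_w Hm83.ga hD hβ hk K Dd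
  obtain ⟨W, W0, hW⟩ := nw_wt (V := Cv (cy β)) D.Z Dd (2 + Λ) (k + 1)
  obtain ⟨C, hC⟩ := tame_Z hD
  have gk : 0 ≤ G * K := by positivity
  refine ⟨G + W + G * K, by linarith, fun {τ γ η L p q q' q₀ c b T v th ψ ψ' u h} I η1 L1 h1 h2 h3 c1 c2
    hw hw' lo hi hb hT H => ?_⟩
  obtain ⟨v1, v2, b1, -, e, n⟩ := hK η L p q q' c δ v th ψ' I.vb I.v1 I.sm I.cb I.t1 η1 L1 h1 h2 h3 c1
    c2 hw' hi
  have b0 := H.nn
  obtain ⟨g1, g2, g3⟩ := (hG ψ δ _ b u h hw v1 (CB_of_le b1 k.le_succ) (by nlinarith) H ψ' δ hw').1 _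
    ⟨v2.fl.sub v1.fl, v2.tg.sub v1.tg⟩
  rw [add_sub_cancel] at g2
  refine ⟨e, _, ⟨H.vr.fl.add g1.fl, H.vr.tg.add g1.tg⟩, g2,
    (nw_add hC hw' H.vr.fl g1.fl _).trans ?_⟩
  have a1 := (hW _ _ _ _ hw hw' (fun x => by
    have := mul_le_mul_of_nonneg_left (tent_le (L := L) (p := p) (t := x.2) h3) δ0.le
    have := hi x.2
    have := lo x.2
    linarith) u H.vr.fl).trans (mul_le_mul_of_nonneg_left H.le W0)
  have a2 := g3.trans (mul_le_mul_of_nonneg_left (n.trans ((mul_assoc _ _ _).trans_le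
    (mul_le_mul_of_nonneg_left hT K0))) (by linarith))
  have T0 : 0 ≤ T := le_trans (mul_nonneg (exp_pos _).le (add_nonneg I.t1.nonneg (abs_nonneg _))) hT
  refine (add_le_add a1 a2).trans ?_
  nlinarith [mul_nonneg W0 T0, mul_nonneg gk b0]

theorem coreU {K : Cz β → Y × ℝ → Ev (cy β)} {ν g₁ d₀ γ : ℝ} (H : Bu D β K ν) (hg₁ : 0 < g₁)
    (hd₀ : 0 < d₀) (γ0 : 0 < γ) : ∃ δ > 0, ∀ T, Fu D β K g₁ d₀ T → ∀ k, 8 ≤ k → ∀ B > 0, ∃ k₁, ∃ η > 0,
      ∀ τ ∈ T, ∀ (v : Cz β) (th : ℝ → ℝ) (p q : ℝ), Inp D β τ γ k k₁ η v th p q → (ν = 0 → th = 0) →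
      ∃ (u : Cz β) (h : Y × ℝ → En (Fin β.m.N)) (θ : ℝ), Vr D β u ∧
        Eq0 D.Z (cf (cy β) (rot (cy β) (fun x => th x.2 + θ) v)) (cf (cy β) u)
          (univ ×ˢ Ioo (p + 1) (q - 1)) h ∧
        ∀ t ∈ Icc p q, Lt D (k - 3) u t (B * exp (-δ * min (t - p) (q - t))) := by
  obtain ⟨τ₀, l, Kt, n, hL⟩ := H.lz
  have hD := H.ok
  have hβ := H.adm
  obtain ⟨ε, ε0, st⟩ := stU hD hβ H.irr hL hd₀
  obtain ⟨Λ, Λ1, Dd, wg⟩ := Lad50.Wg.wgt D ε ε0
  obtain ⟨G, G0, ro⟩ := Lad50.Rw.rowS D β n hD hL.rw.sm Λ Λ1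
  obtain ⟨KR, KR0, ro⟩ := ro Dd
  obtain ⟨δ₀, δ₀0, st⟩ := st G G0
  obtain ⟨δ₁, δ₁0, er⟩ := errU (K₀ := K) (d₀ := d₀) hD hβ hg₁ γ0
  obtain ⟨δ, δ0, d0, d1, δ1⟩ : ∃ δ > 0, δ ≤ δ₀ ∧ δ ≤ δ₁ ∧ δ ≤ 1 := ⟨min δ₀ (min δ₁ 1), by positivity,
    min_le_left _ _, (min_le_right _ _).trans (min_le_left _ _), (min_le_right _ _).trans (min_le_right _ _)⟩
  refine ⟨δ, δ0, fun T F k hk B B0 => ?_⟩
  obtain ⟨CS, CS0, r₀, r0, st⟩ := st δ δ0 d0 k hk Dd T F.qd F.crit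
  obtain ⟨k₁, KE, KE0, er⟩ := er δ δ0 d1 k Dd Λ T F
  obtain ⟨KP, KP0, hP⟩ := Hm83.phs D β hD hβ H.conn n ν hL.rw
  obtain ⟨θ₀, θ0, KT, KT0, hT⟩ := phase_bd Hm83.phs hD hβ H.conn hL.rw Dd
  obtain ⟨C1, C11, s1⟩ := step1U hD hβ δ0 δ1 (k := k) (by omega) Dd Λ
  obtain ⟨C2, C21, s2⟩ := step2 Tr6.tr2 hD hβ hL.rw δ0 (k := k) (by omega) Dd Λ
  obtain ⟨K1, -, t1⟩ := Tr6.tr1 D β hD hβ δ δ0 δ1 (k + 1) Dd Λ
  obtain ⟨KG, KG1, ga⟩ := ga_w Hm83.ga hD hβ (k := k) (by omega) K1 Dd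
  obtain ⟨Ct, hC⟩ := tame_Z hD
  obtain ⟨KO, KO0, hO⟩ := Dw_le (V := Cv (cy β)) hC Dd (k - 3)
  -- the constants
  obtain ⟨c1, c11, e1⟩ : ∃ c1 ≥ 1, c1 = C1 * (2 + KT) :=
    ⟨_, one_le_mul_of_one_le_of_one_le C11 (by linarith), rfl⟩
  obtain ⟨c2, c21, e2⟩ : ∃ c2 ≥ 1, c2 = C2 * c1 := ⟨_, one_le_mul_of_one_le_of_one_le C21 c11, rfl⟩
  obtain ⟨c3, c30, e3⟩ : ∃ c3 ≥ 0, c3 = CS * KG * KE := ⟨_, by positivity, rfl⟩
  obtain ⟨L, LΛ, hLc⟩ : ∃ L ≥ Λ, 6 * (c3 * KT * c2) ≤ L := ⟨_, le_max_left _ _, le_max_right _ _⟩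
  have L1 : 1 ≤ L := Λ1.trans LΛ
  have L0 : 0 < L := by linarith
  obtain ⟨b, ⟨⟨b1, b2, b3⟩, b4, b5, b6⟩, b7, b8, b0⟩ := ((((ev_small C1 one_pos).and ((ev_small c2 one_pos).and
    (ev_small (KG * c2) one_pos))).and ((ev_small c2 r0).and ((ev_small (KT + c2 + 3) θ0).and
    (ev_small (KT + c2 + 3) one_pos)))).and ((ev_small KO B0).and ((ev_small
      (3 * (CS * (KR * (C2 * c1 ^ 2 + KP * c2 ^ 2) + c2 ^ 2))) one_pos).and self_mem_nhdsWithin))).exists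
  replace b0 : 0 < b := b0
  obtain ⟨η, ⟨η1, η2⟩, η0⟩ := (((ev_small (exp (δ * L)) b0).and
    (ev_small (3 * (c3 * exp (δ * L))) b0)).and self_mem_nhdsWithin).exists
  replace η0 : 0 < η := η0
  have E1 : 1 ≤ exp (δ * L) := one_le_exp (by positivity)
  have ηb : η ≤ b := (le_mul_of_one_le_left η0.le E1).trans η1
  have bb : b ≤ 1 := (le_mul_of_one_le_left b0.le C11).trans b1
  refine ⟨max k₁ (k + 1), η, η0, fun τ hτ v th p q I hth => ?_⟩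
  replace st := st τ hτ
  replace er := er τ hτ
  have len := I.len
  choose! ψ ς k' hw using fun q' (h : p ≤ q') => wg δ δ0 δ1 L p q' LΛ h
  -- the phases at the two ends
  have phs : ∀ q' c u h b', p ≤ q' → Vr D β (Xc v th L p q' c) → Stt D β k (ψ q') (Xc v th L p q' c) b' u h →
      b' ≤ 1 → |c| ≤ θ₀ → |c + vth th p q' q'| ≤ θ₀ → (ν = 0 → c = 0) →
      exp (δ * L) * |c| ≤ KT * b' ∧ exp (δ * L) * |c + vth th p q' q'| ≤ KT * b' := by
    intro q' c u h b' h1 hv S h2 h3 h4 h5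
    have w := hw q' h1
    have i := S.le4 (by omega)
    have a1 := hT _ _ w.wd _ u h p c hv S.vr S.eq
      (fun y => by rw [Xc_slice (.inl le_rfl), Th_p L0 h1]) (i.trans h2) h3 h5
    have a2 := hT _ _ w.wd _ u h q' _ hv S.vr S.eq
      (fun y => by rw [Xc_slice (.inr le_rfl), Th_q L0 h1]) (i.trans h2) h4
      fun h0 => by simp [h5 h0, hth h0, vth]
    have a3 := exp_le_exp.2 (w.lo p)
    have a4 := exp_le_exp.2 (w.lo q')
    rw [tent_p L0.le h1] at a3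
    rw [tent_q L0.le h1] at a4
    have := mul_le_mul_of_nonneg_left i KT0
    exact ⟨(mul_le_mul_of_nonneg_right a3 (abs_nonneg _)).trans (a1.trans this),
      (mul_le_mul_of_nonneg_right a4 (abs_nonneg _)).trans (a2.trans this)⟩
  have vr : ∀ q' c, p ≤ q' → |c| ≤ 1 → |c + vth th p q' q'| ≤ 1 →
      Vr D β (Xc v th L p q' c) ∧ D.Z.CB k (Xc v th L p q' c) K1 := fun q' c h1 h2 h3 =>
    have J := I.mono γ0 len le_rfl (le_max_right _ _)
    have := t1 η L p q' q' c δ v th (ψ q') J.vb J.v1 J.sm J.cb J.t1 (ηb.trans bb) L1 h1 le_rfl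
      (by linarith) h2 h3 (hw q' h1).wd (hw q' h1).hi
    ⟨this.1, CB_of_le this.2.2.1 k.le_succ⟩
  let Inv : ℝ → Prop := fun q' => ∃ c u h, Stt D β k (ψ q') (Xc v th L p q' c) b u h ∧
    |c| ≤ min θ₀ 1 ∧ |c + vth th p q' q'| ≤ min θ₀ 1 ∧ (ν = 0 → c = 0)
  have step : ∀ q₀ q', p ≤ q₀ → q₀ ≤ q' → q' ≤ q₀ + 2 → p + 2 ≤ q' → q' ≤ q → Inv q₀ → Inv q' := by
    rintro q₀ q' h1 h2 h3 h4 h5 ⟨c, u, h, S, i1, i2, i3⟩
    rw [le_min_iff] at i1 i2
    have h6 := h1.trans h2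
    have w := hw q' h6
    obtain ⟨p1, p2⟩ := phs q₀ c u h b h1 (vr q₀ c h1 i1.2 i2.2).1 S bb i1.1 i2.1 i3
    obtain ⟨v1, u1, S1⟩ := s1 (T := (1 + KT) * b) (I.mono γ0 len le_rfl (le_max_right _ _)) (ηb.trans bb)
      L1 h1 h2 h3 i1.2 i2.2 (hw q₀ h1).wd w.wd (hw q₀ h1).lo w.hi b1 (by linarith) S
    rw [show C1 * (b + (1 + KT) * b) = c1 * b by rw [e1]; ring] at S1
    obtain ⟨a, u2, a1, a2, S2, a3⟩ := s2 L1 h6 w.wd (fun t => ⟨w.lo t, w.hi t⟩)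
      (by rw [← mul_assoc, ← e2]; exact b2) S1
    rw [← mul_assoc, ← e2] at a1 S2
    have j1 : |c + a| ≤ (KT + c2 + 3) * b := by
      linarith [abs_add_le c a, le_mul_of_one_le_left (abs_nonneg c) E1]
    have j2 : |c + a + vth th p q' q'| ≤ (KT + c2 + 3) * b := by
      have := abs_add_three (c + vth th p q₀ q₀) a (vth th p q' q' - vth th p q₀ q₀)
      rw [show c + vth th p q₀ q₀ + a + (vth th p q' q' - vth th p q₀ q₀) = c + a + vth th p q' q' by ring]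
        at this
      linarith [le_mul_of_one_le_left (abs_nonneg (c + vth th p q₀ q₀)) E1]
    have j3 : ν = 0 → c + a = 0 := fun h0 => by rw [i3 h0, a2 h0, add_zero]
    obtain ⟨x1, x2⟩ := vr q' _ h6 (j1.trans b6) (j2.trans b6)
    obtain ⟨p3, p4⟩ := phs q' _ u2 h _ h6 x1 S2 b2 (j1.trans b5) (j2.trans b5) j3
    have r1 := (er η L p q' _ δ v th (ψ q') (I.mono γ0 h4 h5 (le_max_left _ _)) (ηb.trans bb) L1
      (j1.trans b6) (j2.trans b6) w.wd w.hi).2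
    have r2 := (ga _ _ _ _ u2 h w.wd x1 x2 (by rw [← mul_assoc]; exact b3) S2 _ _ w.wd).2 _
      (fl_szU hD hβ (F.crit τ hτ) (F.qd.fl τ hτ _) x1)
    replace r2 := (congrArg (nz D k (ψ q'))
      (funext (sz_nat hD hβ (F.nat τ hτ) x1.fl.sm x1.tg S2.vr.fl.sm S2.vr.tg S2.eq))).trans_le r2
    have i4 := S2.le4 (by omega)
    obtain ⟨-, g, u3, y1, y2, y3⟩ := st (ψ q') (ς q') (k' q') w.pf w.wd u2 S2.vr (S2.le.trans b4)
      (KR * (C2 * (c1 * b) ^ 2 + KP * (c2 * b) ^ 2)) (by positivity) fun V hV hr => by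
        refine (ro (ψ q') (k' q') δ ((p + q') / 2) KP u2 V w.wd w.pf.sk.cd.continuous w.pf.k1 S2.vr.fl
          hV.fl KP0 fun t ht => ?_).trans (add_le_add (mul_le_mul_of_nonneg_left (add_le_add
            (by rw [hr]; exact a3) (mul_le_mul_of_nonneg_left
              (pow_le_pow_left₀ (nw_nonneg _ _) i4 2) KP0)) KR0) le_rfl)
        have o : (t ≤ p - L ∨ q' + L ≤ t) → |row D n V t| ≤ KP * sl D u2 t ^ 2 := fun o => by
          have := hP _ u2 h t 0 x1.fl.sm S2.vr.fl.sm x1.tg S2.vr.tg S2.eq fun y => by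
            rw [Xc_slice (o.imp (fun _ => by linarith) fun _ => by linarith), Th_out L0 o]
          simpa [hr] using this
        rcases w.sup t ht with o1 | o1 | o1
        exacts [.inr (o (.inl o1)), .inl o1, .inr (o (.inr o1))]
    refine ⟨c + a, u3, _, ⟨y1, S2.eq.trans y2, y3.trans ?_⟩, le_min (j1.trans b5) (j1.trans b6),
      le_min (j2.trans b5) (j2.trans b6), j3⟩
    have z1 : exp (δ * L) * ((|c + a| + |c + a + vth th p q' q'|) / L) ≤ 2 * (KT * (c2 * b)) / L := by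
      rw [← mul_div_assoc]; exact div_le_div_of_nonneg_right (by linarith) L0.le
    have z2 : c3 * (2 * (KT * (c2 * b)) / L) ≤ b / 3 := by
      rw [← mul_div_assoc, div_le_iff₀ L0]; linarith [mul_le_mul_of_nonneg_left hLc b0.le]
    have z3 := pow_le_pow_left₀ (nw_nonneg _ _) S2.le 2
    have z4 := r2.trans (mul_le_mul_of_nonneg_left r1 (by linarith))
    have z5 := mul_le_mul_of_nonneg_left z1 c30
    have z6 := mul_le_mul_of_nonneg_left b8 b0.le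
    refine (mul_le_mul_of_nonneg_left (add_le_add (add_le_add z4 le_rfl) z3) CS0).trans ?_
    rw [e3] at z2 z5 η2
    linarith
  have base : Inv p := by
    refine ⟨0, 0, (cy β).m.p, ⟨⟨Fl.zero, Tg.zero⟩, ?_, ?_⟩, by simp [θ0.le], by simp [vth_self, θ0.le],
      fun _ => rfl⟩
    · rw [Xc_base]
      exact Tmp64.Eq0.refl (G := D.G) (Tmp64.admOn_univ.2 (cf_adm hβ.adm contMDiff_const Tg.zero))
    · simp only [nz, nw, Pi.zero_apply, smul_zero]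
      exact (nrm_zero hC _).trans_le b0.le
  have ind : ∀ j : ℕ, ∀ q', p + 2 ≤ q' → q' ≤ q → q' ≤ p + 2 * (j + 1) → Inv q' := by
    intro j
    induction j with
    | zero => exact fun q' h1 h2 h3 => step p q' le_rfl (by linarith) (by simpa using h3) h1 h2 base
    | succ j ih =>
      intro q' h1 h2 h3
      push_cast at h3
      have j0 : (0 : ℝ) ≤ j := j.cast_nonneg
      have m1 := le_max_left (p + 2) (q' - 2)
      have m2 := le_max_right (p + 2) (q' - 2)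
      have m3 : max (p + 2) (q' - 2) ≤ q' := max_le h1 (by linarith)
      exact step _ q' (by linarith) m3 (by linarith) h1 h2
        (ih _ m1 (m3.trans h2) (max_le (by linarith) (by linarith)))
  obtain ⟨j, hj⟩ := exists_nat_ge (q - p)
  obtain ⟨c, u, h, S, -⟩ := ind j q len le_rfl (by linarith [j.cast_nonneg (α := ℝ)])
  have w := hw q (by linarith)
  refine ⟨u, h, c + (vth th p q (p + 1) - th (p + 1)), S.vr, eq0_congr (S.eq.mono (subset_univ _))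
    fun x hx => rot_congr ?_ ?_, fun t ht z hz y => (hO _ _ w.wd u S.vr.fl z hz (y, t)).trans ?_⟩
  · rw [Th, ret_one L0 (by linarith [hx.2.1]) (by linarith [hx.2.2]), vth_mid I.sm hx.2.1.le hx.2.2.le]
    ring
  · rw [chi_one hx.2.1.le hx.2.2.le, one_smul]
  · have a1 : exp (-ψ q t) ≤ exp (-δ * min (t - p) (q - t)) := exp_le_exp.2 (by
      have := w.lo t
      have := mul_le_mul_of_nonneg_left (le_max_right 0 (L + min (t - p) (q - t))) δ0.le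
      have := mul_pos δ0 L0
      simp only [tent] at *
      linarith)
    rw [show k - 3 + 4 = k + 1 by omega, mul_right_comm]
    exact mul_le_mul ((mul_le_mul_of_nonneg_left S.le KO0).trans b7) a1 (exp_pos _).le B0.le

end Crest.Agent.X212.Dec35
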