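import Crest.Agent.X212.Dec35.FCo

/-!
# Row 212, DEC-U (helper35): the reduction of `Pj41.red`, uniformly on a family
-/

set_option autoImplicit false
set_option linter.unusedSectionVars false
noncomputable section
open scoped Manifold ContDiff Topology InnerProductSpace
open Set Function Filter Real

namespace Crest.Agent.X212.Dec35
open An Map77 Sob92 Tmp64 Cyf70 Nd18 Pj41
open Bki64 (Cl ClsT win Cn BB cov dA dP csB)
open Neck67 (Lb up dn cS)

variable {E3 : Type} [NormedAddCommGroup E3] [NormedSpace ℝ E3] [FiniteDimensional ℝ E3]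
  [MeasurableSpace E3] [BorelSpace E3]
  {H3 : Type} [TopologicalSpace H3] {I3 : ModelWithCorners ℝ E3 H3} [I3.Boundaryless]
  {Y : Type} [TopologicalSpace Y] [ChartedSpace H3 Y] [IsManifold I3 ∞ Y] [T2Space Y]
  [MeasurableSpace Y] [BorelSpace Y] [SecondCountableTopology Y] [CompactSpace Y]
  {κ : Type} [Fintype κ] {lam : Type} [Fintype lam] {D : YD I3 Y κ lam} {β : YC Y κ lam}

/-- **DEC-U**: the rate depends only on the data at `β` and on the rates of the inputs -/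
theorem decU {K₀ : Cz β → Y × ℝ → Ev (cy β)} {ν g₁ d₀ γ : ℝ} (H : Bu D β K₀ ν) (hg₁ : 0 < g₁)
    (hd₀ : 0 < d₀) (hγ : 0 < γ) : ∃ d > 0, ∀ T, Fu D β K₀ g₁ d₀ T → DecU D β γ d T := by
  have hD := H.ok
  have hβ := H.adm
  obtain ⟨δ, hδ, core⟩ := coreU H hg₁ hd₀ hγ
  refine ⟨δ, hδ, fun T F k' K k B hB => ?_⟩
  obtain ⟨K₁, p₁, h₁⟩ := cl_of_ex (F := D.Z) (c' := cy β) hβ.adm.ok
  obtain ⟨k₁, η₀, p₀, core⟩ := core T F (k + 11) (by omega) (B / (K₁ + 1)) (by positivity)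
  obtain ⟨K₂, p₂, h₂⟩ := exists_cutW hD hβ (max k₁ (k' (k + 11)))
  obtain ⟨C, hC⟩ := rot_bd hβ (k' (k + 11)) η₀
  have pε : 0 < η₀ / (K₂ + 1) := by positivity
  have hε : K₂ * (η₀ / (K₂ + 1)) ≤ η₀ := by
    rw [mul_div_assoc', div_le_iff₀ (by positivity)]; nlinarith
  obtain ⟨η₁, p₃, g⟩ : ∃ η > 0, ∀ r (c : Cfg (Y × ℝ) (Option κ) lam r) (S : Set ℝ),
      S.OrdConnected → (∀ s ∈ S, AdmOn c D.B D.G (win Y s 7) ∧ ∃ u ζ, Cn D c β u ζ (win Y s 7) η) →
      ∃ u θ, ClsT D c β u θ (Metric.thickening 1 S) (max k₁ (k' (k + 11))) (η₀ / (K₂ + 1)) ∧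
        (ν = 0 → θ = 0) := by
    by_cases hν : ν = 0
    · obtain ⟨ε, p, f⟩ := Cay24.fix D β hD hβ H.conn (H.fix hν) (max k₁ (k' (k + 11))) _ pε
      obtain ⟨η, q, g⟩ := Bki64.g1' hD hβ (max k₁ (k' (k + 11))) p
      refine ⟨η, q, fun r c S h1 h2 => ?_⟩
      obtain ⟨u, θ, h⟩ := g r c S h1 h2
      exact (f r c u θ _ h).imp fun u' h' => ⟨0, h', fun _ => rfl⟩
    · obtain ⟨η, q, g⟩ := Bki64.g1' hD hβ (max k₁ (k' (k + 11))) pε
      exact ⟨η, q, fun r c S h1 h2 => (g r c S h1 h2).imp fun u h => h.imp fun θ h =>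
        ⟨h, fun e => (hν e).elim⟩⟩
  obtain ⟨R, hR, R4⟩ : ∃ R : ℝ, K (k + 11) C * exp (-γ * (R - 3)) ≤ η₀ ∧ 4 ≤ R := by
    have : Tendsto (fun R : ℝ => K (k + 11) C * exp (-γ * (R - 3))) atTop (𝓝 (K (k + 11) C * 0)) :=
      (tendsto_exp_atBot.comp ((tendsto_atTop_add_const_right _ (-3) tendsto_id).const_mul_atTop_of_neg
        (neg_neg_of_pos hγ))).const_mul _
    exact ((this.eventually (ge_mem_nhds (by simpa))).and (eventually_ge_atTop 4)).exists
  have pη : 0 < min η₁ (R + 7)⁻¹ := lt_min p₃ (by positivity)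
  have hη : R + 7 ≤ (min η₁ (R + 7)⁻¹)⁻¹ := le_inv_of_le_inv₀ pη (min_le_right _ _)
  refine ⟨_, pη, fun τ hτ r c S a b hab hA hw => ?_⟩
  generalize min η₁ (R + 7)⁻¹ = η, min_le_left η₁ (R + 7)⁻¹ = hη' at hη pη hw
  have w7 : ∀ s ∈ Icc (a - R) (b + R), s ∈ S ∧ AdmOn c D.B D.G (win Y s 7) ∧
      ∃ u ζ, Cn D c β u ζ (win Y s 7) η₁ := fun s hs => by
    obtain ⟨s', h1, h2⟩ := exists_clamp hab (by linarith) hs
    obtain ⟨h3, h4, u, ζ, h5⟩ := hw s' h1
    have := Bki64.win_sub (Y := Y) (s := s) (s' := s') (L := 7) (L' := η⁻¹) (by linarith)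
    exact ⟨h3 ⟨by linarith [(abs_le.1 h2).1], by linarith [(abs_le.1 h2).2]⟩, h4.mono this, u, ζ,
      h5.mono (Bki64.win_op _ _) this pη hη'⟩
  obtain ⟨u, θ, hu, hν⟩ := g r c _ ordConnected_Icc fun s hs => (w7 s hs).2
  have sub := Metric.self_subset_thickening one_pos (Icc (a - R) (b + R))
  obtain ⟨v, th, v1, v2, t1, t2, t3, t4, ex⟩ := h₂ r c u θ _ _ _ _ pε.le hu
    Metric.isOpen_thickening sub fun s hs => (w7 s hs).2.1
  have v3 : ∀ j ≤ max k₁ (k' (k + 11)), D.Z.CB j v η₀ := fun j hj w hw x => (v2 w (hw.trans hj) x).trans hε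
  have iso : ∀ t L, a - R ≤ t - L → t + L ≤ b + R → Iso0 (IC I3) c.m (cy β).m (win Y t L) u :=
    fun t L h1 h2 => hu.cl.iso.mono (prod_mono_right fun s hs => sub ⟨h1.trans hs.1.le,
      hs.2.le.trans h2⟩)
  obtain ⟨u', h, θ₀, k1, k2, k3⟩ := core τ hτ v th (a - 2) (b + 2) ⟨by linarith, v1,
    v3 _ (le_max_left _ _), t1, t2, (t3.of_le (le_max_left _ _)).mono hε, fun t ht => by
      have m0 : 0 ≤ min (t - (a - 2)) (b + 2 - t) := le_min (by linarith [ht.1]) (by linarith [ht.2])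
      have m1 := min_le_left (t - (a - 2)) (b + 2 - t)
      have m2 := min_le_right (t - (a - 2)) (b + 2 - t)
      generalize min (t - (a - 2)) (b + 2 - t) = m at m0 m1 m2
      refine (hA (k + 11) C _ u t (R - 3 + m) (by linarith)
        (fun s hs => (w7 s ⟨by linarith [hs.1], by linarith [hs.2]⟩).1) (rot_vb hβ v1 t1 t2)
        (hC v th v1.cb.choose_spec.1 (v3 _ (le_max_right _ _)) t1
          ((t3.of_le (le_max_right _ _)).mono hε))
        (cl_of_ex0 (Bki64.win_op _ _) (iso _ _ (by linarith) (by linarith)) fun x hx => by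
          simpa only [add_zero] using
            ex x ⟨by linarith [hx.2.1], by linarith [hx.2.2]⟩ 0)).mono le_rfl ?_
      rw [mul_add, exp_add, ← mul_assoc]
      gcongr⟩ fun e => t4 (hν e)
  refine ⟨fun x => h x ∘L u x, Circle.exp θ₀, fun s hs => ?_⟩
  have sb : win Y s 1 ⊆ univ ×ˢ Ioo (a - 2 + 1) (b + 2 - 1) :=
    prod_mono_right (Ioo_subset_Ioo (by linarith [hs.1]) (by linarith [hs.2]))
  have i1 := iso s 1 (by linarith [hs.1]) (by linarith [hs.2])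
  refine (h₁ r c _ u' θ₀ _ k (B / (K₁ + 1) * exp (-δ * min (s - a) (b - s))) (by positivity)
    (Bki64.win_op _ _) (i1.trans (k2.iso.mono sb)) k1.tg
    (fun x hx => (ex x ⟨by linarith [hx.2.1, hs.1], by linarith [hx.2.2, hs.2]⟩ θ₀).comp
      (i1.su x hx) k2 (sb hx))
    (Lb.of_Dw (fun x _ => k1.fl.sm x) fun w hw x hx => (k3 x.2
      ⟨by linarith [hx.2.1, hs.1], by linarith [hx.2.2, hs.2]⟩ w (by omega) x.1).trans ?_)).mono
    (Bki64.win_op _ _) Subset.rfl le_rfl ?_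
  · refine mul_le_mul_of_nonneg_left (exp_le_exp.2 ?_) (by positivity)
    refine mul_le_mul_of_nonpos_left (min_le_min ?_ ?_) (by linarith)
    · linarith [hx.2.1]
    · linarith [hx.2.2]
  · rw [← mul_assoc]
    gcongr
    rw [mul_div_assoc', div_le_iff₀ (by positivity)]; nlinarith

end Crest.Agent.X212.Dec35
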