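import Crest.Agent.X212.Dec35.Core

/-!
# Row 212, DEC-U (helper35): families of perturbations with a common linearisation
-/

set_option autoImplicit false
set_option linter.unusedSectionVars false
noncomputable section
open scoped Manifold ContDiff Topology InnerProductSpace
open MeasureTheory Set Function Filter Real

namespace Crest.Agent.X212.Dec35
open An Map77 Sob92 Nd18 Cyf70
open Tmp64 (Eq0 AdmOn)
open Bki64 (Cl win Cn)

variable {E3 : Type} [NormedAddCommGroup E3] [NormedSpace ℝ E3] [FiniteDimensional ℝ E3]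
  [MeasurableSpace E3] [BorelSpace E3]
  {H3 : Type} [TopologicalSpace H3] {I3 : ModelWithCorners ℝ E3 H3} [I3.Boundaryless]
  {Y : Type} [TopologicalSpace Y] [ChartedSpace H3 Y] [IsManifold I3 ∞ Y] [T2Space Y]
  [MeasurableSpace Y] [BorelSpace Y] [SecondCountableTopology Y] [CompactSpace Y]
  {κ : Type} [Fintype κ] {lam : Type} [Fintype lam]

section
variable (D : YD I3 Y κ lam) (β : YC Y κ lam)

/-- INPUT (69): `P1Z` with the rate `γ`, uniformly on the set `T` -/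
structure P1U (γ : ℝ) (T : Set (Pt (Y × ℝ) (Option κ) lam 0 0)) : Prop where
  sm : ∀ τ ∈ T, ∀ a, Vb D β a → Sm (IC I3) (te τ (cy β) a)
  bd : ∀ k : ℕ, ∃ k' : ℕ, ∀ C : ℝ, ∃ K : ℝ, ∀ τ ∈ T,
    ∀ a a' : Cz β, Vb D β a → Vb D β a' → D.Z.CB k' a C → D.Z.CB k' a' C → ∀ t m, 0 ≤ m →
      (∀ s, Lt D k' (a - a') s (m * exp (γ * |s - t|))) →
      Lt D k (te τ (cy β) a - te τ (cy β) a') t (K * m)

/-- the quadratic estimate with the linearisation `K` for the slope `d`, uniformly on `T` -/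
structure QdU (K : Cz β → Y × ℝ → Ev (cy β)) (d : ℝ) (T : Set (Pt (Y × ℝ) (Option κ) lam 0 0)) :
    Prop where
  fl : ∀ τ ∈ T, ∀ u, Vr D β u → Fl D.Z.toPre (te τ (cy β) u - te τ (cy β) 0)
  bd : ∀ k, 8 ≤ k → ∀ Dd : ℕ → ℝ, ∃ C ≥ 0, ∃ r₀ > 0, ∀ τ ∈ T, ∀ ψ : ℝ → ℝ,
    Wd D.Z.toPre (fun x => ψ x.2) d Dd → ∀ u, Vr D β u →
      nw D.Z.toPre (k + 1) (fun x => ψ x.2) u ≤ r₀ →
        nw D.Z.toPre k (fun x => ψ x.2) (te τ (cy β) u - te τ (cy β) 0 - K u) ≤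
          C * nw D.Z.toPre (k + 1) (fun x => ψ x.2) u ^ 2

/-- a bounded family of perturbations with the linearisation `K` at the critical point `β` -/
structure Fu (K : Cz β → Y × ℝ → Ev (cy β)) (γ d : ℝ) (T : Set (Pt (Y × ℝ) (Option κ) lam 0 0)) :
    Prop where
  crit : ∀ τ ∈ T, sz D β τ 0 = 0
  nat : ∀ τ ∈ T, NatZ D τ
  p1 : P1U D β γ T
  qd : QdU D β K d T

/-- the data which do not depend on the member of the family -/
structure Bu (K : Cz β → Y × ℝ → Ev (cy β)) (ν : ℝ) : Prop where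
  ok : D.OK
  adm : D.Adm β
  conn : PreconnectedSpace Y
  irr : Irr D β
  lz : ∃ τ l Kt n, Lz D β τ l K Kt n ν
  fix : ν = 0 → Fix D.Z (cy β) univ

/-- exponential decay with the rate `d` on bounded gaps, uniformly on `T` -/
def DecU (γ d : ℝ) (T : Set (Pt (Y × ℝ) (Option κ) lam 0 0)) : Prop :=
  ∀ (k' : ℕ → ℕ) (K : ℕ → ℝ → ℝ) (k : ℕ), ∀ B > 0, ∃ η > 0, ∀ τ ∈ T,
    ∀ r (c : Cfg (Y × ℝ) (Option κ) lam r) (S : Set ℝ) (a b : ℝ), a ≤ b →
    Asol D β τ γ k' K c S → (∀ s ∈ Icc a b, Ioo (s - η⁻¹) (s + η⁻¹) ⊆ S ∧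
      AdmOn c D.B D.G (win Y s η⁻¹) ∧ ∃ u ζ, Cn D c β u ζ (win Y s η⁻¹) η) →
    ∃ u ζ, ∀ s ∈ Icc a b,
      Cl D.Z c (cy β) u (fun _ => ζ) (win Y s 1) k (B * exp (-d * min (s - a) (b - s)))

end

variable {D : YD I3 Y κ lam} {β : YC Y κ lam} {T : Set (Pt (Y × ℝ) (Option κ) lam 0 0)}
  {τ : Pt (Y × ℝ) (Option κ) lam 0 0} {γ : ℝ}

theorem P1U.p1 (h : P1U D β γ T) (hγ : 0 < γ) (hτ : τ ∈ T) : P1Z D β τ :=
  ⟨h.sm τ hτ, γ, hγ, fun k => (h.bd k).imp fun _ h C => (h C).imp fun _ h => h τ hτ⟩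

end Crest.Agent.X212.Dec35
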