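import Crest.Agent.X212.Dec35.El
import Crest.Agent.X212.Nck90.Xc
import Crest.Agent.X212.Pnt66.Tl
import Crest.Agent.X212.Dgr80.Elm

/-!
# Row 212, DEC (helper35): the outputs for walls with nondegenerate critical points
-/

set_option autoImplicit false
set_option linter.unusedSectionVars false
noncomputable section
open scoped Manifold ContDiff Topology InnerProductSpace
open MeasureTheory Set Function Filter

namespace Crest.Agent.X212.Dec35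
open An An.Job M Cyf70 Eqv71 Nd18 Pj41

section gen
variable {E : Type} [NormedAddCommGroup E] [NormedSpace ℝ E] [FiniteDimensional ℝ E]
  [MeasurableSpace E] [BorelSpace E]
  {HM : Type} [TopologicalSpace HM] {I : ModelWithCorners ℝ E HM} [I.Boundaryless]
  {Z : Type} [TopologicalSpace Z] [ChartedSpace HM Z] [IsManifold I ∞ Z]
  [MeasurableSpace Z] [BorelSpace Z] [T2Space Z] [SecondCountableTopology Z]
  {E3 : Type} [NormedAddCommGroup E3] [NormedSpace ℝ E3] [FiniteDimensional ℝ E3]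
  [MeasurableSpace E3] [BorelSpace E3]
  {H3 : Type} [TopologicalSpace H3] {I3 : ModelWithCorners ℝ E3 H3} [I3.Boundaryless]
  {Y : Type} [TopologicalSpace Y] [ChartedSpace H3 Y] [IsManifold I3 ∞ Y] [T2Space Y]
  [MeasurableSpace Y] [BorelSpace Y] [SecondCountableTopology Y] [CompactSpace Y]
  {κ : Type} [Fintype κ] {lam : Type} [Fintype lam] {D : YD I3 Y κ lam} {β : YC Y κ lam}
  {N : ND Y lam} {r m : ℕ}

theorem eqs_of {B : Base Z (Option κ) lam} {G : Geo I Z (Option κ) lam}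
    {c : Cfg Z (Option κ) lam r} {τ τ' : Pt Z (Option κ) lam r m} (h : c.Sol B G τ) {y : Z}
    (e : τ.D c y = τ'.D c y ∧ τ.C c y = τ'.C c y) : c.eD G τ' y = 0 ∧ c.eC B G τ' y = 0 :=
  ⟨(congrArg (_ - ·) e.1.symm).trans (h.D y), (congrArg (_ - ·) e.2.symm).trans (h.C y)⟩

/-- **ASg** -/
theorem asg (hβ : N.Crit D β) (h : Ipt D β N) : Nck90.ASg I Z D β N r m := by
  obtain ⟨γ, p, h3⟩ := h.loc
  refine ⟨γ, p, fun α l q₀ F hF hR => ?_⟩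
  obtain ⟨T, Q, hq⟩ := Nck90.inB_ev hF.cv
  obtain ⟨S, C, ap⟩ := hF.ap
  obtain ⟨d, hd⟩ := hF.loc
  obtain ⟨k', K, h4⟩ := asol hF.hD hF.hN hβ h.p1 p h3 T Q S C
  refine ⟨k', K, max d 1, (hd.and hq).mono fun n k => ?_⟩
  obtain ⟨-, hG, ht, x, hx, e⟩ := hR n
  obtain ⟨a, b⟩ := ap n
  exact h4 ⟨F.B n, F.G n⟩ (F.K n) r m x (F.y n) (F.w n) _ _ hx (hF.sol n).toAdm e
    ⟨hG.vol, ht, a.wts, b.low, a.le, .inl b.en⟩ k.2 (Dp_sub (lt_max_of_lt_right one_pos))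
    fun y hy => eqs_of (hF.sol n) (k.1 y (Dp_mono (le_max_left _ _) hy))

/-- **ELIM** at all critical points, with one rate -/
theorem elC [PreconnectedSpace Y] (hD : D.OK) (hN : N.OK D) (S : N.CD D)
    (h : ∀ i, Ipt D (S.β i) N) : ∃ d > 0, ∀ β, N.Crit D β → ElN D β N d := by
  choose d p hd using fun i => elN hD hN (S.crit i) (S.irr i) (h i)
  obtain ⟨d₀, p₀, e⟩ := Bki64.exists_pos_le p
  refine ⟨d₀, p₀, fun β hβ X K r n x c q l ζ hx hc k hw hl hs H => ?_⟩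
  obtain ⟨i, v⟩ := S.cov β hβ
  have a := Dgr80.adm_crit hβ
  have b := Dgr80.adm_crit (S.crit i)
  obtain ⟨g, ξ, s⟩ := Dgr80.stb_of_eqv hD a b v
  have := Pnt66.elim_post K hD b a (ceq_symm_id hD.B hD.G isOpen_univ (ad0 a.adm) (ad0 b.adm)
    (u := fun x => g x.1) (ζ := ξ) ⟨s.iso.mEq (OK.on a.adm.ok _) (OK.on b.adm.ok _),
      (par0_iff ((IsConn.on b.adm.conn _).proj' hD.B)).1 fun x _ a => s.par a x,
      fun x _ => (s.Φ x.1).symm, Subsingleton.elim _ _⟩) (admOn_pb K (ad0 hc) Subset.rfl)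
    (hd i X K r n x c q l _ hx hc k hw hl hs (Dgr80.lim_stb a b (ad0 hc) s H))
  rw [inv_mul_cancel_left] at this
  exact Dgr80.elim_mono this (e i)

theorem wk_Z (h : Crt72.HY D) : Wk D.nk :=
  let ⟨S, _, v, a, b, c, d⟩ := Fin37.wZ_ok h
  ⟨_, S, v, a, b, c, fun x _ z _ => d x z⟩

end gen

section traj
variable {κ lam : Type} [Fintype κ] [Fintype lam] {Y : Mf 3} [CompactSpace Y.M]
  [ConnectedSpace Y.M] {D : YD Y.I Y.M κ lam} {N : ND Y.M lam} (hD : D.OK) (hN : N.OK D)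
  (S : N.CD D) (h : ∀ i, Ipt D (S.β i) N)
include hD hN h

/-- trajectories converge exponentially -/
theorem elT : ∃ d > 0, ∀ q c β β' ζ ζ', N.Crit D β → N.Crit D β' → N.Traj D q c β β' ζ ζ' →
    D.nk.ELim d c β ζ atBot ∧ D.nk.ELim d c β' ζ' atTop := by
  classical
  obtain ⟨d, p, k⟩ := elC hD hN S h
  refine ⟨d, p, fun q c β β' ζ ζ' a a' t => ?_⟩
  obtain ⟨x, hx, e⟩ := Nck90.lit_tj hD q c β β' ζ ζ' a a' t
  have w := wk_Z ⟨hD, inferInstance, Y.dim⟩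
  exact ⟨k β a ⟨D.B, D.G⟩ D.nk 0 0 x c q _ ζ hx t.sol.toAdm e w (.inr rfl)
    (.of_forall fun _ y _ => ⟨t.sol.D y, t.sol.C y⟩) t.bot, k β' a' ⟨D.B, D.G⟩ D.nk 0 0 x c q _ ζ' hx
    t.sol.toAdm e w (.inl rfl) (.of_forall fun _ y _ => ⟨t.sol.D y, t.sol.C y⟩) t.top⟩

/-- **MS-ELIM** (`Msi61.ElS S`, unfolded) -/
theorem elS : ∃ d > 0, An.Sml fun Adm => ∀ q, Adm q → ∀ i j c ζ ζ',
    N.Traj D q c (S.β i) (S.β j) ζ ζ' →
      D.nk.ELim d c (S.β i) ζ atBot ∧ D.nk.ELim d c (S.β j) ζ' atTop :=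
  (elT hD hN S h).imp fun _ k => ⟨k.1, .of fun _ q _ i j c ζ ζ' =>
    k.2 q c _ _ ζ ζ' (S.crit i) (S.crit j)⟩

theorem elz (q : YW Y.I Y.M →₀ ℝ) : Dgr80.Elz S q := fun i j c ζ ζ' t =>
  let ⟨d, p, k⟩ := elT hD hN S h
  let ⟨a, b⟩ := k q c _ _ ζ ζ' (S.crit i) (S.crit j) t
  ⟨⟨d, p, a⟩, d, p, b⟩

end traj

variable {Wi : Type} {X : Mf 4} {A κ lam : Type} [Fintype A] [Fintype κ] [Fintype lam]
  [DecidableEq lam] {M : Mark X A κ} {W : World M} {N : ML M lam}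
  {Λ : Lns W N} {A' h : Type} [Fintype A'] [DecidableEq A'] [Fintype h] {r n : ℕ}

/-- walls with nondegenerate critical points -/
def IW (T : Xs Wi κ lam) : Prop := ∃ S : T.N.CD T.D, ∀ i, Ipt T.D (S.β i) T.N

variable {J : Job Wi Λ A' h r n} (hJ : J.OK) {a : A}
include hJ

/-- **CW** -/
theorem cwI (h : IW (J.xs a)) : Nck90.CW J a :=
  let ⟨S, h⟩ := h
  have := conn_xs J a
  ⟨S, elz (hJ.xs a).1.yd (hJ.xs a).2 S h, fun i => ⟨(h i).p1, (h i).lz, asg (S.crit i) (h i),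
    fun _ => asg (S.crit i) (h i)⟩⟩

theorem wk_J {c : M.Cl} {s : A' → ℝ} (p : Fin37.Pm J c s) (i : Fin37.Ix J c s) :
    Wk (Fin37.nk J i) :=
  let ⟨S, S0, hS⟩ := Pat85.l4U hJ
  let ⟨v, w⟩ := wu hJ (Pat85.volJ hJ) S0 hS
  ⟨_, S, v, w.wts c _ p, w.le c _, w.int c _ p, fun _ hx _ hz =>
    Fin37.wx_low (Pat85.dj hJ) p i hx hz⟩

/-- **ELM** at the ends along the wall `a`, with one rate -/
theorem elm_cd (h : IW (J.xs a)) : ∃ d > 0, ∀ σ ∈ J.𝒦, ∀ c q (y : J.Obc c), Sol σ q y →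
    ∀ b (ha : Act J.m c a (some b) (J.Θ y.s)),
      (J.K c a _ _ ha).ELim d y.x (y.β a b) (y.ζ a b) (bif b then atBot else atTop) := by
  obtain ⟨S, h⟩ := h
  have := conn_xs J a
  obtain ⟨d, p, k⟩ := elC (hJ.xs a).1.yd (hJ.xs a).2 S h
  refine ⟨d, p, fun σ hσ c q y H b ha => ?_⟩
  obtain ⟨x, hx, e⟩ := Lit63.litJ hJ σ hσ c q y H
  obtain ⟨L, -, h1, h2⟩ := Dgr80.end_loc hJ hσ H ha
  exact k _ (H.crit a ⟨ha.2.2.2, ha.1⟩ b) ⟨J.B c, J.G c y.s⟩ (J.K c a _ _ ha) r n x y.x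
    ((J.xs a).q q) _ _ hx H.sol.toAdm e (wk_J hJ ⟨σ, hσ, H.cell, H.inf⟩ ⟨(a, some b), ha⟩)
    (by cases b; exacts [.inl rfl, .inr rfl])
    (mem_of_superset h1 fun s hs z hz => eqs_of H.sol (h2 y.x z (show _ ∈ Dp _ _ L from hz ▸ hs)))
    (H.lim a b ha)

/-- **ELM** -/
theorem elm (Adm : (Wi →₀ ℝ) → Prop)
    (H : ∀ a ∈ J.hw, ¬M.pin a → Nck90.PW (J.xs a) ∨ IW (J.xs a)) : Fin37.ELM J Adm :=
  fun σ hσ c q y _ hs a b ha => (H a (hJ.sub_hw hσ hs.ov ha.2.2.2) ha.1).elim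
    (fun h => Dgr80.elm_psc hJ hσ hs ha h.nil h.ty h.bs h.ps) fun h =>
      (elm_cd hJ h).imp fun _ k => ⟨k.1, k.2 σ hσ c q y hs b ha⟩

end Crest.Agent.X212.Dec35
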