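import Crest.Agent.X212.Neck67.Decay
import Mathlib.Analysis.InnerProductSpace.Basic
import Mathlib.Analysis.SpecificLimits.Basic

/-!
# Row 212, DEC (helper35): operators with exponentially decaying kernels

`Mu A` = multiplication by functions of the time on a Hilbert space.  A Schur test over a partition
of unity turns the boundedness of all conjugates `e^φ K e^(-φ)` into commutator bounds.
-/

set_option autoImplicit false
noncomputable section
open Set Real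
open scoped RealInnerProductSpace

namespace Crest.Agent.X212.Dec35
open Neck67

/-- multiplication by functions of the time -/
structure Mu (A : Type*) [NormedAddCommGroup A] [InnerProductSpace ℝ A] where
  m : (ℝ → ℝ) → A →L[ℝ] A
  one : m 1 = 1
  add : ∀ {b c}, Sm b → Sm c → m (b + c) = m b + m c
  smul : ∀ {b} (a : ℝ), Sm b → m (a • b) = a • m b
  mul : ∀ {b c}, Sm b → Sm c → m (b * c) = m b * m c
  sym : ∀ {b}, Sm b → ∀ u v, ⟪m b u, v⟫ = ⟪u, m b v⟫
  bd : ∀ {b M}, Sm b → (∀ t, |b t| ≤ M) → ‖m b‖ ≤ M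
  loc : Dense {u | ∃ n : ℕ, ∀ b, Sm b → (∀ t : ℝ, |t| ≤ n → b t = 0) → m b u = 0}

/-- the rotation pair on `[0, 1]` -/
theorem exists_rot01 : ∃ c s, RotP c s 0 (0 + 1) := by
  obtain ⟨M, -, h⟩ := exists_rot 0
  obtain ⟨c, s, h, -⟩ := h 0 1 le_rfl
  exact ⟨c, s, h⟩

def rc : ℝ → ℝ := exists_rot01.choose
def rs : ℝ → ℝ := exists_rot01.choose_spec.choose
theorem rotp : RotP rc rs 0 (0 + 1) := exists_rot01.choose_spec.choose_spec

theorem rsq (t : ℝ) : rc t ^ 2 + rs t ^ 2 = 1 := by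
  have := congrFun rotp.sq t
  simp only [Pi.add_apply, Pi.mul_apply, Pi.one_apply] at this
  linarith

/-- the partition of unity `∑ ch i ^ 2 = 1` -/
def ch (i : ℤ) : ℝ → ℝ := fun t => rs (1 * t + (1 - i)) * rc (1 * t + -i)

theorem sm_ch (i : ℤ) : Sm (ch i) :=
  (rotp.sms.aff (a := 1) (by simp) _).mul (rotp.smc.aff (a := 1) (by simp) _)

theorem ch_zero {i : ℤ} {t : ℝ} (h : t ∉ Icc ((i : ℝ) - 1) (i + 1)) : ch i t = 0 := by
  rw [mem_Icc, not_and_or, not_le, not_le] at h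
  rcases h with h | h
  · rw [ch, rotp.s0 _ (by linarith), zero_mul]
  · rw [ch, rotp.c0 _ (by linarith), mul_zero]

theorem abs_ch (i : ℤ) (t : ℝ) : |ch i t| ≤ 1 := by
  have h1 : ∀ s, |rc s| ≤ 1 := fun s => abs_le_one_iff_mul_self_le_one.2 (by nlinarith [rsq s])
  have h2 : ∀ s, |rs s| ≤ 1 := fun s => abs_le_one_iff_mul_self_le_one.2 (by nlinarith [rsq s])
  rw [ch, abs_mul]
  exact mul_le_one₀ (h2 _) (abs_nonneg _) (h1 _)

theorem ch_sq (i : ℤ) (t : ℝ) : ch i t * ch i t = rs (t - i + 1) ^ 2 - rs (t - i) ^ 2 := by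
  have e1 : 1 * t + (1 - (i : ℝ)) = t - i + 1 := by ring
  have e2 : 1 * t + -(i : ℝ) = t - i := by ring
  rw [ch, e1, e2]
  rcases le_total (t - i) 0 with h | h
  · rw [rotp.c1 _ h, rotp.s0 _ h]; ring
  · rw [rotp.s1 _ (by linarith)]; nlinarith [rsq (t - i)]

theorem sum_ch (n : ℕ) {t : ℝ} (ht : |t| ≤ n) :
    ∑ k ∈ Finset.range (2 * n + 2), ch (k - n) t * ch (k - n) t = 1 := by
  have h := Finset.sum_range_sub' (fun k : ℕ => rs (t + n - k + 1) ^ 2) (2 * n + 2)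
  rw [abs_le] at ht
  have e : ∀ k : ℕ, ch (k - n) t * ch (k - n) t =
      rs (t + n - k + 1) ^ 2 - rs (t + n - (k + 1 : ℕ) + 1) ^ 2 := fun k => by
    rw [ch_sq]; push_cast; congr 3 <;> ring
  rw [Finset.sum_congr rfl fun k _ => e k, h, rotp.s1 _ (by push_cast; linarith),
    rotp.s0 _ (by push_cast; linarith)]
  norm_num

theorem sum_geo {μ : ℝ} (h0 : 0 ≤ μ) (h1 : μ < 1) (s : Finset ℕ) (i : ℕ) :
    ∑ j ∈ s, μ ^ ((i : ℤ) - j).natAbs ≤ 2 * (1 - μ)⁻¹ := by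
  have hs := hasSum_geometric_of_lt_one h0 h1
  have key : ∀ (t : Finset ℕ) (f : ℕ → ℕ), Set.InjOn f t → ∑ j ∈ t, μ ^ f j ≤ (1 - μ)⁻¹ :=
    fun t f hf => by
      rw [← Finset.sum_image (f := fun n => μ ^ n) hf]
      exact sum_le_hasSum _ (fun _ _ => by positivity) hs
  rw [← Finset.sum_filter_add_sum_filter_not s (fun j => j ≤ i), two_mul]
  refine add_le_add (key _ _ fun a ha b hb e => ?_) (key _ _ fun a ha b hb e => ?_)
  · simp only [Finset.coe_filter, mem_ofPred_eq] at ha hb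
    omega
  · simp only [Finset.coe_filter, mem_ofPred_eq] at ha hb
    omega

namespace Mu
variable {A : Type*} [NormedAddCommGroup A] [InnerProductSpace ℝ A] (M : Mu A)
  {b c : ℝ → ℝ}

theorem zero : M.m 0 = 0 := by
  have := M.smul 0 Sm.one
  simpa using this

theorem neg (hb : Sm b) : M.m (-b) = -M.m b := by
  have := M.smul (-1) hb
  simpa using this

theorem sub (hb : Sm b) (hc : Sm c) : M.m (b - c) = M.m b - M.m c := by
  rw [sub_eq_add_neg, M.add hb hc.neg, M.neg hc, sub_eq_add_neg]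

theorem const (a : ℝ) : M.m (fun _ => a) = a • 1 := by
  rw [← M.one, ← M.smul a Sm.one]; congr 1; ext; simp

theorem mm (hb : Sm b) (hc : Sm c) (u : A) : M.m b (M.m c u) = M.m (b * c) u := by
  rw [M.mul hb hc]; rfl

theorem le (hb : Sm b) {a : ℝ} (h : ∀ t, |b t| ≤ a) (u : A) : ‖M.m b u‖ ≤ a * ‖u‖ :=
  (M.m b).le_of_opNorm_le (M.bd hb h) u

theorem sum {κ : Type*} (s : Finset κ) {f : κ → ℝ → ℝ} (hf : ∀ k, Sm (f k)) :
    Sm (∑ k ∈ s, f k) ∧ M.m (∑ k ∈ s, f k) = ∑ k ∈ s, M.m (f k) := by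
  classical
  induction s using Finset.induction_on with
  | empty => exact ⟨by simpa using Sm.zero, by simpa using M.zero⟩
  | insert a s ha ih =>
    rw [Finset.sum_insert ha, Finset.sum_insert ha, M.add (hf a) ih.1, ih.2]
    exact ⟨(hf a).add ih.1, rfl⟩

theorem eq_sum {n : ℕ} {u : A} (hu : ∀ b, Sm b → (∀ t : ℝ, |t| ≤ n → b t = 0) → M.m b u = 0) :
    u = ∑ k ∈ Finset.range (2 * n + 2), M.m (ch (k - n)) (M.m (ch (k - n)) u) := by
  obtain ⟨h1, h2⟩ := M.sum (Finset.range (2 * n + 2))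
    (f := fun k : ℕ => ch (k - n) * ch (k - n)) fun k => (sm_ch _).mul (sm_ch _)
  have := hu _ (Sm.one.sub h1) fun t ht => by
    simp only [Pi.sub_apply, Pi.one_apply, Finset.sum_apply, Pi.mul_apply, sum_ch n ht, sub_self]
  rw [M.sub Sm.one h1, M.one, h2] at this
  simp only [sub_apply, one_apply_eq_self, sum_apply, sub_eq_zero] at this
  rw [Finset.sum_congr rfl fun k _ => M.mm (sm_ch _) (sm_ch _) u]
  exact this

theorem sum_sq {n : ℕ} {u : A} (hu : ∀ b, Sm b → (∀ t : ℝ, |t| ≤ n → b t = 0) → M.m b u = 0) :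
    ∑ k ∈ Finset.range (2 * n + 2), ‖M.m (ch (k - n)) u‖ ^ 2 = ‖u‖ ^ 2 := by
  conv_rhs => rw [← real_inner_self_eq_norm_sq, congrArg (fun v => ⟪v, u⟫) (M.eq_sum hu)]
  simp only [sum_inner]
  exact Finset.sum_congr rfl fun k _ => by
    rw [M.sym (sm_ch _), real_inner_self_eq_norm_sq]

/-- block bounds -/
def Blk (T : A →L[ℝ] A) (a μ : ℝ) : Prop :=
  ∀ i j : ℤ, ‖M.m (ch i) * T * M.m (ch j)‖ ≤ a * μ ^ (i - j).natAbs

/-- **Schur test** -/
theorem schur {T : A →L[ℝ] A} {a μ : ℝ} (ha : 0 ≤ a) (h0 : 0 ≤ μ) (h1 : μ < 1)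
    (h : M.Blk T a μ) : ‖T‖ ≤ 2 * a * (1 - μ)⁻¹ := by
  set W := 2 * a * (1 - μ)⁻¹ with hW
  have hW0 : 0 ≤ W := by have : 0 < 1 - μ := by linarith
                         positivity
  have key : ∀ p : A × A, ⟪T p.1, p.2⟫ ≤ W / 2 * (‖p.1‖ ^ 2 + ‖p.2‖ ^ 2) := by
    intro p
    refine Dense.induction (P := fun p : A × A => ⟪T p.1, p.2⟫ ≤ W / 2 * (‖p.1‖ ^ 2 + ‖p.2‖ ^ 2))
      (M.loc.prod M.loc) ?_ (isClosed_le (by fun_prop) (by fun_prop)) p
    rintro ⟨u, v⟩ ⟨⟨n₁, hu⟩, ⟨n₂, hv⟩⟩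
    set n := max n₁ n₂
    have hu' : ∀ b, Sm b → (∀ t : ℝ, |t| ≤ n → b t = 0) → M.m b u = 0 := fun b hb h =>
      hu b hb fun t ht => h t (ht.trans (by exact_mod_cast le_max_left _ _))
    have hv' : ∀ b, Sm b → (∀ t : ℝ, |t| ≤ n → b t = 0) → M.m b v = 0 := fun b hb h =>
      hv b hb fun t ht => h t (ht.trans (by exact_mod_cast le_max_right _ _))
    set s := Finset.range (2 * n + 2)
    set U : ℕ → ℝ := fun k => ‖M.m (ch (k - n)) u‖
    set V : ℕ → ℝ := fun k => ‖M.m (ch (k - n)) v‖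
    have e : ⟪T u, v⟫ = ∑ i ∈ s, ∑ j ∈ s, ⟪(M.m (ch (i - n)) * T * M.m (ch (j - n)))
        (M.m (ch (j - n)) u), M.m (ch (i - n)) v⟫ := by
      conv_lhs => rw [M.eq_sum hu', M.eq_sum hv']
      simp only [inner_sum, map_sum, sum_inner]
      refine Finset.sum_congr rfl fun i _ => Finset.sum_congr rfl fun j _ => ?_
      rw [← M.sym (sm_ch _)]; rfl
    have b1 : ∀ i j : ℕ, ⟪(M.m (ch (i - n)) * T * M.m (ch (j - n))) (M.m (ch (j - n)) u),
        M.m (ch (i - n)) v⟫ ≤ a / 2 * (μ ^ ((j : ℤ) - i).natAbs * U j ^ 2) +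
          a / 2 * (μ ^ ((i : ℤ) - j).natAbs * V i ^ 2) := fun i j => by
      have h2 := h (i - n) (j - n)
      rw [show (i : ℤ) - n - (j - n) = i - j by ring] at h2
      rw [show ((j : ℤ) - i).natAbs = ((i : ℤ) - j).natAbs by omega]
      refine (real_inner_le_norm _ _).trans ?_
      have h3 := ContinuousLinearMap.le_of_opNorm_le _ h2 (M.m (ch (j - n)) u)
      have h4 : 0 ≤ a * μ ^ ((i : ℤ) - j).natAbs := by positivity
      have h5 := mul_le_mul_of_nonneg_right h3 (norm_nonneg (M.m (ch (i - n)) v))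
      have h6 := mul_le_mul_of_nonneg_left (two_mul_le_add_sq (U j) (V i)) h4
      simp only [U, V] at h6 ⊢
      nlinarith
    have b2 : ∀ (X : ℕ → ℝ), ∑ i ∈ s, ∑ j ∈ s, a / 2 * (μ ^ ((i : ℤ) - j).natAbs * X i ^ 2) ≤
        W / 2 * ∑ i ∈ s, X i ^ 2 := fun X => by
      rw [Finset.mul_sum]
      refine Finset.sum_le_sum fun i _ => ?_
      rw [← Finset.mul_sum, ← Finset.sum_mul]
      have := mul_le_mul_of_nonneg_right (sum_geo h0 h1 s i) (sq_nonneg (X i))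
      have := mul_le_mul_of_nonneg_left this (show 0 ≤ a / 2 by positivity)
      rw [hW]; nlinarith
    show ⟪T u, v⟫ ≤ W / 2 * (‖u‖ ^ 2 + ‖v‖ ^ 2)
    rw [e, ← M.sum_sq hu', ← M.sum_sq hv', mul_add]
    refine (Finset.sum_le_sum fun i _ => Finset.sum_le_sum fun j _ => b1 i j).trans ?_
    simp only [Finset.sum_add_distrib]
    exact add_le_add (by rw [Finset.sum_comm]; exact b2 U) (b2 V)
  refine T.opNorm_le_bound hW0 fun u => ?_
  rcases eq_or_lt_of_le (norm_nonneg (T u)) with h2 | h2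
  · rw [← h2]; positivity
  rcases eq_or_lt_of_le (norm_nonneg u) with h3 | h3
  · rw [norm_eq_zero.1 h3.symm] at h2; simp at h2
  have := key (u, (‖u‖ / ‖T u‖) • T u)
  simp only [inner_smul_right, real_inner_self_eq_norm_sq, norm_smul, norm_div, norm_norm,
    div_mul_cancel₀ _ h2.ne'] at this
  rw [show ‖u‖ / ‖T u‖ * ‖T u‖ ^ 2 = ‖T u‖ * ‖u‖ by field_simp] at this
  exact le_of_mul_le_mul_right (by nlinarith) h3

/-- all conjugates by weights of slope `≤ d` are bounded by `C` -/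
def KW (K : A →L[ℝ] A) (d C : ℝ) : Prop :=
  ∀ φ, Sm φ → Bd 0 (deriv φ) d → ‖M.m (ex φ) * K * M.m (ex (-φ))‖ ≤ C

variable {M} {K : A →L[ℝ] A} {d C : ℝ}

theorem KW.sep (h : M.KW K d C) {φ : ℝ → ℝ} (hφ : Sm φ) (hd : Bd 0 (deriv φ) d) (hb : Sm b)
    (hc : Sm c) {β γ D : ℝ} (h1 : ∀ t, |b t| ≤ β) (h2 : ∀ t, |c t| ≤ γ)
    (h3 : ∀ t, b t ≠ 0 → D ≤ φ t) (h4 : ∀ t, c t ≠ 0 → φ t ≤ 0) :
    ‖M.m b * K * M.m c‖ ≤ C * (β * γ) * exp (-D) := by
  have e1 : M.m b = M.m (b * ex (-φ)) * M.m (ex φ) := by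
    rw [← M.mul (hb.mul hφ.neg.ex) hφ.ex, mul_assoc, mul_comm (ex _), ex_mul_neg, mul_one]
  have e2 : M.m c = M.m (ex (-φ)) * M.m (ex φ * c) := by
    rw [← M.mul hφ.neg.ex (hφ.ex.mul hc), ← mul_assoc, mul_comm (ex _), ex_mul_neg, one_mul]
  have β0 : 0 ≤ β := (abs_nonneg _).trans (h1 0)
  have γ0 : 0 ≤ γ := (abs_nonneg _).trans (h2 0)
  have n1 : ‖M.m (b * ex (-φ))‖ ≤ β * exp (-D) := M.bd (hb.mul hφ.neg.ex) fun t => by
    by_cases h0 : b t = 0
    · simp only [Pi.mul_apply, h0, zero_mul, abs_zero]; positivity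
    · simp only [Pi.mul_apply, abs_mul, ex, abs_exp, Pi.neg_apply]
      exact mul_le_mul (h1 t) (exp_le_exp.2 (neg_le_neg (h3 t h0))) (exp_pos _).le β0
  have n2 : ‖M.m (ex φ * c)‖ ≤ γ := M.bd (hφ.ex.mul hc) fun t => by
    by_cases h0 : c t = 0
    · simp only [Pi.mul_apply, h0, mul_zero, abs_zero]; positivity
    · simp only [Pi.mul_apply, abs_mul, ex, abs_exp]
      exact (mul_le_mul (exp_le_one_iff.2 (h4 t h0)) (h2 t) (abs_nonneg _) zero_le_one).trans_eq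
        (one_mul _)
  have n3 := h φ hφ hd
  have C0 : 0 ≤ C := (norm_nonneg _).trans n3
  have e : M.m b * K * M.m c =
      M.m (b * ex (-φ)) * (M.m (ex φ) * K * M.m (ex (-φ))) * M.m (ex φ * c) := by
    conv_lhs => rw [e1, e2]
    simp only [mul_assoc]
  rw [e]
  refine (norm_mul_le _ _).trans ((mul_le_mul ((norm_mul_le _ _).trans
    (mul_le_mul n1 n3 (norm_nonneg _) (by positivity))) n2 (norm_nonneg _) (by positivity)).trans_eq
    (by ring))

theorem KW.norm_le (h : M.KW K d C) (hd : 0 ≤ d) : ‖K‖ ≤ C := by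
  have := h 0 Sm.zero (fun t => by simpa using hd)
  have e : ex 0 = 1 := by ext; simp [ex]
  rwa [neg_zero, e, M.one, one_mul, mul_one] at this

/-- `a` is bounded by `β` near `i` -/
def Nr (i : ℤ) (a : ℝ → ℝ) (β : ℝ) : Prop :=
  Sm a ∧ ∀ t ∈ Icc ((i : ℝ) - 1) (i + 1), |a t| ≤ β

theorem KW.blk (h : M.KW K d C) (hd : 0 ≤ d) {i j : ℤ} {β γ : ℝ} (hb : Nr i b β)
    (hc : Nr j c γ) : ‖M.m (ch i) * (M.m b * K * M.m c) * M.m (ch j)‖ ≤
      C * (β * γ) * exp (d / cS 0 * (3 - (i - j).natAbs)) := by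
  have β0 : 0 ≤ β := (abs_nonneg _).trans (hb.2 i ⟨by linarith, by linarith⟩)
  have γ0 : 0 ≤ γ := (abs_nonneg _).trans (hc.2 j ⟨by linarith, by linarith⟩)
  have cS0 : 0 < cS 0 := lt_of_lt_of_le one_pos (one_le_cS 0)
  have C0 : 0 ≤ C := (norm_nonneg _).trans (h.norm_le hd)
  have e : M.m (ch i) * (M.m b * K * M.m c) * M.m (ch j) = M.m (ch i * b) * K * M.m (c * ch j) := by
    rw [M.mul (sm_ch i) hb.1, M.mul hc.1 (sm_ch j)]; simp only [mul_assoc]
  have h1 : ∀ t, |(ch i * b) t| ≤ β := fun t => by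
    by_cases ht : t ∈ Icc ((i : ℝ) - 1) (i + 1)
    · rw [Pi.mul_apply, abs_mul]
      exact (mul_le_mul (abs_ch i t) (hb.2 t ht) (abs_nonneg _) zero_le_one).trans_eq (one_mul _)
    · simp [ch_zero ht, β0]
  have h2 : ∀ t, |(c * ch j) t| ≤ γ := fun t => by
    by_cases ht : t ∈ Icc ((j : ℝ) - 1) (j + 1)
    · rw [Pi.mul_apply, abs_mul]
      exact (mul_le_mul (hc.2 t ht) (abs_ch j t) (abs_nonneg _) γ0).trans_eq (mul_one _)
    · simp [ch_zero ht, γ0]
  have s1 : ∀ t, (ch i * b) t ≠ 0 → t ∈ Icc ((i : ℝ) - 1) (i + 1) := fun t ht => by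
    by_contra h'; exact ht (by simp [ch_zero h'])
  have s2 : ∀ t, (c * ch j) t ≠ 0 → t ∈ Icc ((j : ℝ) - 1) (j + 1) := fun t ht => by
    by_contra h'; exact ht (by simp [ch_zero h'])
  have hB := (sm_ch i).mul hb.1
  have hC := hc.1.mul (sm_ch j)
  have d0 : 0 ≤ d / cS 0 := by positivity
  have slope : ∀ {a : ℝ} {w : ℝ → ℝ}, 1 ≤ a → Bd 0 (deriv w) (a⁻¹ * cS 0) →
      Bd 0 (deriv ((d / cS 0 * a) • w)) d := fun {a w} ha hw => by
    have e : deriv ((d / cS 0 * a) • w) = (d / cS 0 * a) • deriv w := by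
      ext t; exact deriv_const_smul_field _ _
    rw [e]
    refine (hw.smul _).mono (le_of_eq ?_)
    rw [abs_of_nonneg (by positivity)]; field_simp
  rw [e]
  by_cases h3 : (i - j).natAbs ≤ 3
  · refine (h.sep Sm.zero (fun t => by simpa using hd) hB hC h1 h2 (D := 0) (fun _ _ => le_rfl)
      fun _ _ => le_rfl).trans (mul_le_mul_of_nonneg_left (exp_le_exp.2 ?_) (by positivity))
    have : ((i - j).natAbs : ℝ) ≤ 3 := by exact_mod_cast h3
    rw [neg_zero]; exact mul_nonneg d0 (by linarith)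
  set a : ℝ := (i - j).natAbs - 2 with ha
  have a1 : 1 ≤ a := by
    have : (3 : ℝ) ≤ (i - j).natAbs := by exact_mod_cast (not_le.1 h3).le
    linarith
  have fin : C * (β * γ) * exp (-(d / cS 0 * a)) ≤
      C * (β * γ) * exp (d / cS 0 * (3 - (i - j).natAbs)) :=
    mul_le_mul_of_nonneg_left (exp_le_exp.2 (by rw [ha]; nlinarith)) (by positivity)
  rcases le_total j i with hij | hij
  · have e : ((i - j).natAbs : ℝ) = i - j := by
      rw [Nat.cast_natAbs, abs_of_nonneg (by omega)]; push_cast; ring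
    refine (h.sep ((sm_up a1 (j + 1)).smul _) (slope a1 (bd_deriv_up 0 a1 _)) hB hC h1 h2
      (fun t ht => ?_) fun t ht => ?_).trans fin
    · rw [Pi.smul_apply, up_one (by linarith) (by have := (s1 t ht).1; linarith)]; simp
    · rw [Pi.smul_apply, up_zero (by linarith) (s2 t ht).2]; simp
  · have e : ((i - j).natAbs : ℝ) = j - i := by
      rw [Nat.cast_natAbs, abs_of_nonpos (by omega)]; push_cast; ring
    refine (h.sep ((sm_dn a1 (j - 1)).smul _) (slope a1 (bd_deriv_dn 0 a1 _)) hB hC h1 h2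
      (fun t ht => ?_) fun t ht => ?_).trans fin
    · rw [Pi.smul_apply, dn_one (by linarith) (by have := (s1 t ht).2; linarith)]; simp
    · rw [Pi.smul_apply, dn_zero (by linarith) (s2 t ht).1]; simp

end Mu

end Crest.Agent.X212.Dec35
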