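import Crest.Agent.X212.Dec35.Core
import Crest.Agent.X212.Hm83.Ga
import Crest.Agent.X212.Hm83.St
import Crest.Agent.X212.Hm83.Ph
import Crest.Agent.X212.Lad50.Wgt
import Crest.Agent.X212.Lad50.Row
import Crest.Agent.X212.Tr6.One
import Crest.Agent.X212.Tr6.Two
import Crest.Agent.X212.Cay24.Fix
import Crest.Agent.X212.Err63.Main
import Crest.Agent.X212.Pj41.Red

/-!
# Row 212, DEC (helper35): exponential decay on necks, assembled
-/

set_option autoImplicit false
noncomputable section
open scoped Manifold ContDiff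

namespace Crest.Agent.X212.Dec35

variable {E3 : Type} [NormedAddCommGroup E3] [NormedSpace ℝ E3] [FiniteDimensional ℝ E3]
  [MeasurableSpace E3] [BorelSpace E3]
  {H3 : Type} [TopologicalSpace H3] {I3 : ModelWithCorners ℝ E3 H3} [I3.Boundaryless]
  {Y : Type} [TopologicalSpace Y] [ChartedSpace H3 Y] [IsManifold I3 ∞ Y] [T2Space Y]
  [MeasurableSpace Y] [BorelSpace Y] [SecondCountableTopology Y] [CompactSpace Y]
  {κ : Type} [Fintype κ] {lam : Type} [Fintype lam]

theorem coreStmt : CoreStmt I3 Y κ lam :=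
  core Hm83.ga Lad50.Wg.wgt Lad50.Rw.rowS Hm83.st Tr6.tr1 Tr6.tr2 Err63.errStmt Hm83.phs

/-- **DEC** -/
theorem dec : DecStmt I3 Y κ lam := Pj41.red coreStmt Cay24.fix

end Crest.Agent.X212.Dec35
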