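import Crest.Agent.X212.Dec35.Nat

/-!
# Row 212, DEC (helper35): preparations for the continuity argument
-/

set_option autoImplicit false
set_option linter.unusedSectionVars false
noncomputable section
open scoped Manifold ContDiff Topology InnerProductSpace
open MeasureTheory Set Function Filter Real

namespace Crest.Agent.X212.Dec35
open An Map77 Sob92 Nd18 Cyf70
open Tmp64 (Eq0)
open Neck67 (up dn up_zero up_one dn_zero dn_one)

section gen
variable {E : Type} [NormedAddCommGroup E] [NormedSpace ℝ E] [FiniteDimensional ℝ E]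
  [MeasurableSpace E] [BorelSpace E]
  {HM : Type} [TopologicalSpace HM] {I : ModelWithCorners ℝ E HM} [I.Boundaryless]
  {M : Type} [TopologicalSpace M] [ChartedSpace HM M] [IsManifold I ∞ M] [MeasurableSpace M]
  [T2Space M] [BorelSpace M] [SecondCountableTopology M] {ι : Type} [Fintype ι]
  {V : Type} [NormedAddCommGroup V] [InnerProductSpace ℝ V] [FiniteDimensional ℝ V]

/-- change of the weight -/
theorem nw_wt (F : Fr I M ι) (D : ℕ → ℝ) (A : ℝ) (k : ℕ) : ∃ K ≥ 0, ∀ (ψ ψ' : M → ℝ) (d d' : ℝ),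
    Wd F.toPre ψ d D → Wd F.toPre ψ' d' D → (∀ x, ψ' x ≤ ψ x + A) → ∀ u : M → V, Fl F.toPre u →
      nw F.toPre k ψ' u ≤ K * nw F.toPre k ψ u := by
  obtain ⟨K, h0, hK⟩ := CB_exp (I := I) (M := M) (ι := ι) 1 (fun j => D j + |D j|) k
  refine ⟨cK ι k * |(K * |exp A|)|, mul_nonneg (cK_nonneg _) (abs_nonneg _),
    fun ψ ψ' d d' h h' hA u hu => ?_⟩
  have s : Sm I (ψ' - ψ) := h'.sm.sub h.sm
  have := nrm_smul (sm_exp s 1) (h.fl hu).sm (hK F (ψ' - ψ) (exp A) s (fun a => ?_) fun x => ?_)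
    ((h.fl hu).fl k)
  · simp only [smul_smul, ← exp_add, one_mul, Pi.sub_apply, sub_add_cancel] at this
    exact this
  · have e : F.D a (ψ' - ψ) = F.D a ψ' + -F.D a ψ := funext fun x => by
      rw [F.D_def, dv_sub (h'.sm.mdifferentiableAt (by simp)) (h.sm.mdifferentiableAt (by simp))]
      exact sub_eq_add_neg _ _
    rw [e]
    exact ⟨(h'.der a).1.add (h.der a).1.neg, fun j => CB_add (h'.der a).1 (h.der a).1.neg
      ((h'.der a).2 j) (CB_neg (h.der a).1 ((h.der a).2 j))⟩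
  · exact exp_le_exp.2 (by simp only [Pi.sub_apply]; linarith [hA x])

end gen

variable {E3 : Type} [NormedAddCommGroup E3] [NormedSpace ℝ E3] [FiniteDimensional ℝ E3]
  [MeasurableSpace E3] [BorelSpace E3]
  {H3 : Type} [TopologicalSpace H3] {I3 : ModelWithCorners ℝ E3 H3} [I3.Boundaryless]
  {Y : Type} [TopologicalSpace Y] [ChartedSpace H3 Y] [IsManifold I3 ∞ Y] [T2Space Y]
  [MeasurableSpace Y] [BorelSpace Y] [SecondCountableTopology Y] [CompactSpace Y]
  {κ : Type} [Fintype κ] {lam : Type} [Fintype lam]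
  {V : Type} [NormedAddCommGroup V] [InnerProductSpace ℝ V] [FiniteDimensional ℝ V]
  {D : YD I3 Y κ lam} {β : YC Y κ lam} {τ : Pt (Y × ℝ) (Option κ) lam 0 0}

/-- weighted norms for weights which depend on time only -/
abbrev nz (D : YD I3 Y κ lam) (k : ℕ) (ψ : ℝ → ℝ) (u : Y × ℝ → V) : ℝ :=
  nw D.Z.toPre k (fun x => ψ x.2) u

/-- weights which depend on time only -/
abbrev Wz (D : YD I3 Y κ lam) (ψ : ℝ → ℝ) (d : ℝ) (Dd : ℕ → ℝ) : Prop :=
  Wd D.Z.toPre (fun x => ψ x.2) d Dd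

theorem sl_nonneg (u : Y × ℝ → V) (t : ℝ) : 0 ≤ sl D u t := sqrt_nonneg _

theorem slice_bd (hD : D.OK) {n : Y → V} (hn : Sm I3 n) (Dd : ℕ → ℝ) : ∃ K ≥ 0, ∀ ψ d, Wz D ψ d Dd →
    ∀ u : Y × ℝ → V, Fl D.Z.toPre u → ∀ t, exp (ψ t) * sl D u t ≤ K * nz D 4 ψ u ∧
      exp (ψ t) * |row D n u t| ≤ K * nz D 4 ψ u := by
  obtain ⟨C, hC⟩ := tame_Z hD
  obtain ⟨K, h0, hK⟩ := Dw_le (V := V) hC Dd 0
  obtain ⟨A, hA⟩ := Cb_of_compact (F := D.F.toPre) hn
  have v := vl_nonneg (D := D)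
  refine ⟨vl D * K + vl D ^ 2 * |A 0| * K, by positivity, fun ψ d h u hu t => ?_⟩
  have n0 : 0 ≤ nz D 4 ψ u := nw_nonneg _ _
  have b : ∀ y, ‖u (y, t)‖ ≤ K * exp (-ψ t) * nz D 4 ψ u := fun y => hK _ d h u hu [] le_rfl (y, t)
  have e : exp (ψ t) * exp (-ψ t) = 1 := by rw [← exp_add]; simp
  have h1 := mul_le_mul_of_nonneg_left (sl_le (D := D) (by positivity) b) (exp_pos (ψ t)).le
  have h2 := mul_le_mul_of_nonneg_left (row_le (D := D)
    (fun y => (CB_bound (hA.2 0) y).trans (le_abs_self _)) b) (exp_pos (ψ t)).le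
  have p1 : 0 ≤ vl D * K * nz D 4 ψ u := by positivity
  have p2 : 0 ≤ vl D ^ 2 * |A 0| * K * nz D 4 ψ u := by positivity
  constructor
  · calc _ ≤ _ := h1
      _ = vl D * K * nz D 4 ψ u * (exp (ψ t) * exp (-ψ t)) := by ring
      _ ≤ _ := by rw [e]; linarith
  · calc _ ≤ _ := h2
      _ = vl D ^ 2 * |A 0| * K * nz D 4 ψ u * (exp (ψ t) * exp (-ψ t)) := by ring
      _ ≤ _ := by rw [e]; linarith

/-- the phase at a slice is bounded by the weighted norm -/
theorem phase_bd (hP : PhStmt I3 Y κ lam) (hD : D.OK) (hβ : D.Adm β) (hc : PreconnectedSpace Y)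
    {n : Y → Cv (cy β)} {ν : ℝ} (hn : Rw D β n ν) (Dd : ℕ → ℝ) : ∃ θ₀ > 0, ∃ K ≥ 0, ∀ ψ d, Wz D ψ d Dd →
      ∀ (a u : Cz β) (h : Y × ℝ → En (Fin β.m.N)) (t θ : ℝ), Vr D β a → Vr D β u →
        Eq0 D.Z (cf (cy β) a) (cf (cy β) u) univ h → (∀ y, a (y, t) = rot (cy β) (fun _ => θ) 0 (y, t)) →
        nz D 4 ψ u ≤ 1 → |θ| ≤ θ₀ → (ν = 0 → θ = 0) → exp (ψ t) * |θ| ≤ K * nz D 4 ψ u := by
  obtain ⟨K, h0, hK⟩ := hP D β hD hβ hc n ν hn
  obtain ⟨S, s0, hS⟩ := slice_bd hD hn.sm Dd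
  refine ⟨(4 * K + 1)⁻¹, by positivity, 2 * S + 4 * K * S ^ 2, by positivity,
    fun ψ d hw a u h t θ ha hu e ht h1 h2 h3 => ?_⟩
  have n0 : 0 ≤ nz D 4 ψ u := nw_nonneg _ _
  rcases hn.alt with rfl | ⟨rfl, -⟩
  swap
  · rw [h3 rfl, abs_zero, mul_zero]; positivity
  have k := hK a u h t θ ha.fl.sm hu.fl.sm ha.tg hu.tg e ht
  obtain ⟨s1, s2⟩ := hS ψ d hw u hu.fl t
  rw [one_mul] at k
  have e1 : 1 ≤ exp (ψ t) := one_le_exp (hw.nn (Classical.choice ?_, t))
  · have p := sl_nonneg (D := D) u t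
    have a1 : 4 * K * |θ| ≤ 1 := by
      have := mul_le_mul_of_nonneg_left h2 (by positivity : 0 ≤ 4 * K + 1)
      rw [mul_inv_cancel₀ (by positivity)] at this
      nlinarith [abs_nonneg θ]
    have a2 : |θ| ≤ 2 * |row D n u t| + 4 * K * sl D u t ^ 2 := by
      have := abs_sub_abs_le_abs_sub θ (row D n u t)
      rw [abs_sub_comm] at this
      have q : K * (sl D u t + |θ|) ^ 2 ≤ K * (2 * sl D u t ^ 2 + 2 * |θ| ^ 2) :=
        mul_le_mul_of_nonneg_left (by nlinarith [sq_nonneg (sl D u t - |θ|)]) h0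
      nlinarith [abs_nonneg θ]
    have a3 : sl D u t ≤ S := by nlinarith
    have a4 : exp (ψ t) * sl D u t * sl D u t ≤ S * nz D 4 ψ u * S :=
      mul_le_mul s1 a3 p (by positivity)
    nlinarith [mul_le_mul_of_nonneg_left a2 (exp_pos (ψ t)).le, mul_le_mul_of_nonneg_left a4 h0]
  · by_contra hY
    rw [not_nonempty_iff] at hY
    simpa [integral_of_isEmpty] using hn.J

theorem fl_sz (hD : D.OK) (hβ : D.Adm β) (h0 : sz D β τ 0 = 0) {l ν : ℝ} {K Kt n}
    (hL : Lz D β τ l K Kt n ν) {u : Cz β} (hu : Vr D β u) : Fl D.Z.toPre (sz D β τ u) := by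
  have b := bs_cyl hD hβ
  obtain ⟨C, hC, g⟩ := b.good_lin
  have e : sz D β τ u = lin D.B D.Z (cy β) u + (fun x => qd D.B (cy β) x (u x) (u x)) -
      (te τ (cy β) u - te τ (cy β) 0) := funext fun x => by
    have := se_eq hD.B hD.G hβ.adm τ hu.fl.sm hu.tg x
    rw [show se D.B D.G τ (cy β) 0 x = 0 from congrFun h0 x, zero_add] at this
    exact this
  rw [e]
  exact ((hu.fl.opA g).add (hu.fl.app (Cb_app b.cb_qd (hu.fl.cb hC)))).sub (hL.fl u hu).2.2.2

/-! ### the cut family -/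

variable {v : Cz β} {th : ℝ → ℝ} {L p q c t : ℝ}

theorem chi_zero (h : t ≤ p ∨ q ≤ t) : chi p q t = 0 := by
  rcases h with h | h
  · rw [chi, up_zero one_pos h, zero_mul]
  · rw [chi, dn_zero one_pos h, mul_zero]

theorem chi_one (h : p + 1 ≤ t) (h' : t ≤ q - 1) : chi p q t = 1 := by
  rw [chi, up_one one_pos h, dn_one one_pos h', one_mul]

theorem ret_one (hL : 0 < L) (h : p ≤ t) (h' : t ≤ q) : ret L p q t = 1 := by
  rw [ret, up_one hL (by linarith), dn_one hL (by linarith), one_mul]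

theorem ret_zero (hL : 0 < L) (h : t ≤ p - L ∨ q + L ≤ t) : ret L p q t = 0 := by
  rcases h with h | h
  · rw [ret, up_zero hL h, zero_mul]
  · rw [ret, dn_zero hL h, mul_zero]

theorem Xc_slice (h : t ≤ p ∨ q ≤ t) (y : Y) :
    Xc v th L p q c (y, t) = rot (cy β) (fun _ => Th th L p q c t) 0 (y, t) :=
  rot_congr rfl (by simp [chi_zero h])

theorem Th_p (hL : 0 < L) (h : p ≤ q) : Th th L p q c p = c := by
  simp [Th, ret_one hL le_rfl h, vth]

theorem Th_q (hL : 0 < L) (h : p ≤ q) : Th th L p q c q = c + vth th p q q := by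
  simp [Th, ret_one hL h le_rfl]

theorem Th_out (hL : 0 < L) (h : t ≤ p - L ∨ q + L ≤ t) : Th th L p q c t = 0 := by
  simp [Th, ret_zero hL h]

theorem Xc_add (hβ : D.Adm β) (a : ℝ) :
    rot (cy β) (fun x => ret L p q x.2 * a) (Xc v th L p q c) = Xc v th L p q (c + a) := by
  rw [Xc, rot_rot hβ.adm.ok.Jsq, Xc]
  congr 1; funext x; simp only [Th]; ring

theorem vth_self : vth th p p = 0 := funext fun t => by simp [vth, chi_zero (le_total _ p)]

theorem Xc_base : Xc v th L p p 0 = 0 := by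
  simp only [Xc, Th, vth_self, chi_zero (le_total _ p), zero_smul, Pi.zero_apply, add_zero, mul_zero]
  exact rot_zero

theorem vth_mid (hs : ContDiff ℝ ∞ th) (h : p + 1 ≤ t) (h' : t ≤ q - 1) :
    vth th p q t = th t + (vth th p q (p + 1) - th (p + 1)) := by
  have c : Continuous fun s => chi p q s * deriv th s :=
    (((Neck67.sm_up le_rfl p).mul (Neck67.sm_dn le_rfl q)).cd.continuous).mul
      (Neck67.cd_deriv hs).continuous
  have e := intervalIntegral.integral_add_adjacent_intervals (μ := volume)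
    (c.intervalIntegrable p (p + 1)) (c.intervalIntegrable (p + 1) t)
  have e' : ∫ s in p + 1..t, chi p q s * deriv th s = th t - th (p + 1) := by
    rw [← intervalIntegral.integral_deriv_eq_sub (fun x _ => Neck67.cd_diff hs x)
      ((Neck67.cd_deriv hs).continuous.intervalIntegrable _ _)]
    refine intervalIntegral.integral_congr fun s hs => ?_
    rw [uIcc_of_le h] at hs
    simp only [chi_one hs.1 (hs.2.trans h'), one_mul]
  simp only [vth]
  linarith

theorem Inp.mono {γ η q' : ℝ} {k k₁ k₂ : ℕ} (h : Inp D β τ γ k k₁ η v th p q) (hγ : 0 < γ)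
    (h1 : p + 2 ≤ q') (h2 : q' ≤ q) (hk : k₂ ≤ k₁) : Inp D β τ γ k k₂ η v th p q' :=
  ⟨h1, h.vb, CB_of_le h.v1 hk, h.sm, h.cb, h.t1.of_le hk, fun t ht =>
    (h.df t ⟨ht.1, ht.2.trans h2⟩).mono le_rfl (mul_le_mul_of_nonneg_left (exp_le_exp.2 (by
      have : min (t - p) (q' - t) ≤ min (t - p) (q - t) := min_le_min le_rfl (by linarith)
      nlinarith)) h.t1.nonneg)⟩

theorem tent_p (hL : 0 ≤ L) (h : p ≤ q) : tent L p q p = L := by
  rw [tent, sub_self, min_eq_left (by linarith), add_zero, max_eq_right hL]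

theorem tent_q (hL : 0 ≤ L) (h : p ≤ q) : tent L p q q = L := by
  rw [tent, sub_self, min_eq_right (by linarith), add_zero, max_eq_right hL]

theorem tent_le {q' : ℝ} (h' : q' ≤ q + 2) : tent L p q' t ≤ tent L p q t + 2 := by
  have h1 := le_max_left 0 (L + min (t - p) (q - t))
  have h2 := le_max_right 0 (L + min (t - p) (q - t))
  have h3 : min (t - p) (q' - t) ≤ min (t - p) (q - t) + 2 := by
    rw [← min_add_add_right]; exact min_le_min (by linarith) (by linarith)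
  exact max_le (by rw [tent]; linarith) (by rw [tent]; linarith)

end Crest.Agent.X212.Dec35
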