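import Crest.Agent.X212.Loc8.Wld

/-!
# Row 212, SB TOP-c (helper35): the square of a closed two-form behind a thin cut
-/

set_option autoImplicit false
set_option linter.unusedSectionVars false
noncomputable section
open scoped Manifold ContDiff Topology InnerProductSpace Matrix
open MeasureTheory Function Filter Set Module
open Crest.Agent.R208.F (Ext)
open Crest.Agent.R208.FI (IsDeg)

namespace Crest.Agent.X212.Dec35
open An Int54 Qab60 Loc8
open Num57 hiding c1 c2 en
open Dr59 (SmAt dM df Dg Cl Ex Cs ip cut HZ Lat)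

section gen
variable {E : Type} [NormedAddCommGroup E] [NormedSpace ℝ E] [FiniteDimensional ℝ E]
  [MeasurableSpace E] [BorelSpace E]
  {H : Type} [TopologicalSpace H] {I : ModelWithCorners ℝ E H} [I.Boundaryless]
  {N : Type} [TopologicalSpace N] [ChartedSpace H N] [IsManifold I ∞ N]
  [MeasurableSpace N] [BorelSpace N] [SecondCountableTopology N] [T2Space N]
  {ι : Type} [Fintype ι] {F : Fr I N ι} {O u v : N → Ext E} {g : N → ℝ} {K U B C P : Set N} {c : ℝ}

theorem ind_in {β : Type*} [Zero β] (hP : IsClopen P) (f : N → β) {x : N} (hx : x ∈ P) :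
    P.indicator f =ᶠ[𝓝 x] f :=
  eventually_of_mem (hP.2.mem_nhds hx) fun _ hy => indicator_of_mem hy f

theorem ind_out {β : Type*} [Zero β] (hP : IsClopen P) (f : N → β) {x : N} (hx : x ∉ P) :
    P.indicator f =ᶠ[𝓝 x] fun _ => 0 :=
  eventually_of_mem (hP.1.isOpen_compl.mem_nhds hx) fun _ hy => indicator_of_notMem hy f

theorem sm_ind (hP : IsClopen P) (hg : Sm I g) : Sm I (P.indicator g) := fun x => by
  by_cases hx : x ∈ P
  exacts [(hg x).congr_of_eventuallyEq (ind_in hP g hx),
    contMDiffAt_const.congr_of_eventuallyEq (ind_out hP g hx)]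

theorem df_ind (hP : IsClopen P) {x : N} (hx : x ∈ P) : df I (P.indicator g) x = df I g x := by
  rw [df, df, Dr59.mf_congr (ind_in hP g hx)]

theorem cl_ind {k : ℕ} (hP : IsClopen P) (hU : IsOpen U) (hu : Cl I k (P ∩ U) u) :
    Cl I k U (P.indicator u) :=
  Dr59.cl_of_loc fun x e => by
    by_cases hx : x ∈ P
    exacts [⟨P ∩ U, ⟨hx, e⟩, hu.congr (hP.2.inter hU) fun _ hy => indicator_of_mem hy.1 _⟩,
      ⟨Pᶜ, hx, Dr59.Cl.zero.congr hP.1.isOpen_compl fun _ hy => indicator_of_notMem hy _⟩]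

/-- a thin cut restricted to a union of components -/
theorem thin_ind (h : Thin O F g K c) (hP : IsClopen P) : Thin O F (P.indicator g) (P ∩ K) c := by
  refine ⟨h.hO, sm_ind hP h.sm, h.cpt.inter_left hP.1, fun x hx => ?_, h.c0, fun a ha => ?_⟩
  · by_cases k : x ∈ P
    exacts [(df_ind hP k).trans (h.off x fun k' => hx ⟨k, k'⟩), Dr59.df_eq_zero (ind_out hP g k)]
  have ha' : Fo I 1 (P.indicator a) := ⟨fun x => ?_, fun x => ?_⟩
  · have e1 : df I (P.indicator g) * (a * dM I a) =
        df I g * (P.indicator a * dM I (P.indicator a)) := funext fun x => by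
      simp only [Pi.mul_apply]
      by_cases k : x ∈ P
      · rw [df_ind hP k, indicator_of_mem k, Dr59.dM_congr (ind_in hP a k)]
      · rw [Dr59.df_eq_zero (ind_out hP g k), indicator_of_notMem k, zero_mul, zero_mul, mul_zero]
    have e2 : en F K (dM I (P.indicator a)) = en F (P ∩ K) (dM I a) := by
      rw [en, en, inter_comm, ← setIntegral_indicator hP.1.measurableSet]
      refine congrArg _ (funext fun x => ?_)
      by_cases k : x ∈ P
      · rw [indicator_of_mem k, c2_congr (Dr59.dM_congr (ind_in hP a k))]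
      · rw [indicator_of_notMem k, c2_of_zero ((Dr59.dM_congr (ind_out hP a k)).trans
          (congrFun Dr59.dM_zero x)), norm_zero, zero_pow two_ne_zero]
    rw [e1, ← e2]
    exact h.bd _ ha'
  · by_cases k : x ∈ P
    exacts [(ha.sm x).congr (ind_in hP a k), Dr59.cAt_zero.congr (ind_out hP a k)]
  · by_cases k : x ∈ P
    · rw [indicator_of_mem k]; exact ha.dg x
    · rw [indicator_of_notMem k]; exact IsDeg.zero

theorem thin_mul {g' : N → ℝ} {K' : Set N} (h : Thin O F g K c) (h' : Thin O F g' K' c)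
    (hd : Disjoint K K') (h1 : ∀ x ∈ K, g' x = 1) (h2 : ∀ x ∈ K', g x = 1) :
    Thin O F (g * g') (K ∪ K') c :=
  (h.add_disj h' hd).congr (h.sm.mul h'.sm) (ε := 1) (by simp) fun x => by
    rw [df_mul' h.sm h'.sm, one_smul, Dr59.df_add (h.sm x) (h'.sm x)]
    congr 1
    · by_cases k : x ∈ K
      · rw [h1 x k, one_smul]
      · rw [h.off x k, smul_zero]
    · by_cases k : x ∈ K'
      · rw [h2 x k, one_smul]
      · rw [h'.off x k, smul_zero]

theorem lc_mul {g' : N → ℝ} {K' : Set N} (h : Lc g K) (h' : Lc g' K') : Lc (g * g') (K ∪ K') :=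
  fun x hx => (h x fun k => hx (.inl k)).mul (h' x fun k => hx (.inr k))

theorem ex_two (hU : IsOpen U) (hB : IsOpen B) (hd : Disjoint U B) (h : Ex I U u) (h' : Ex I B u) :
    Ex I (U ∪ B) u :=
  let ⟨_, p1, p2⟩ := h
  let ⟨_, q1, q2⟩ := h'
  Dr59.ex_glue hU hB p1 q1 (fun _ hx => (disjoint_left.1 hd hx.1 hx.2).elim) p2 q2

/-- the square behind the cut `g` is the square of any localisation further inside -/
theorem loc_v (h : Thin O F g K c) (hc : HasCompactSupport g) (hU : IsOpen U) (hg : tsupport g ⊆ U)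
    (hK : K ⊆ U) (hu : Dg 2 U u) (hv : Cl I 2 U v) (hx : Ex I U (u - v)) (z : ∀ x ∈ K, v x = 0)
    (h1 : ∀ x, v x ≠ 0 → g x = 1) : |integ I O (g • (u * u)) - ip I O v v| ≤ c * en F K u := by
  obtain ⟨a, a1, a2, a3⟩ := hx.deg (k := 1) (hu.sub hv.dg)
  have := h.loc_id hc hU hg hK hv a1 a2 (f := u) (fun x k => by rw [a3 x k, Pi.sub_apply]; abel) z
  rwa [show g • (v * v) = v * v from funext fun x => by
    by_cases k : v x = 0
    · simp [k]
    · rw [Pi.smul_apply', h1 x k, one_smul]] at this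

/-- the localisation -/
theorem exists_v (hP : IsOpen P) (hu : Cl I 2 P u) (hg : Sm I g) (hl : Lc g K) (hK : P ∩ K ⊆ B)
    (hx : Ex I (P ∩ B) u) (hC : IsCompact C) (hs : C ⊆ P)
    (h0 : ∀ x ∈ P, x ∉ C → g =ᶠ[𝓝 x] 0) (hU : U ⊆ P) (h1 : ∀ x ∈ U, x ∉ B → g x = 1) :
    ∃ v, Cs I 2 C v ∧ Ex I U (u - v) := by
  obtain ⟨b, b1, b2, b3⟩ := hx.deg (k := 1) fun x k => hu.dg x k.1
  refine ⟨P.indicator (cut I g u b), Dr59.cs_indicator hP (Dr59.Cf.cl_cut (W := P ∩ B)
    ⟨fun x _ => hg x, fun x k k' => ⟨_, hl x fun e => k' ⟨k, hK ⟨k, e⟩⟩⟩⟩ hu b1 b2 fun x _ => b3 x) hC hs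
    fun x k k' => Dr59.cut_eq_zero (h0 x k k'), ?_⟩
  refine (Dr59.Cz.ex_cut (χ := 1 - g) (W := P ∩ B) ⟨fun x _ => contMDiffAt_const.sub (hg x),
    fun x k k' => (hl x fun e => k' ⟨hU k, hK ⟨hU k, e⟩⟩).mono fun y hy => ?_⟩ b1
    fun x _ => b3 x).congr fun x k => ?_
  · simp [hy, h1 x k fun e => k' ⟨hU k, e⟩]
  · simp only [Pi.sub_apply, indicator_of_mem (hU k), Dr59.cut_apply, Dr59.df_one_sub (hg x),
      Pi.one_apply, sub_smul, one_smul, neg_mul]
    abel

end gen

/-- a step inside the window `[s, s']` with slope at most `δ`; it is `1` on the side `b` -/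
structure Stp (b : Bool) (s s' δ : ℝ) (θ : ℝ → ℝ) : Prop where
  sm : ContDiff ℝ ∞ θ
  lo : ∀ r ≤ s, θ r = cond b 0 1
  hi : ∀ r ≥ s', θ r = cond b 1 0
  bd : ∀ r, |deriv θ r| ≤ δ

variable {b : Bool} {s s' δ : ℝ} {θ : ℝ → ℝ}

theorem Stp.lc (h : Stp b s s' δ θ) : Lc θ (Icc s s') := fun r hr => by
  rcases not_and_or.1 hr with k | k
  · exact (eventually_lt_nhds (not_le.1 k)).mono fun y hy =>
      (h.lo y hy.le).trans (h.lo r (not_le.1 k).le).symm
  · exact (eventually_gt_nhds (not_le.1 k)).mono fun y hy =>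
      (h.hi y hy.le).trans (h.hi r (not_le.1 k).le).symm

theorem Stp.d0 (h : Stp b s s' δ θ) : 0 ≤ δ := (abs_nonneg _).trans (h.bd 0)

theorem Stp.lt (h : Stp b s s' δ θ) : s < s' := not_le.1 fun k => by
  have := (h.lo s le_rfl).symm.trans (h.hi s k)
  cases b <;> simp at this

/-- unit windows -/
theorem exists_stp : ∃ δ, ∀ b s, ∃ θ, Stp b s (s + 1) δ θ ∧ ∀ r, θ r ∈ Icc (0 : ℝ) 1 := by
  have sm : ContDiff ℝ ∞ Real.smoothTransition := Real.smoothTransition.contDiff
  have l : Lc Real.smoothTransition (Icc 0 1) := fun r hr => by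
    rcases not_and_or.1 hr with k | k
    · exact (eventually_lt_nhds (not_le.1 k)).mono fun y hy =>
        (Real.smoothTransition.zero_of_nonpos hy.le).trans
          (Real.smoothTransition.zero_of_nonpos (not_le.1 k).le).symm
    · exact (eventually_gt_nhds (not_le.1 k)).mono fun y hy =>
        (Real.smoothTransition.one_of_one_le hy.le).trans
          (Real.smoothTransition.one_of_one_le (not_le.1 k).le).symm
  obtain ⟨δ, hδ⟩ := (sm.continuous_deriv (by simp)).bounded_above_of_compact_support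
    (.intro isCompact_Icc fun r hr => l.deriv hr)
  have d : ∀ s r, deriv (fun r => Real.smoothTransition (r - s)) r =
      deriv Real.smoothTransition (r - s) := fun s r => deriv_comp_sub_const _ _ _
  have sm' : ∀ s, ContDiff ℝ ∞ fun r => Real.smoothTransition (r - s) := fun s =>
    sm.comp (contDiff_id.sub contDiff_const)
  refine ⟨δ, fun b s => ?_⟩
  cases b
  · refine ⟨fun r => 1 - Real.smoothTransition (r - s), ⟨contDiff_const.sub (sm' s), fun r hr => ?_,
      fun r hr => ?_, fun r => ?_⟩, fun r => ⟨sub_nonneg.2 (Real.smoothTransition.le_one _),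
      sub_le_self _ (Real.smoothTransition.nonneg _)⟩⟩
    · simp [Real.smoothTransition.zero_of_nonpos (sub_nonpos.2 hr)]
    · simp [Real.smoothTransition.one_of_one_le (le_sub_iff_add_le'.2 hr)]
    · rw [deriv_const_sub, abs_neg, d]; exact hδ _
  · exact ⟨fun r => Real.smoothTransition (r - s), ⟨sm' s,
      fun r hr => Real.smoothTransition.zero_of_nonpos (sub_nonpos.2 hr),
      fun r hr => Real.smoothTransition.one_of_one_le (le_sub_iff_add_le'.2 hr),
      fun r => by rw [d]; exact hδ _⟩,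
      fun r => ⟨Real.smoothTransition.nonneg _, Real.smoothTransition.le_one _⟩⟩

end Crest.Agent.X212.Dec35
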