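import Crest.Agent.X212.Dec35.ScA

/-!
# Row 212, SB TOP-c (helper35): the part of a piece between two homology spheres
-/

set_option autoImplicit false
set_option linter.unusedSectionVars false
noncomputable section
open scoped Manifold ContDiff Topology InnerProductSpace Matrix
open MeasureTheory Function Filter Set Module
open Crest.Agent.R208.F (Ext)
open Crest.Agent.R208.FI (IsDeg)

namespace Crest.Agent.X212.Dec35
open An Int54 Qab60 Loc8
open Num57 hiding c1 c2 en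
open Dr59 (SmAt dM df Dg Cl Ex Cs ip cut HZ Lat)
open Cyf70 (IC)
open M Cyl58 Cht98

section prof
variable {t s s' δ r : ℝ} {b : Bool} {θ : ℝ → ℝ}

theorem mono_len (ht : t < 1) : StrictMono (len t false) := fun _ _ k =>
  strictMonoOn_len t false (.inl ht) (.inl ht) k

theorem sm_len (ht : t < 1) : ContDiff ℝ ∞ (len t false) := contDiff_iff_contDiffAt.2 fun _ =>
  (contDiffOn_len t false).contDiffAt ((isOpen_dom t false).mem_nhds (.inl ht))

theorem len_le (ht : t < 1) (h : r ≤ -1) : len t false r ≤ 0 :=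
  ((mono_len ht).monotone h).trans_eq (by simpa [pm] using len_pm t false)

theorem le_len (ht : t < 1) (h : 1 ≤ r) : nl t ≤ len t false r := (mono_len ht).monotone h

theorem win_sub (ht : t < 1) (h0 : 0 < s) (h1 : s' < nl t) (h : len t false r ∈ Icc s s') :
    r ∈ Ioo (-1 : ℝ) 1 :=
  ⟨not_le.1 fun k => by linarith [len_le ht k, h.1], not_le.1 fun k => by linarith [le_len ht k, h.2]⟩

theorem Stp.one (h : Stp b s s' δ θ) (ht : t < 1) (h0 : 0 < s) (h1 : s' < nl t) (k : 1 ≤ pm b * r) :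
    θ (len t false r) = 1 := by
  cases b
  · exact h.lo _ ((len_le ht (by simp [pm] at k; linarith)).trans h0.le)
  · exact h.hi _ (h1.le.trans (le_len ht (by simpa [pm] using k)))

theorem Stp.zero (h : Stp b s s' δ θ) (ht : t < 1) (h0 : 0 < s) (h1 : s' < nl t)
    (k : pm b * r ≤ -1) : θ (len t false r) = 0 := by
  cases b
  · exact h.hi _ (h1.le.trans (le_len ht (by simp [pm] at k; linarith)))
  · exact h.lo _ ((len_le ht (by simpa [pm] using k)).trans h0.le)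

end prof

variable {X : Mf 4} {A κ : Type} [Fintype A] [Fintype κ] {M : Mark X A κ}

theorem hz_band {a : A} (h : HZ (M.bn a).Y.I 2 (univ : Set (M.bn a).Y.M)) :
    HZ X.I 2 (M.sys.w a).band := by
  have k := (Dr59.hz_oe (M.bn a).oe.loc (M.bn a).oe.inj isOpen_univ).2
    (univ_prod_univ ▸ h.prod_convex isOpen_univ isOpen_univ (convex_univ (E := ℝ)))
  rwa [image_univ] at k

section caps
variable (C : Caps M) {c : M.Cl} {a a' : A} {b b' : Bool} (ha : a ∈ M.sys.fr c.1)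
include ha

theorem hb_far {z : (C.Z c).M} (h : -3 < hb C c a b z) (k : z ∉ C.φ c '' (M.sys.w a).band) :
    3 ≤ hb C c a b z := not_lt.1 fun k3 =>
  let ⟨x, x1, _, x2⟩ := exists_of_hb C ha (abs_lt.2 ⟨h, k3⟩); k ⟨x, x1, x2⟩

theorem hb_side {x : X.M} (hx : x ∉ M.sys.cores c.1) (h : x ∈ (M.sys.w a).sd b)
    (k : x ∉ (M.sys.w a).band) : 3 ≤ hb C c a b (C.φ c x) :=
  hb_far C ha (by linarith [(hb_pos C ha hx).2 h]) fun ⟨_, y1, y2⟩ =>
    k (caps_inj C (Mark.fr_not_mem ha y1) hx y2 ▸ y1)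

theorem hb_not (z : (C.Z c).M) : hb C c a (!b) z = -hb C c a b z := by
  cases b <;> simp [hb, pm]

theorem ex_band (h : HZ (M.bn a).Y.I 2 (univ : Set (M.bn a).Y.M)) {u : (C.Z c).M → Ext (C.Z c).E}
    (hu : Cl (C.Z c).I 2 (C.φ c '' (M.sys.w a).band) u) :
    Ex (C.Z c).I (C.φ c '' (M.sys.w a).band) u :=
  Dr59.ex_pd _ (M.sys.w a).op_band (band_src C ha) (hz_band h _
    (hu.pm (Dr59.pd_mp _ (band_src C ha))))

theorem op_band : IsOpen (C.φ c '' (M.sys.w a).band) :=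
  Dr59.pd_open _ (M.sys.w a).op_band (band_src C ha)

theorem op_rt : IsOpen ({z | -3 < hb C c a b z} ∪ C.φ c '' (M.sys.w a).band) :=
  (isOpen_lt continuous_const (sm_hb C ha b).continuous).union (op_band C ha)

theorem sub_rt {π : Reg A} (hπ : M.sys.Piece c.1 π) :
    C.pc c π ∩ ({z | -3 < hb C c a b z} ∪ C.φ c '' (M.sys.w a).band) ⊆
      oz C c (M.sys.U π ∩ ((M.sys.w a).sd b ∪ (M.sys.w a).band)) := by
  refine sub_oz C ((isOpen_pc C hπ).inter (op_rt C ha)) fun z hz => ?_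
  obtain ⟨x, hx, rfl⟩ := (caps_surj C z).resolve_right hz.2
  refine ⟨x, ⟨(φ_mem_pc _ hπ hx).1 hz.1.1, ?_⟩, rfl⟩
  by_cases k : C.φ c x ∈ C.φ c '' (M.sys.w a).band
  · obtain ⟨y, y1, y2⟩ := k
    exact .inr (caps_inj C (Mark.fr_not_mem ha y1) hx y2 ▸ y1)
  · exact .inl ((hb_pos C ha hx).1 (lt_of_lt_of_le (by norm_num)
      (hb_far C ha (hz.1.2.resolve_right k) k)))

/-- right of all cylindrical ends -/
theorem cpt_right (h : ∀ a' ∈ c.1, ¬M.pin a' → (M.sys.w a').band ⊆ (M.sys.w a).sd false) :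
    IsCompact {z | -1 ≤ hb C c a true z} := by
  refine (isCompact_thick C (c := c) one_pos).of_isClosed_subset
    (isClosed_le continuous_const (sm_hb C ha true).continuous) ?_
  rintro _ hz ⟨x, hx, rfl⟩
  obtain ⟨a', ha', q, hq, rfl⟩ := mem_iUnion₂.1 hx
  have k := hb_side C ha (Mark.j_not_mem c (.inl ⟨ha'.1, hq.2.1⟩)) (h a' ha'.1 ha'.2 ⟨q, rfl⟩)
    fun e => Mark.not_cmp e ⟨q, rfl⟩ (ha.2 a' ha'.1)
  have k' := hb_not C ha (b := true) (C.φ c ((M.bn a').j q))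
  rw [Bool.not_true] at k'
  linarith [show -1 ≤ hb C c a true _ from hz]

end caps

variable (W : World M) (m : M.Cl) (c : M.Cl) (p : Prm A)

/-- arc length along the neck -/
def ar (a : A) (z : (W.Z c).M) : ℝ := len (p.2 a) false (hZ W.toCaps c a z)

/-- a window of the neck -/
def win (a : A) (s s' : ℝ) : Set (W.Z c).M := ar W c p a ⁻¹' Icc s s'

/-- the cut-off function of the part of the piece `π` between `h` and `b` -/
def eta (π : Reg A) (h b : A) (θ θ' : ℝ → ℝ) : (W.Z c).M → ℝ :=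
  (W.pc c π).indicator ((fun z => θ (ar W c p h z)) * fun z => θ' (ar W c p b z))

/-- a step on the neck `a` -/
structure Sw (r : ℝ) (a : A) (b : Bool) (s s' δ : ℝ) (θ : ℝ → ℝ) : Prop where
  lk : Lk c p r a
  st : Stp b s s' δ θ
  lo : 0 < s
  hi : s' < nl (p.2 a)

variable {c p} {r s s' δ cs : ℝ} {a : A} {b : Bool} {θ : ℝ → ℝ}

theorem sm_ar (h : Lk c p r a) : Sm (W.Z c).I (ar W c p a) :=
  (sm_len (h.O a h.fr)).contMDiff.comp (sm_hZ _ (.inr h.fr))

namespace Sw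
variable (h : Sw c p r a b s s' δ θ)
include h

theorem sm : Sm (W.Z c).I fun z => θ (ar W c p a z) := h.st.sm.contMDiff.comp (sm_ar W h.lk)

theorem one {z : (W.Z c).M} (k : 1 ≤ hb W.toCaps c a b z) : θ (ar W c p a z) = 1 :=
  h.st.one (h.lk.O a h.lk.fr) h.lo h.hi k

theorem zero {z : (W.Z c).M} (k : hb W.toCaps c a b z ≤ -1) : θ (ar W c p a z) = 0 :=
  h.st.zero (h.lk.O a h.lk.fr) h.lo h.hi k

theorem sub {z : (W.Z c).M} (k : z ∈ win W c p a s s') : |hZ W.toCaps c a z| < 1 :=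
  abs_lt.2 (win_sub (h.lk.O a h.lk.fr) h.lo h.hi k)

theorem thin (hc : YC M a cs) : Thin (W.o c) (W.F m c p) (fun z => θ (ar W c p a z))
    (win W c p a s s') (cs * δ) := by
  obtain ⟨h0, o, ho, hs, hc⟩ := hc
  have ht := h.lk.O a h.lk.fr
  have nm := fun q => Mark.j_not_mem c (q := q) (.inr h.lk.fr)
  have hl := (sm_len ht).continuous
  have l1 := h.st.lc.comp hl
  have t : tsupport (deriv fun r => θ (len (p.2 a) false r)) ⊆ len (p.2 a) false ⁻¹' Icc s s' :=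
    closure_minimal (fun s hs => by_contra fun k => hs (l1.deriv k)) (isClosed_Icc.preimage hl)
  have t1 : ∀ r, len (p.2 a) false r ∈ Icc s s' → r ∈ Ioo (-1 : ℝ) 1 := fun _ => win_sub ht h.lo h.hi
  have cp : ∀ {T : Set ℝ}, IsClosed T → T ⊆ len (p.2 a) false ⁻¹' Icc s s' → IsCompact T :=
    fun k k' => (isCompact_Icc (a := -1) (b := 1)).of_isClosed_subset k fun r hr =>
      Ioo_subset_Icc_self (t1 r (k' hr))
  have ch := (sm_ar W h.lk).continuous
  have e : ∀ q : (M.bn a).Y.M × ℝ, q.2 ∈ Ioo (-1 : ℝ) 1 →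
      ar W c p a (W.nj c a q) = len (p.2 a) false q.2 := fun q hq =>
    congrArg _ (hZ_nj _ (.inr h.lk.fr) (nm q) ((abs_lt.2 hq).le.trans (by norm_num)))
  have z := fun x k => Dr59.df_eq_zero (I := (W.Z c).I) ((h.st.lc.comp ch) x k)
  have ex := fun x (k : x ∈ win W c p a s s') =>
    exists_of_hZ W.toCaps (.inr h.lk.fr) ((h.sub W k).trans (by norm_num))
  refine Loc8.thin (h.lk.bnd W m) (M.bn a).Y.dim (M.gvol a) ((W.L m c).F_vol p) ho
    ⟨h.sm W, h.st.sm.comp (sm_len ht), cp (isClosed_tsupport _) t, fun s k => t1 s (t k),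
      fun q hq => congrArg θ (e q hq), fun x hx => z x fun k => hx
        (let ⟨_, _, hy⟩ := ex x k; ⟨_, ⟨trivial, t1 (hZ W.toCaps c a x) k⟩, hy⟩)⟩ (W.ori c)
    ((hs.mono (subset_univ _)).trans fun q _ => W.same_nj (nm q)) hc h0 h.st.d0 (fun r _ => ?_)
    ((cpt_band (h.lk.bnd W m) (cp (isClosed_Icc.preimage hl) subset_rfl) t1).of_isClosed_subset
      (isClosed_Icc.preimage ch) fun x k => let ⟨_, _, hy⟩ := ex x k;
        ⟨(_, hZ W.toCaps c a x), ⟨trivial, k⟩, hy⟩) ?_ z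
  · have d : HasDerivAt (fun r => θ (len (p.2 a) false r))
        (deriv θ (len (p.2 a) false r) * (sig (p.2 a) r)⁻¹) r :=
      (h.st.sm.differentiable (by simp) _).hasDerivAt.comp r (hasDerivAt_len (.inl ht))
    have k := sig_pos (t := p.2 a) (s := r) (.inl ht)
    change |deriv (fun r => θ (len (p.2 a) false r)) r| * _ ≤ _
    rw [d.deriv, abs_mul, abs_of_pos (inv_pos.2 k), inv_mul_cancel_right₀ k.ne', mul_one]
    exact h.st.bd _
  · rintro _ ⟨q, hq, rfl⟩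
    rw [win, mem_preimage, e q (t1 _ (t hq.2))]
    exact t hq.2

theorem band {z : (W.Z c).M} (k : z ∈ win W c p a s s') : z ∈ W.φ c '' (M.sys.w a).band :=
  let ⟨x, x1, _, x2⟩ := exists_of_hb W.toCaps h.lk.fr (b := b) (z := z)
    (by rw [abs_hb _ h.lk.fr]; linarith [h.sub W k]); ⟨x, x1, x2⟩

theorem lt {z : (W.Z c).M} (k : z ∈ win W c p a s s') : |hb W.toCaps c a b z| < 1 := by
  rw [abs_hb _ h.lk.fr]; exact h.sub W k

end Sw

variable (c p) in
/-- steps on two necks, `h` on the left of `b`; all cylindrical ends are on the left of `h` -/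
structure Tw (r : ℝ) (h b : A) (s s' t t' δ : ℝ) (θ θ' : ℝ → ℝ) : Prop where
  H : Sw c p r h true s s' δ θ
  B : Sw c p r b false t t' δ θ'
  cmp : M.sys.Cmp h b
  hb : (M.sys.w h).band ⊆ (M.sys.w b).sd false
  bh : (M.sys.w b).band ⊆ (M.sys.w h).sd true
  rt : ∀ a ∈ c.1, ¬M.pin a → (M.sys.w a).band ⊆ (M.sys.w h).sd false

theorem diag_form {ι : Type*} [Fintype ι] [DecidableEq ι] {d : ι → ℝ}
    (hd : (Matrix.diagonal d).det ≠ 0) (x : ι → ℝ) :
    x ⬝ᵥ (Matrix.diagonal d)⁻¹ *ᵥ x = ∑ n, x n ^ 2 / d n := by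
  rw [Matrix.det_diagonal, Finset.prod_ne_zero_iff] at hd
  rw [Matrix.inv_eq_right_inv (B := Matrix.diagonal fun n => (d n)⁻¹) (by
    rw [Matrix.diagonal_mul_diagonal, ← Matrix.diagonal_one]
    exact congrArg _ (funext fun n => mul_inv_cancel₀ (hd n (Finset.mem_univ n))))]
  simp only [dotProduct, Matrix.mulVec_diagonal]
  exact Finset.sum_congr rfl fun n _ => by ring

namespace Tw
variable {h b : A} {t t' : ℝ} {θ' : ℝ → ℝ} {π : Reg A} (T : Tw c p r h b s s' t t' δ θ θ')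
include T

theorem far_b {z : (W.Z c).M} (k : z ∈ W.φ c '' (M.sys.w h).band) :
    3 ≤ Loc8.hb W.toCaps c b false z := by
  obtain ⟨x, hx, rfl⟩ := k
  exact hb_side _ T.B.lk.fr (Mark.fr_not_mem T.H.lk.fr hx) (T.hb hx) (disjoint_left.1 T.cmp hx)

theorem far_h {z : (W.Z c).M} (k : z ∈ W.φ c '' (M.sys.w b).band) :
    3 ≤ Loc8.hb W.toCaps c h true z := by
  obtain ⟨x, hx, rfl⟩ := k
  exact hb_side _ T.H.lk.fr (Mark.fr_not_mem T.B.lk.fr hx) (T.bh hx) (disjoint_right.1 T.cmp hx)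

theorem dj : Disjoint (W.φ c '' (M.sys.w h).band) (W.φ c '' (M.sys.w b).band) :=
  disjoint_image_image fun _ hx _ hy e => disjoint_left.1 T.cmp hx
    (W.inj (Mark.fr_not_mem T.H.lk.fr hx) (Mark.fr_not_mem T.B.lk.fr hy) e ▸ hy)

theorem dj_win : Disjoint (win W c p h s s') (win W c p b t t') :=
  (T.dj W).mono (fun _ => T.H.band W) fun _ => T.B.band W

theorem sm_eta (hπ : M.sys.Piece c.1 π) : Sm (W.Z c).I (eta W c p π h b θ θ') :=
  sm_ind (isClopen_pc _ hπ) ((T.H.sm W).mul (T.B.sm W))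

theorem supp_eta (hπ : M.sys.Piece c.1 π) : tsupport (eta W c p π h b θ θ') ⊆
    W.pc c π ∩ {z | -1 ≤ Loc8.hb W.toCaps c h true z} ∩ {z | -1 ≤ Loc8.hb W.toCaps c b false z} := by
  refine closure_minimal (fun z hz => ?_) (((isClopen_pc _ hπ).1.inter (isClosed_le continuous_const
    (sm_hb _ T.H.lk.fr _).continuous)).inter
    (isClosed_le continuous_const (sm_hb _ T.B.lk.fr _).continuous))
  have k : z ∈ W.pc c π := by_contra fun k => hz (indicator_of_notMem k _)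
  rw [mem_support, eta, indicator_of_mem k, Pi.mul_apply, mul_ne_zero_iff] at hz
  exact ⟨⟨k, (not_le.1 fun e => hz.1 (T.H.zero W e)).le⟩, (not_le.1 fun e => hz.2 (T.B.zero W e)).le⟩

theorem hcs_eta (hπ : M.sys.Piece c.1 π) : HasCompactSupport (eta W c p π h b θ θ') :=
  (cpt_right _ T.H.lk.fr T.rt).of_isClosed_subset (isClosed_tsupport _) fun _ k =>
    (T.supp_eta W hπ k).1.2

theorem thin (hπ : M.sys.Piece c.1 π) (ch : YC M h cs) (cb : YC M b cs) :
    Thin (W.o c) (W.F m c p) (eta W c p π h b θ θ')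
      (W.pc c π ∩ (win W c p h s s' ∪ win W c p b t t')) (cs * δ) :=
  thin_ind (thin_mul (T.H.thin W m ch) (T.B.thin W m cb) (T.dj_win W)
    (fun _ k => T.B.one W (le_trans (by norm_num) (T.far_b W (T.H.band W k))))
    fun _ k => T.H.one W (le_trans (by norm_num) (T.far_h W (T.B.band W k)))) (isClopen_pc _ hπ)

/-- **TOP-c** -/
theorem topc (hπ : M.sys.Piece c.1 π) (ch : YC M h cs) (cb : YC M b cs)
    (zh : HZ (M.bn h).Y.I 2 (univ : Set (M.bn h).Y.M)) (zb : HZ (M.bn b).Y.I 2 (univ : Set (M.bn b).Y.M))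
    {ι : Type*} [Fintype ι] [DecidableEq ι] {K : Set X.M} {e : ι → X.M → Ext X.E} {d : ι → ℝ}
    (hL : Lat X.I M.o (M.sys.U π ∩ (M.sys.w h).sd true ∩ (M.sys.w b).sd false) K e (Matrix.diagonal d))
    {u : (W.Z c).M → Ext (W.Z c).E} (hu : Cl (W.Z c).I 2
      (oz W.toCaps c (M.sys.U π ∩ ((M.sys.w h).sd true ∪ (M.sys.w h).band))) u) :
    |integ (W.Z c).I (W.o c) (eta W c p π h b θ θ' • (u * u)) -
      ∑ n, ip X.I M.o (pX W.toCaps c u) (e n) ^ 2 / d n| ≤ cs * δ *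
      en (W.F m c p) (W.pc c π ∩ (win W c p h s s' ∪ win W c p b t t')) u := by
  have hP := isClopen_pc W.toCaps hπ
  have fh := T.H.lk.fr
  have fb := T.B.lk.fr
  have ch' := (sm_hb W.toCaps fh true).continuous
  have cb' := (sm_hb W.toCaps fb false).continuous
  obtain ⟨δ₀, k⟩ := exists_stp
  obtain ⟨χ, hχ, -⟩ := k true 1
  replace hu := hu.mono (sub_rt _ fh hπ)
  have oQ := op_rt W.toCaps fh (b := true)
  have u' := cl_ind hP oQ hu
  have bd : ∀ {a b z}, a ∈ M.sys.fr c.1 → Loc8.hb W.toCaps c a b z ∈ Icc (1 : ℝ) (1 + 1) →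
      z ∈ W.φ c '' (M.sys.w a).band := fun ha hz =>
    let ⟨x, x1, _, x2⟩ := exists_of_hb _ ha (abs_lt.2 ⟨by linarith [hz.1], by linarith [hz.2]⟩)
    ⟨x, x1, x2⟩
  obtain ⟨v, v1, v2⟩ := exists_v (B := W.φ c '' (M.sys.w h).band ∪ W.φ c '' (M.sys.w b).band)
    (C := W.pc c π ∩ {z | 1 ≤ Loc8.hb W.toCaps c h true z} ∩ {z | 1 ≤ Loc8.hb W.toCaps c b false z})
    (U := W.pc c π ∩ {z | -3 < Loc8.hb W.toCaps c h true z} ∩ {z | -3 < Loc8.hb W.toCaps c b false z})
    (g := (fun z => χ (Loc8.hb W.toCaps c h true z)) * fun z => χ (Loc8.hb W.toCaps c b false z))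
    (hP.2.inter oQ) hu
    ((hχ.sm.contMDiff.comp (sm_hb _ fh true)).mul (hχ.sm.contMDiff.comp (sm_hb _ fb false)))
    (lc_mul (hχ.lc.comp ch') (hχ.lc.comp cb')) (fun _ k => k.2.imp (bd fh) (bd fb))
    (((ex_two (op_band _ fh) (op_band _ fb) (T.dj W) (ex_band _ fh zh (u'.mono subset_union_right))
      (ex_band _ fb zb (u'.mono fun _ k => .inl (lt_of_lt_of_le (by norm_num) (T.far_h W k))))).mono
      inter_subset_right).congr fun _ k => (indicator_of_mem k.1.1 _).symm)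
    ((cpt_right _ fh T.rt).of_isClosed_subset ((hP.1.inter (isClosed_le continuous_const ch')).inter
      (isClosed_le continuous_const cb')) fun z k =>
        le_trans (b := 1) (show (-1 : ℝ) ≤ 1 by norm_num) k.1.2)
    (fun _ k => ⟨k.1.1, .inl (lt_of_lt_of_le (b := 1) (show (-3 : ℝ) < 1 by norm_num) k.1.2)⟩)
    (fun z k k' => by
      by_cases e : 1 ≤ Loc8.hb W.toCaps c h true z
      · exact ((cb'.tendsto z).eventually (eventually_lt_nhds (not_le.1 fun e' =>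
          k' ⟨⟨k.1, e⟩, e'⟩))).mono fun y hy => mul_eq_zero_of_right _ (hχ.lo _ hy.le)
      · exact ((ch'.tendsto z).eventually (eventually_lt_nhds (not_le.1 e))).mono fun y hy =>
          mul_eq_zero_of_left (hχ.lo _ hy.le) _)
    (fun _ k => ⟨k.1.1, .inl k.1.2⟩) fun z k k' => (congrArg₂ (· * ·)
      (hχ.hi _ (le_trans (by norm_num) (hb_far _ fh k.1.2 fun e => k' (.inl e))))
      (hχ.hi _ (le_trans (by norm_num) (hb_far _ fb k.2 fun e => k' (.inr e))))).trans (mul_one _)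
  have o : ∀ ρ : ℝ, IsOpen (W.pc c π ∩ {z | ρ < Loc8.hb W.toCaps c h true z} ∩
      {z | ρ < Loc8.hb W.toCaps c b false z}) := fun ρ =>
    (hP.2.inter (isOpen_lt continuous_const ch')).inter (isOpen_lt continuous_const cb')
  have k1 := loc_v (T.thin W m hπ ch cb) (T.hcs_eta W hπ) (o (-3)) (fun z k => by
      obtain ⟨⟨k1, k2⟩, k3⟩ := T.supp_eta W hπ k
      exact ⟨⟨k1, lt_of_lt_of_le (b := -1) (show (-3 : ℝ) < -1 by norm_num) k2⟩,
        lt_of_lt_of_le (b := -1) (show (-3 : ℝ) < -1 by norm_num) k3⟩)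
    (fun z k => k.2.elim (fun e => ⟨⟨k.1, lt_trans (by norm_num) (abs_lt.1 (T.H.lt W e)).1⟩,
        lt_of_lt_of_le (by norm_num) (T.far_b W (T.H.band W e))⟩)
      fun e => ⟨⟨k.1, lt_of_lt_of_le (by norm_num) (T.far_h W (T.B.band W e))⟩,
        lt_trans (by norm_num) (abs_lt.1 (T.B.lt W e)).1⟩)
    (fun x k => hu.dg x ⟨k.1.1, .inl k.1.2⟩) (v1.on _) v2
    (fun z k => v1.eq_zero fun e => k.2.elim (fun k => (abs_lt.1 (T.H.lt W k)).2.not_ge e.1.2)
      fun k => (abs_lt.1 (T.B.lt W k)).2.not_ge e.2) fun z k => by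
      have e := by_contra fun e => k (v1.eq_zero e)
      rw [eta, indicator_of_mem e.1.1, Pi.mul_apply, T.H.one W e.1.2, T.B.one W e.2, mul_one]
  have s1 : M.sys.U π ∩ (M.sys.w h).sd true ∩ (M.sys.w b).sd false ⊆ (W.φ c).source :=
    fun _ k => U_src _ hπ k.1.1
  have n3 : (-3 : ℝ) < 0 := by norm_num
  have p1 : (0 : ℝ) < 1 := one_pos
  rwa [pair W.toCaps (o 0) (diff_ctr _ s1 fun x hx => by
      rw [mem_inter_iff, mem_inter_iff, φ_mem_pc _ hπ hx]
      exact and_congr (and_congr_right fun _ => hb_pos _ fh hx) (hb_pos _ fb hx)) s1 hL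
    (hu.sm.mono fun _ k => ⟨k.1.1, .inl (n3.trans k.1.2)⟩) (v1.mono fun _ k =>
      ⟨⟨k.1.1, p1.trans_le k.1.2⟩, p1.trans_le k.2⟩)
    (v2.mono fun _ k => ⟨⟨k.1.1, n3.trans k.1.2⟩, n3.trans k.2⟩), diag_form hL.det] at k1

end Tw

end Crest.Agent.X212.Dec35
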