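import Crest.Agent.X212.Dec35.ScB

/-!
# Row 212, SB TOP-c (helper35): the level behind the cut
-/

set_option autoImplicit false
set_option linter.unusedSectionVars false
noncomputable section
open scoped Manifold ContDiff Topology InnerProductSpace Matrix
open MeasureTheory Function Filter Set Module
open Crest.Agent.R208.F (Ext)

namespace Crest.Agent.X212.Dec35
open An Int54 Qab60 Loc8
open Num57 hiding c1 c2 en
open Dr59 (Cl ip HZ Lat)
open M Cyl58 Cht98

variable {X : Mf 4} {A κ : Type} [Fintype A] [Fintype κ] {M : Mark X A κ} (W : World M) (m : M.Cl)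
  {c : M.Cl} {p : Prm A} {r s s' t t' δ cs : ℝ} {θ θ' : ℝ → ℝ} {h b : A} {π : Reg A}

/-- active walls on opposite sides of each other are compatible -/
theorem cmp_of (hp : p.2 ∈ M.sys.Par) (hh : 1 / 2 ≤ p.2 h) (hb : 1 / 2 ≤ p.2 b)
    (h1 : (M.sys.w h).band ⊆ (M.sys.w b).sd false) (h2 : (M.sys.w b).band ⊆ (M.sys.w h).sd true) :
    M.sys.Cmp h b := hp.2 (show p.2 h ≠ 0 by linarith) (show p.2 b ≠ 0 by linarith) fun e => by
  subst e
  obtain ⟨x, hx⟩ := (M.sys.w h).ne true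
  exact disjoint_left.1 (M.sys.w h).dj (h2 hx.1) (h1 hx.1)

theorem lev_arith {a₁ a₂ a₃ c : ℝ} (k : -(16 * Real.pi ^ 2) * a₂ - a₁ ≤ c * (a₃ / 4)) :
    -(a₁ / (4 * Real.pi ^ 2)) / 4 ≤ a₂ + c / (64 * Real.pi ^ 2) * a₃ := by
  have p0 : 0 < Real.pi ^ 2 := by positivity
  rw [← sub_nonneg, show a₂ + c / (64 * Real.pi ^ 2) * a₃ - -(a₁ / (4 * Real.pi ^ 2)) / 4 =
    (c * (a₃ / 4) - (-(16 * Real.pi ^ 2) * a₂ - a₁)) / (16 * Real.pi ^ 2) by field_simp; ring]
  exact div_nonneg (sub_nonneg.2 k) (by positivity)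

theorem Tw.lev (T : Tw c p r h b s s' t t' δ θ θ') (hπ : M.sys.Piece c.1 π) (ch : YC M h cs)
    (cb : YC M b cs) (zh : HZ (M.bn h).Y.I 2 (univ : Set (M.bn h).Y.M))
    (zb : HZ (M.bn b).Y.I 2 (univ : Set (M.bn b).Y.M))
    {ι : Type*} [Fintype ι] [DecidableEq ι] {K : Set X.M} {e : ι → X.M → Ext X.E} {d : ι → ℝ}
    (hL : Lat X.I M.o (M.sys.U π ∩ (M.sys.w h).sd true ∩ (M.sys.w b).sd false) K e (Matrix.diagonal d))
    {o : Option κ → Option κ → Option κ → Option κ → (W.Z c).M → ℝ} (hF : OK (W.F m c p) o)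
    (ho : SameOn (W.o c) (vol (W.F m c p) o) univ) {u : (W.Z c).M → Ext (W.Z c).E}
    {φ ψ kd : (W.Z c).M → ℝ} (D : Den (W.F m c p) o
      (oz W.toCaps c (M.sys.U π ∩ ((M.sys.w h).sd true ∪ (M.sys.w h).band))) u (fun z => φ z / 4) ψ)
    (hk : ∀ z, ψ z - φ z / 4 / 2 = -(16 * Real.pi ^ 2) * kd z) :
    -(∑ n, (ip X.I M.o (pX W.toCaps c u) (e n) / (2 * Real.pi)) ^ 2 / d n) / 4 ≤
      ∫ z in W.pc c π, θ (ar W c p h z) * θ' (ar W c p b z) * kd z ∂(W.F m c p).μ +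
      cs * δ / (64 * Real.pi ^ 2) *
        ∫ z in W.pc c π ∩ (win W c p h s s' ∪ win W c p b t t'), φ z ∂(W.F m c p).μ := by
  have k := (abs_le.1 (T.topc W m hπ ch cb zh zb hL D.cl)).2
  have fh := T.H.lk.fr
  have n3 : (-3 : ℝ) < -1 := by norm_num
  have hP := isClopen_pc W.toCaps hπ
  rw [integ_congr_ori (W.ori c) hF.ori ho, integ_sq hF _ fun z _ => D.dg z,
    show (fun z => eta W c p π h b θ θ' z * (‖hs (W.F m c p) o z (c2 (W.F m c p) u z)‖ ^ 2 -
      ‖c2 (W.F m c p) u z‖ ^ 2 / 2)) = (W.pc c π).indicator fun z => -(16 * Real.pi ^ 2) *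
        (θ (ar W c p h z) * θ' (ar W c p b z) * kd z) from funext fun z => ?_,
    integral_indicator hP.1.measurableSet, integral_const_mul, en,
    setIntegral_congr_fun (g := fun z => φ z / 4) (T.thin W m hπ ch cb).cpt.measurableSet
      fun z hz => D.e1 z (sub_rt _ fh hπ ⟨hz.1, hz.2.elim (fun e => .inr (T.H.band W e))
        fun e => .inl (lt_of_lt_of_le (by norm_num) (T.far_h W (T.B.band W e)))⟩),
    integral_div] at k
  · have e1 : ∑ n, (ip X.I M.o (pX W.toCaps c u) (e n) / (2 * Real.pi)) ^ 2 / d n =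
        (∑ n, ip X.I M.o (pX W.toCaps c u) (e n) ^ 2 / d n) / (4 * Real.pi ^ 2) := by
      rw [Finset.sum_div]
      exact Finset.sum_congr rfl fun n _ => by ring
    rw [e1]
    exact lev_arith k
  · by_cases e : eta W c p π h b θ θ' z = 0
    · rw [e, zero_mul]
      by_cases e' : z ∈ W.pc c π
      · rw [eta, indicator_of_mem e', Pi.mul_apply] at e
        rw [indicator_of_mem e', e, zero_mul, mul_zero]
      · rw [indicator_of_notMem e']
    · have e' := T.supp_eta W hπ (subset_tsupport _ e)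
      have e2 := sub_rt _ fh hπ ⟨e'.1.1, .inl (n3.trans_le e'.1.2)⟩
      rw [D.e1 z e2, D.e2 z e2, hk, eta, indicator_of_mem e'.1.1, indicator_of_mem e'.1.1, Pi.mul_apply]
      ring

end Crest.Agent.X212.Dec35
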