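import Crest.Agent.X212.Dec35.Fl
import Crest.Agent.X212.Mon62.Hyp
import Crest.Agent.X212.Mon62.RE

/-!
# Row 212, KP-TW (helper35): the Banach model over a family of weights
-/

set_option autoImplicit false
set_option linter.unusedSectionVars false
set_option maxSynthPendingDepth 3
noncomputable section
open scoped Manifold ContDiff Topology InnerProductSpace
open MeasureTheory Set Function Filter Real

namespace Crest.Agent.X212.Dec35
open An Sob92 Hm83 Mon62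
open Nk89 (wt wt_wt WtP cW cT cW_nonneg)
open Ell97 (UB)

variable {E : Type} [NormedAddCommGroup E] [NormedSpace ℝ E] [FiniteDimensional ℝ E]
  [MeasurableSpace E] [BorelSpace E]
  {HM : Type} [TopologicalSpace HM] {I : ModelWithCorners ℝ E HM} [I.Boundaryless]
  {M : Type} [TopologicalSpace M] [ChartedSpace HM M] [IsManifold I ∞ M] [MeasurableSpace M]
  [T2Space M] [BorelSpace M] [SecondCountableTopology M] {ι : Type} [Fintype ι]
  {N : Type} [NormedAddCommGroup N] [NormedSpace ℝ N]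
  {V W : Type} [NormedAddCommGroup V] [InnerProductSpace ℝ V] [FiniteDimensional ℝ V]
  [NormedAddCommGroup W] [InnerProductSpace ℝ W] [FiniteDimensional ℝ W]
  {F F' : Fr I M ι} {C D : ℕ → ℝ} {ψ : M → ℝ} {d : ℝ}

theorem ML_of_le {μ ν : Measure M} {c : NNReal} (h : ν ≤ c • μ) (k : ℕ) : ∀ {u : M → N},
    ML I F.e μ k u → ML I F.e ν k u := by
  have h0 : ∀ {u : M → N}, MemLp u 2 μ → MemLp u 2 ν := fun hu =>
    (hu.smul_measure (c := (c : ENNReal)) ENNReal.coe_ne_top).mono_measure h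
  induction k with
  | zero => exact h0
  | succ k ih => exact fun hu => ⟨h0 hu.1, fun a => ih (hu.2 a)⟩

theorem nrm_exp_fl (h : WtP F.toPre F'.toPre ψ) (hF : F'.Tame C)
    (hD : ∀ a, F.CBs (F.D a ψ) D) (k : ℕ) : ∀ {u : M → V}, Fl F'.toPre u →
      F.nrm k (fun x => exp (ψ x) • u x) ≤ cW ι D k * F'.nrm k u := by
  induction k with
  | zero => intro u _; rw [h.nrm_zero, cW, one_mul]
  | succ k ih =>
    intro u hu
    refine (Prm93.nrm_succ_le k _).trans ?_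
    rw [← h.nrm_zero, cW, add_mul, one_mul]
    refine add_le_add (nrm_mono (Nat.zero_le _) u) ?_
    have hs : ∀ a, Fl F'.toPre fun x => F.D a ψ x • u x := fun a =>
      hu.smul (h.Cb.2 ⟨_, hD a⟩)
    have hd : ∀ a, Fl F'.toPre (F.D a u) := fun a => h.D a u ▸ hu.D a
    refine (Finset.sum_le_card_nsmul _ _ (cW ι D k * (1 + cK ι k * |D k|) * F'.nrm (k + 1) u)
      fun a _ => ?_).trans (by simp [mul_assoc])
    rw [Nk89.D_exp_smul F.toPre h.sm hu.sm]
    refine (ih (u := F.D a u + fun x => F.D a ψ x • u x) ((hd a).add (hs a))).trans ?_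
    rw [mul_assoc]
    refine mul_le_mul_of_nonneg_left ((nrm_add hF (hd a) (hs a) k).trans ?_) (cW_nonneg D k)
    rw [add_mul, one_mul]
    refine add_le_add (h.D a u ▸ nrm_D_le k u a) ((nrm_smul (hD a).1 hu.sm (h.CB.2 ((hD a).2 k))
      (hu.fl k)).trans ?_)
    have := cK_nonneg (ι := ι) k
    exact mul_le_mul_of_nonneg_left (nrm_mono (Nat.le_succ k) u) (by positivity)

theorem fl_of_val (hF : F.Tame C) {g : M → W}
    (h : ∀ j, 8 ≤ j → ∃ y : F.H j (triv M W), F.val j _ y = g) : Fl F.toPre g := by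
  have sm : Sm I g := contMDiff_infty.2 fun n => by
    obtain ⟨y, rfl⟩ := h (n + 8) (by omega)
    exact contMDiff_val (Sup.of_tame hF) (by omega) y
  refine ⟨sm, fun k => ?_⟩
  obtain ⟨y, rfl⟩ := h (k + 8) (by omega)
  exact ((Is.val (Sup.of_tame hF) (by omega) y).incl (Nat.le_add_right k 8)).FL sm

namespace Wd
variable (h : Wd F.toPre ψ d D)

/-- the weighted frame -/
abbrev fr : Fr I M ι := wt F ψ h.sm

theorem wp : WtP F.toPre h.fr.toPre ψ := (wt_wt F h.sm).toWtP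

theorem tame (hF : F.Tame C) : h.fr.Tame (cT ι C D) := (wt_wt F h.sm).tame hF h.nn h.der

theorem fl_fr {u : M → N} (hu : Fl F.toPre u) : Fl h.fr.toPre u :=
  let ⟨_, hA⟩ := h.bd
  ⟨hu.sm, fun k => ML_of_le (F := F) (Nk89.wm_le hA) k (hu.fl k)⟩

theorem fl_of {u : M → N} (hu : Fl h.fr.toPre u) : Fl F.toPre u :=
  ⟨hu.sm, fun k => ML_mono_measure (F := F.toPre) (Nk89.le_wm h.nn) k (hu.fl k)⟩

theorem nw_le (hF : F.Tame C) {u : M → V} (hu : Fl F.toPre u) (k : ℕ) :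
    nw F.toPre k ψ u ≤ cW ι D k * h.fr.nrm k u :=
  nrm_exp_fl h.wp (h.tame hF) h.der k (h.fl_fr hu)

theorem le_nw (hF : F.Tame C) {u : M → V} (hu : Fl F.toPre u) (k : ℕ) :
    h.fr.nrm k u ≤ cW ι D k * nw F.toPre k ψ u := by
  have := nrm_exp_fl h.wp.symm hF (h.wp.CBs_neg h.der) k (h.fl hu)
  simp only [smul_smul, Pi.neg_apply, ← exp_add, neg_add_cancel, exp_zero, one_smul,
    WtP.cW_abs] at this
  exact this

end Wd

variable (F) in
/-- the smooth points -/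
abbrev Sp (p : M → V →L[ℝ] V) : Type := {u : M → V // Fl F.toPre u ∧ ∀ x, p x (u x) = u x}

namespace Sp
variable {p : M → V →L[ℝ] V}

/-- the origin -/
def o : Sp F p := ⟨0, Fl.zero, fun _ => map_zero _⟩

/-- multiples -/
def sc (c : ℝ) (u : Sp F p) : Sp F p :=
  ⟨c • u.1, u.2.1.csmul c, fun x => by simp only [Pi.smul_apply, map_smul, u.2.2]⟩

/-- sums -/
def ad (u v : Sp F p) : Sp F p :=
  ⟨u.1 + v.1, u.2.1.add v.2.1, fun x => by simp only [Pi.add_apply, map_add, u.2.2, v.2.2]⟩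

variable (hF : F.Tame C) (h : Wd F.toPre ψ d D) (j : ℕ)

include hF in
theorem ex (u : Sp F p) : ∃ g : h.fr.H j p, Is h.fr.toPre j p g u.1 :=
  exists_Is (Exh.of_tame (h.tame hF)) u.2.1.sm ((h.fl_fr u.2.1).fl j) u.2.2

/-- the point of the weighted Sobolev space -/
def pt (u : Sp F p) : h.fr.H j p := (ex hF h j u).choose

theorem is (u : Sp F p) : Is h.fr.toPre j p (pt hF h j u) u.1 := (ex hF h j u).choose_spec

theorem pt_o : pt hF h j (o : Sp F p) = 0 := (is hF h j o).unique Is.zero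

theorem pt_sc (c : ℝ) (u : Sp F p) : pt hF h j (sc c u) = c • pt hF h j u :=
  (is hF h j _).unique ((is hF h j u).smul c)

theorem pt_ad (u v : Sp F p) : pt hF h j (ad u v) = pt hF h j u + pt hF h j v :=
  (is hF h j _).unique ((is hF h j u).add (is hF h j v))

theorem norm_pt (u : Sp F p) : ‖pt hF h j u‖ ≤ cW ι D j * nw F.toPre j ψ u.1 := by
  rw [(is hF h j u).norm u.2.1.sm]; exact h.le_nw hF u.2.1 j

theorem dense_pt : DenseRange (pt hF h j : Sp F p → _) :=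
  (h.fr.dense_toH j p).mono <| by
    rintro _ ⟨s, rfl⟩
    exact ⟨⟨s.1, .of_hcs s.2.1 s.2.2.1, s.2.2.2⟩, (is hF h j _).unique (Is.toH s)⟩

end Sp

variable {J : Type} {w : J → M → ℝ} (hF : F.Tame C) (hw : ∀ i, Wd F.toPre (w i) d D)
  (p : M → V →L[ℝ] V) (j : ℕ)

/-- **the model** -/
def wD : Dm I M ι (fun i => (hw i).fr.H j p) fun _ => Sp F p where
  U _ := univ
  B _ := Metric.closedBall 0 1
  op _ := isOpen_univ
  sub _ := subset_univ _
  F i := (hw i).fr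
  C := cT ι C D
  tame i := (hw i).tame hF
  pt i := Sp.pt hF (hw i) j
  y₀ _ := Sp.o
  mem _ _ := trivial
  dns i x _ := Sp.dense_pt hF (hw i) j x
  base i := by rw [Sp.pt_o]; exact Metric.mem_closedBall_self zero_le_one

variable {p j}

theorem wD_ub {f : M → N} (hf : F.Cb f) : UB (wD hF hw p j).P fun _ => f :=
  let ⟨c, hc⟩ := hf; ⟨c, fun i => (hw i).wp.CBs.2 hc⟩

theorem wD_id (hj : 4 ≤ j) : (wD hF hw p j).A0 True j fun _ u => u.1 :=
  Dm.A0.of_coord hj (p := fun _ => p) (δ := fun _ x => x)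
    (UC.id ⟨1, fun _ _ hx => mem_closedBall_zero_iff.1 hx⟩)
    ⟨fun i u => (hw i).wp.Cb.2 (u.2.1.cb hF), UB.const 0⟩ fun i u =>
      ((Sp.is hF (hw i) j u).val_eq ((wD hF hw p j).sup i) hj u.2.1.sm.continuous).symm

theorem wD_ff : (wD hF hw p j).FF fun _ _ => F := by
  obtain ⟨K, hK⟩ : ∃ K : ℕ → ℝ, ∀ k (ψ : M → ℝ), Wd F.toPre ψ d D →
      F.CB k (fun x => exp (-2 * ψ x)) (K k) := by
    choose K K0 hK using CB_exp (I := I) (M := M) (ι := ι) (-2) D
    exact ⟨fun k => K k * |1|, fun k ψ h => hK k F ψ 1 h.sm h.der fun x =>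
      exp_le_one_iff.2 (by linarith [h.nn x])⟩
  refine Dm.ff_fixed (F' := fun _ => F) (fun _ => rfl) (fun a => wD_ub hF hw ⟨_, hF.dv a⟩)
    (fun a b k => wD_ub hF hw ⟨_, hF.c a b k⟩) (fun _ => Mp86.bumps_of_tame _ hF)
    (ρ := fun i x => exp (-2 * w i x))
    ⟨K, fun i => (hw i).wp.CBs.2 ⟨sm_exp (hw i).sm _, fun k => hK k _ (hw i)⟩⟩ fun i g => ?_
  refine Eq.trans ?_ ((hw i).wp.integral _).symm
  simp only [smul_smul, ← exp_add, neg_mul, add_neg_cancel, exp_zero, one_smul]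

theorem wD_dr (hd : (Fintype.card ι : ℝ) * d ^ 2 ≤ 1 / 4) (i : J) :
    Nk89.Dr F ((wD hF hw p j).F i) fun k => 2 * |D k| :=
  (wt_wt F (hw i).sm).dr (hw i).der fun x => by
    refine (Finset.sum_le_card_nsmul _ _ (d ^ 2) fun a _ => ?_).trans (by simpa using hd)
    rw [← sq_abs]; exact pow_le_pow_left₀ (abs_nonneg _) ((hw i).sl a x) 2

/-- the Taylor expansion at the origin -/
theorem wD_taylor {f : (M → V) → M → W}
    (h : (wD hF hw p j).A0 False j fun _ u => f u.1) : ∃ K ≥ 0, ∀ i,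
      ∃ L : (hw i).fr.H j p →L[ℝ] (hw i).fr.H j (triv M W), ‖L‖ ≤ K ∧ ∀ u : Sp F p,
        (∀ x, HasDerivAt (fun ε : ℝ => f (ε • u.1) x)
          ((hw i).fr.val j _ (L (Sp.pt hF (hw i) j u)) x) 0) ∧
        ∃ g, (hw i).fr.val j _ g = f u.1 - f 0 ∧ (‖Sp.pt hF (hw i) j u‖ ≤ 1 →
          ‖g - L (Sp.pt hF (hw i) j u)‖ ≤ K * ‖Sp.pt hF (hw i) j u‖ ^ 2) := by
  obtain ⟨δ, h1, h2⟩ : ∃ δ : ∀ i, (hw i).fr.H j p → (hw i).fr.H j (triv M W),
    UC (wD hF hw p j).toRg δ ∧ ∀ i (u : Sp F p) x,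
      f u.1 x = f 0 x + (hw i).fr.val j _ (δ i (Sp.pt hF (hw i) j u)) x := h.rebase
  obtain ⟨K, K0, hK⟩ := h1.c11 fun _ => convex_closedBall 0 1
  refine ⟨K, K0, fun i => ?_⟩
  have m0 : (0 : (hw i).fr.H j p) ∈ Metric.closedBall 0 1 := Metric.mem_closedBall_self zero_le_one
  have df : ∀ x, HasFDerivAt (δ i) (fderiv ℝ (δ i) x) x := fun x =>
    (h1.sm.diff (i := i) (mem_univ x)).hasFDerivAt
  have e := h2 i
  have e0 : ∀ x, (hw i).fr.val j _ (δ i 0) x = 0 := fun x => by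
    have := e Sp.o x
    rw [Sp.pt_o] at this
    exact left_eq_add.1 this
  refine ⟨fderiv ℝ (δ i) 0, (hK i 0 m0).2.1, fun u => ⟨fun x => ?_, δ i (Sp.pt hF (hw i) j u) - δ i 0,
    funext fun x => by rw [val_sub, Pi.sub_apply, Pi.sub_apply, e0, e u x]; abel, fun hu => ?_⟩⟩
  · have h3 : HasDerivAt (fun ε : ℝ => ε • Sp.pt hF (hw i) j u) (Sp.pt hF (hw i) j u) 0 := by
      simpa using (hasDerivAt_id (0 : ℝ)).smul_const (Sp.pt hF (hw i) j u)
    have h4 := (df ((0 : ℝ) • Sp.pt hF (hw i) j u)).comp_hasDerivAt 0 h3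
    rw [zero_smul] at h4
    have h5 := (((hw i).fr.ev j (triv M W) x).hasFDerivAt.comp_hasDerivAt 0 h4).const_add (f 0 x)
    refine h5.congr_of_eventuallyEq (.of_forall fun ε => ?_)
    have := e (Sp.sc ε u) x
    rw [Sp.pt_sc] at this
    exact this
  · set y := Sp.pt hF (hw i) j u
    have sb : Metric.closedBall (0 : (hw i).fr.H j p) ‖y‖ ⊆ Metric.closedBall 0 1 :=
      Metric.closedBall_subset_closedBall hu
    have := (convex_closedBall (0 : (hw i).fr.H j p) ‖y‖).norm_image_sub_le_of_norm_hasFDerivWithin_le'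
      (f := δ i) (f' := fderiv ℝ (δ i)) (φ := fderiv ℝ (δ i) 0) (C := K * ‖y‖)
      (fun x _ => (df x).hasFDerivWithinAt) (fun x hx => ((hK i 0 m0).2.2 x (sb hx)).2.trans
        (mul_le_mul_of_nonneg_left (by simpa using hx) K0))
      (Metric.mem_closedBall_self (norm_nonneg y)) (mem_closedBall_zero_iff.2 le_rfl)
    simpa [sq, mul_assoc] using this

/-- the derivative at the origin -/
def dz (f : (M → V) → M → W) (u : M → V) (x : M) : W := deriv (fun ε : ℝ => f (ε • u) x) 0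

section tw
variable {f : (M → V) → M → W} (h : ∀ j, 8 ≤ j → (wD hF hw p j).A0 False j fun _ u => f u.1)
include h

theorem tw_der (i : J) (u : Sp F p) (x : M) :
    HasDerivAt (fun ε : ℝ => f (ε • u.1) x) (dz f u.1 x) 0 :=
  let ⟨_, _, hK⟩ := wD_taylor hF hw (h 8 le_rfl)
  let ⟨_, _, hL⟩ := hK i
  ((hL u).1 x).differentiableAt.hasDerivAt

theorem tw_add (i : J) (u v : Sp F p) : dz f (u.1 + v.1) = dz f u.1 + dz f v.1 := by
  obtain ⟨_, _, hK⟩ := wD_taylor hF hw (h 8 le_rfl)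
  obtain ⟨L, _, hL⟩ := hK i
  have e : ∀ u : Sp F p, dz f u.1 = (hw i).fr.val 8 _ (L (Sp.pt hF (hw i) 8 u)) := fun u =>
    funext fun x => ((hL u).1 x).deriv
  rw [e u, e v, ← val_add, ← map_add, ← Sp.pt_ad]
  exact e (u.ad v)

theorem tw_fl (i : J) (u : Sp F p) : Fl F.toPre (dz f u.1) ∧ Fl F.toPre (f u.1 - f 0) := by
  refine ⟨(hw i).fl_of (fl_of_val ((hw i).tame hF) fun j hj => ?_),
    (hw i).fl_of (fl_of_val ((hw i).tame hF) fun j hj => ?_)⟩ <;>
  obtain ⟨_, _, hK⟩ := wD_taylor hF hw (h j hj) <;> obtain ⟨L, _, hL⟩ := hK i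
  · exact ⟨_, funext fun x => ((hL u).1 x).deriv.symm⟩
  · exact (hL u).2.imp fun _ h => h.1

theorem tw_bd {j : ℕ} (hj : 8 ≤ j) : ∃ K ≥ 0, ∃ r₀ > 0, ∀ i (u : Sp F p),
    nw F.toPre j (w i) (dz f u.1) ≤ K * nw F.toPre j (w i) u.1 ∧ (nw F.toPre j (w i) u.1 ≤ r₀ →
      nw F.toPre j (w i) (f u.1 - f 0 - dz f u.1) ≤ K * nw F.toPre j (w i) u.1 ^ 2) := by
  obtain ⟨K, K0, hK⟩ := wD_taylor hF hw (h j hj)
  have a0 := cW_nonneg (ι := ι) D j
  set a := cW ι D j
  refine ⟨a * K * (a + a ^ 2), by positivity, (a + 1)⁻¹, by positivity, fun i u => ?_⟩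
  obtain ⟨L, L1, hL⟩ := hK i
  obtain ⟨h1, g, h2, h3⟩ := hL u
  obtain ⟨f1, f2⟩ := tw_fl hF hw h i u
  have e : (hw i).fr.val j _ (L (Sp.pt hF (hw i) j u)) = dz f u.1 :=
    funext fun x => (h1 x).deriv.symm
  have n : ∀ y : (hw i).fr.H j (triv M W), Fl F.toPre ((hw i).fr.val j _ y) →
      nw F.toPre j (w i) ((hw i).fr.val j _ y) ≤ a * ‖y‖ := fun y hy => by
    rw [(Is.val (Sup.of_tame ((hw i).tame hF)) (by omega) y).norm hy.sm]
    exact (hw i).nw_le hF hy j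
  have n1 : ‖Sp.pt hF (hw i) j u‖ ≤ a * nw F.toPre j (w i) u.1 := Sp.norm_pt hF (hw i) j u
  have n0 := nw_nonneg (F := F) (ψ := w i) j u.1
  set t := nw F.toPre j (w i) u.1
  refine ⟨?_, fun ht => ?_⟩
  · rw [← e] at f1 ⊢
    refine (n _ f1).trans ((mul_le_mul_of_nonneg_left ((L.le_opNorm _).trans
      (mul_le_mul L1 n1 (norm_nonneg _) K0)) a0).trans ?_)
    nlinarith [show 0 ≤ a * K * a ^ 2 * t by positivity]
  · have f3 := f2.sub f1
    rw [← e, ← h2, ← val_sub] at f3 ⊢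
    have h4 : a * t ≤ 1 := (mul_le_mul_of_nonneg_left ht a0).trans (by
      rw [← div_eq_mul_inv, div_le_one (by positivity)]; linarith)
    refine (n _ f3).trans ((mul_le_mul_of_nonneg_left ((h3 (n1.trans h4)).trans
      (mul_le_mul_of_nonneg_left (pow_le_pow_left₀ (norm_nonneg _) n1 2) K0)) a0).trans ?_)
    nlinarith [show 0 ≤ a * K * a * t ^ 2 by positivity]

end tw

end Crest.Agent.X212.Dec35
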