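import Crest.Agent.X212.Dec35.TwA
import Crest.Agent.X212.Dec35.Alg
import Crest.Agent.X212.Cys97.Defs

/-!
# Row 212, KP-TW (helper35): the variations of a background as a family of configurations
-/

set_option autoImplicit false
set_option linter.unusedSectionVars false
set_option maxSynthPendingDepth 3
noncomputable section
open scoped Manifold ContDiff Topology InnerProductSpace
open MeasureTheory Set Function Filter Real

namespace Crest.Agent.X212.Dec35
open An Sob92 Map77 Mon62 Dgr80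
open Ell97 (UB)
open Cyc79 (Wu)

/-! ### smoothing a Lipschitz function -/

theorem b_abs_le (s : ℝ) : b 1 s * |s| ≤ 16 * b (1 / 2) s := by
  have h1 := b_le_exp one_pos s
  have h2 := b_ge (δ := 1 / 2) (by norm_num) s
  have h3 : |s| ≤ 2 * exp (1 / 2 * |s|) := by linarith [add_one_le_exp (1 / 2 * |s|)]
  have h4 : exp (-(1 * |s|)) * exp (1 / 2 * |s|) = exp (-(1 / 2 * |s|)) := by
    rw [← exp_add]; congr 1; ring
  calc _ ≤ 1 * exp (-(1 * |s|)) * (2 * exp (1 / 2 * |s|)) :=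
        mul_le_mul h1 h3 (abs_nonneg _) (by positivity)
    _ ≤ _ := by linarith

theorem smooth_lip {ψ : ℝ → ℝ} {d A : ℝ} (hc : Continuous ψ) (hA : ∀ t, |ψ t| ≤ A) (hd : 0 ≤ d)
    (hl : ∀ s t, |ψ s - ψ t| ≤ d * |s - t|) : ∃ φ : ℝ → ℝ, ContDiff ℝ ∞ φ ∧ ∀ t,
      |φ t - ψ t| ≤ 16 * d ∧ |deriv φ t| ≤ cb 1 1 * (16 * d) ∧
        |deriv (deriv φ) t| ≤ cb 1 2 * (16 * d) := by
  have w := wi_of_bdd one_pos hc.aestronglyMeasurable hA
  refine ⟨_, w.contDiff_wn one_pos, fun t => ?_⟩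
  have w' : WI volume id 1 fun s => ψ s - ψ t := wi_of_bdd one_pos
    (hc.sub continuous_const).aestronglyMeasurable fun s =>
      (abs_sub _ _).trans (add_le_add (hA s) (hA t))
  have e : wn volume id 1 ψ = fun x => wn volume id 1 (fun s => ψ s - ψ t) x + ψ t := by
    funext x
    have i1 : ∫ s, b 1 (s - x) • ψ t = ψ t := by
      rw [integral_smul_const, integral_sub_right_eq_self (b 1) x, integral_b one_pos, one_smul]
    rw [← i1, wn, wn, i1, ← i1, ← integral_add (by rw [i1]; exact w'.int one_pos x)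
      (((integrable_b one_pos).comp_sub_right x).smul_const _), i1]
    exact congrArg _ (funext fun s => by simp only [id, smul_eq_mul]; ring)
  have h0 : wn volume id 1 (fun s => ‖ψ s - ψ t‖) t ≤ 16 * d := by
    have i2 := ((integrable_b (δ := 1 / 2) (by norm_num)).comp_sub_right t).const_mul (16 * d)
    refine (integral_mono (w'.norm.int one_pos t) i2 fun s => ?_).trans (le_of_eq ?_)
    · have := b_pos one_pos (s - t)
      simp only [id, smul_eq_mul, norm_eq_abs]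
      nlinarith [mul_le_mul_of_nonneg_left (hl s t) this.le,
        mul_le_mul_of_nonneg_left (b_abs_le (s - t)) hd]
    · rw [integral_const_mul, integral_sub_right_eq_self (b (1 / 2)) t, integral_b (by norm_num),
        mul_one]
  have d1 : deriv (wn volume id 1 ψ) = wnd volume id 1 1 fun s => ψ s - ψ t := by
    rw [e]; exact funext fun x => ((w'.hasDerivAt_wn one_pos x).add_const _).deriv
  rw [d1, (w'.hasDerivAt_wnd one_pos 1 t).deriv, e, add_sub_cancel_right]
  exact ⟨(w'.norm_wn_le one_pos t).trans h0, (w'.norm_wnd_le one_pos 1 t).trans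
    (mul_le_mul_of_nonneg_left h0 (cb_nonneg _ _)), (w'.norm_wnd_le one_pos 2 t).trans
    (mul_le_mul_of_nonneg_left h0 (cb_nonneg _ _))⟩

variable {E : Type} [NormedAddCommGroup E] [NormedSpace ℝ E] [FiniteDimensional ℝ E]
  [MeasurableSpace E] [BorelSpace E]
  {HM : Type} [TopologicalSpace HM] {I : ModelWithCorners ℝ E HM} [I.Boundaryless]
  {M : Type} [TopologicalSpace M] [ChartedSpace HM M] [IsManifold I ∞ M] [MeasurableSpace M]
  [T2Space M] [BorelSpace M] [SecondCountableTopology M] {ι : Type} [Fintype ι]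
  {lam : Type} [Fintype lam] {B : Base M ι lam} {G : Geo I M ι lam} {C D : ℕ → ℝ} {d : ℝ}
  {J : Type} {w : J → M → ℝ} (hF : G.F.Tame C) (hw : ∀ i, Wd G.F.toPre (w i) d D)

variable (J) in
/-- a constant family of modules -/
def mf (m : Md M ι lam) : MF M ι lam J := ⟨m.N, m.J, fun _ => m.p, fun _ => m.ρ, fun _ => m.j⟩

variable (B) in
/-- the variations of `c` -/
def cfD (c : Cfg M ι lam 0) (j : ℕ) : CF (wD hF hw (mbd B c.m).pC j) (mf J c.m) 0 :=
  ⟨fun _ _ => G.F, fun _ u => (cf c u.1).W, fun _ u => (cf c u.1).Φ, fun _ _ => c.z⟩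

variable {c : Cfg M ι lam 0} {j : ℕ} (hd : (Fintype.card ι : ℝ) * d ^ 2 ≤ 1 / 4)
include hd

theorem cfD_ok (h : Bs B G c) (hj : 8 ≤ j) : (cfD B hF hw c j).OK False j := by
  have h4 : 4 ≤ j := by omega
  have ff := wD_ff hF hw (p := (mbd B c.m).pC) (j := j)
  have id := (wD_id hF hw (p := (mbd B c.m).pC) h4).aff
  exact ⟨hj, ff, Dm.rb_of_dr fun i _ _ => wD_dr hF hw hd i,
    Dm.rb_of_dr fun i _ _ => wD_dr hF hw hd i,
    Dm.re_of_e ff (fun _ _ => ⟨C, hF⟩) fun _ _ => rfl,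
    Dm.re_of_e ff (fun _ _ => ⟨C, hF⟩) fun _ _ => rfl,
    fun a => ((Dm.A0.fixed (wD_ub hF hw (Cb_clm hsL (h.cW a)))).add
      (id.clm h4 (pj _ a ∘L fa))).congr fun _ u x =>
        (map_add _ _ _).trans (congrArg _ (Wz78.hsL_opL _)),
    fun _ u => (cf_adm h.adm u.2.1.sm u.2.2).conn.sk,
    (Dm.A0.fixed (wD_ub hF hw h.cΦ)).add (id.clm h4 fp), Dm.Sc.const _,
    fun a => wD_ub hF hw (h.dat.ρ a), wD_ub hF hw h.dat.j, wD_ub hF hw (h.dat.pg h.hB h.pmx)⟩

theorem wD_uw {V U : Type} [NormedAddCommGroup V] [InnerProductSpace ℝ V] [FiniteDimensional ℝ V]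
    [NormedAddCommGroup U] [InnerProductSpace ℝ U] [FiniteDimensional ℝ U] {p : M → V →L[ℝ] V}
    (hu : ∃ (U : J → M → ℝ) (c : ℝ), 0 < c ∧ ∀ i, Wu G.F (U i) ∧
      ∀ x, c * U i x ≤ exp (2 * w i x) ∧ c * exp (2 * w i x) ≤ U i x) :
    Nonempty (Cys97.Uw U (wD hF hw p j) fun _ _ => G.F) := by
  classical
  exact ⟨⟨fun _ => G.F, C, w, fun _ _ => 0, fun _ => hF, fun i => (hw i).wp, fun i => (hw i).nn,
    Dm.Lc.fixed (UB.const 0), fun _ _ => Nk89.wm_zero.symm, fun _ _ => ⟨C, hF⟩, fun _ => hF, hu,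
    ⟨fun a b _ _ _ => if a = b then 1 else 0, fun _ _ => Dm.Sz.fixed (UB.const _),
      fun _ _ a x => show G.F.e a x = _ by simp⟩,
    Cys97.ra_of_dr fun i _ _ => wD_dr hF hw hd i, Cys97.ra_of_dr fun _ _ _ => dr_refl G.F⟩⟩

end Crest.Agent.X212.Dec35
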